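import Vale.Agent.P182.H922.CritN
import Vale.Agent.P182.H922.GenExt
import Vale.Agent.P182.H250.Poly
import Vale.Agent.P182.H89.Struct

/-!
# Block [R]: a general element of the kernel, and exact realisation on its core

`hypGenT`: for a configuration with `finrank K = 2` there is `t` in `K` whose core is of maximal
dimension and whose derivatives along the connections preserving the configuration span `K`.

`realS_core`: for such a `t` every infinitesimal isospectral deformation of the residues on the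
core is realised by a metric connection on the core.
-/

namespace Vale.Agent.P182.H258

open Module Matrix Filter Vale.Agent.P182.H533 Vale.Agent.P182.B1 Vale.Agent.P182.H922
  Vale.Agent.P182.H250

/-! ### the core is semicontinuous -/

section core

variable {L V : Type*} [Field L] [AddCommGroup V] [Module L V]

theorem words_stable [FiniteDimensional L V] {ι : Type*} (S : ι → End L V) :
    words S (finrank L V + 1) = words S (finrank L V) := by
  have key : ∀ r : ℕ, (∃ i ≤ r, words S (i + 1) = words S i) ∨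
      finrank L (words S (r + 1)) + (r + 1) ≤ finrank L V := by
    intro r
    induction r with
    | zero =>
      by_cases h : words S 1 = words S 0
      · exact Or.inl ⟨0, le_rfl, h⟩
      · right
        have h1 : words S 1 < words S 0 := lt_of_le_of_ne (words_antitone S (Nat.zero_le 1)) h
        have h2 := Submodule.finrank_lt_finrank_of_lt h1
        have h3 : finrank L (words S 0) = finrank L V := finrank_top L V
        have e : (0 : ℕ) + 1 = 1 := rfl
        rw [e]
        omega
    | succ r ih =>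
      rcases ih with ⟨i, hi, h⟩ | h
      · exact Or.inl ⟨i, by omega, h⟩
      · by_cases h' : words S (r + 2) = words S (r + 1)
        · exact Or.inl ⟨r + 1, le_rfl, h'⟩
        · right
          have h1 : words S (r + 2) < words S (r + 1) :=
            lt_of_le_of_ne (words_antitone S (Nat.le_succ _)) h'
          have h2 := Submodule.finrank_lt_finrank_of_lt h1
          have e : r + 1 + 1 = r + 2 := rfl
          rw [e]
          omega
  have h2 : ∀ i, words S (i + 1) = words S i → ∀ m, i ≤ m → words S (m + 1) = words S m := by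
    intro i hi m hm
    induction m, hm using Nat.le_induction with
    | base => exact hi
    | succ m _ ih =>
      conv_lhs => rw [words_succ, ih]
      exact (words_succ S m).symm
  rcases key (finrank L V) with ⟨i, hi, h⟩ | h
  · exact h2 i h _ hi
  · omega

/-- the stable image is the space of the words of length `finrank V` -/
theorem core_W [FiniteDimensional L V] {ι : Type*} {q : V →ₗ[L] V →ₗ[L] L} {S : ι → End L V}
    (C : Core q S) : C.W = words S (finrank L V) := by
  have h1 : ∀ m, C.N ≤ m → words S m = C.W := by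
    intro m hm
    induction m, hm using Nat.le_induction with
    | base => exact C.hN.symm
    | succ m _ ih => rw [words_succ, ih, C.hW]
  have h2 : ∀ m, finrank L V ≤ m → words S m = words S (finrank L V) := by
    intro m hm
    induction m, hm using Nat.le_induction with
    | base => rfl
    | succ m _ ih =>
      rw [words_succ, ih, ← words_succ, words_stable]
  rw [← h1 _ (le_max_left C.N (finrank L V)), h2 _ (le_max_right C.N (finrank L V))]

variable {ι : Type*}

/-- elements of the spaces of words extend to polynomial families -/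
theorem exists_family (T : ι → L → End L V) (hT : ∀ s, IsPoly (T s)) (a : L) (N : ℕ) :
    ∀ v ∈ words (fun s => T s a) N, ∃ f : L → V, IsPoly f ∧ f a = v ∧
      ∀ τ, f τ ∈ words (fun s => T s τ) N := by
  induction N with
  | zero => exact fun v _ => ⟨fun _ => v, H250.IsPoly.const v, rfl, fun _ => trivial⟩
  | succ N ih =>
    intro v hv
    rw [words_succ] at hv
    refine Submodule.iSup_induction _
      (motive := fun v => ∃ f : L → V, IsPoly f ∧ f a = v ∧
        ∀ τ, f τ ∈ words (fun s => T s τ) (N + 1)) hv ?_ ?_ ?_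
    · rintro s _ ⟨w, hw, rfl⟩
      obtain ⟨f, hf, hfa, hfτ⟩ := ih w hw
      refine ⟨fun τ => T s τ (f τ), (hT s).apply hf, congrArg (T s a) hfa, fun τ => ?_⟩
      exact Submodule.mem_iSup_of_mem s (Submodule.mem_map_of_mem (hfτ τ))
    · exact ⟨fun _ => 0, H250.IsPoly.const 0, rfl, fun τ => Submodule.zero_mem _⟩
    · rintro x y ⟨f, hf, hfa, hfτ⟩ ⟨g, hg, hga, hgτ⟩
      exact ⟨fun τ => f τ + g τ, hf.add hg, congrArg₂ (· + ·) hfa hga,
        fun τ => Submodule.add_mem _ (hfτ τ) (hgτ τ)⟩

/-- the dimension of the core is lower semicontinuous -/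
theorem eventually_core [FiniteDimensional L V] {q : V →ₗ[L] V →ₗ[L] L} (hq : IsForm q)
    (T : ι → L → End L V) (hT : ∀ s, IsPoly (T s)) (a : L) (C0 : Core q fun s => T s a) :
    ∀ᶠ τ in cofinite, ∀ C : Core q fun s => T s τ, finrank L C0.V1 ≤ finrank L C.V1 := by
  classical
  let b := finBasis L C0.V1
  have h1 : ∀ i, ∃ f : L → V, IsPoly f ∧ f a = (b i : V) ∧
      ∀ τ, f τ ∈ words (fun s => T s τ) (finrank L V) := by
    intro i
    refine exists_family T hT a _ _ ?_
    rw [← core_W C0]
    exact C0.V1_le (b i).2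
  choose f hf hfa hfτ using h1
  let G : L → (C0.V1 →ₗ[L] V) := fun τ => b.constr L fun i => f i τ
  have hG : IsPoly G := by
    have h2 : G = fun τ => ∑ i, (b.coord i).smulRight (f i τ) := by
      funext τ
      refine b.ext fun j => ?_
      simp only [G, Basis.constr_basis, LinearMap.sum_apply, LinearMap.smulRight_apply,
        Basis.coord_apply, Basis.repr_self]
      rw [Finset.sum_eq_single j]
      · rw [Finsupp.single_eq_same, one_smul]
      · intro i _ hi
        rw [Finsupp.single_eq_of_ne hi, zero_smul]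
      · intro h; exact absurd (Finset.mem_univ _) h
    rw [h2]
    exact H250.IsPoly.sum _ fun i _ => (hf i).map (LinearMap.smulRightₗ (b.coord i))
  have hGa : G a = C0.V1.subtype := b.ext fun i => by
    simp only [G, Basis.constr_basis, hfa, Submodule.subtype_apply]
  have hGm : ∀ τ u, G τ u ∈ words (fun s => T s τ) (finrank L V) := by
    intro τ u
    rw [← b.sum_repr u, map_sum]
    refine Submodule.sum_mem _ fun i _ => ?_
    rw [map_smul]
    refine Submodule.smul_mem _ _ ?_
    simp only [G, Basis.constr_basis]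
    exact hfτ i τ
  -- the Gram map
  let H : L → (C0.V1 →ₗ[L] Dual L C0.V1) := fun τ => (q.compl₁₂ (G τ) (G τ))
  have hH : IsPoly H := by
    have h3 : IsPoly (fun τ => q.comp (G τ)) := hG.comp (H250.IsPoly.const q)
    have h4 : IsPoly (fun τ => (LinearMap.llcomp L C0.V1 V L).flip (G τ)) := hG.map _
    exact h3.comp h4
  have hH0 : LinearMap.ker (H a) = ⊥ := by
    rw [LinearMap.ker_eq_bot']
    intro u hu
    refine (C0.isForm hq).nondeg u fun v => ?_
    have h5 := LinearMap.congr_fun hu v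
    simp only [H, hGa] at h5
    exact h5
  filter_upwards [eventually_injective hH hH0] with τ hτ C
  have h6 : ∀ u, G τ u ∈ C.W := fun u => by rw [core_W C]; exact hGm τ u
  refine LinearMap.finrank_le_finrank_of_injective (f := C.P hq ∘ₗ G τ) ?_
  rw [← LinearMap.ker_eq_bot, LinearMap.ker_eq_bot']
  intro u hu
  rw [LinearMap.ker_eq_bot'] at hτ
  apply hτ
  refine LinearMap.ext fun v => ?_
  show q (G τ u) (G τ v) = 0
  have h7 := C.sub_P_mem_I hq (h6 u)
  have h8 : C.P hq (G τ u) = 0 := hu
  rw [h8, Submodule.coe_zero, sub_zero] at h7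
  exact h7.2 _ (h6 v)

end core

/-! ### a general element -/

section gen

variable {L V J : Type*} [Field L] [AddCommGroup V] [Module L V] [Fintype J] {𝒟 : Cfg L V J}

/-- the connections preserving the configuration preserve the kernel -/
theorem isD_K {c : Conn 𝒟.q} (hc : IsD 𝒟 c) {z : J → V} (hz : z ∈ 𝒟.K) :
    (fun l => c.δ (z l)) ∈ 𝒟.K := by
  refine ⟨fun l => hc.1 _ _ _ (hz.1 l), fun l => ?_⟩
  have h1 := conn_om c z l
  have h2 : ∑ k, c.d (𝒟.Ω l k) • z k = 0 := Finset.sum_eq_zero fun k _ => by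
    rw [hc.2, zero_smul]
  rw [h2, zero_add] at h1
  rw [← h1]
  have h3 := conn_perp c (Y := 0) (fun u v => by simp) (F := 𝒟.C l) (fun v hv => by
    rw [LinearMap.zero_apply, sub_zero]
    exact hc.1 _ _ _ hv) _ (hz.2 l)
  rwa [LinearMap.zero_apply, sub_zero] at h3

omit [Fintype J] in
theorem conn_nat (c : Conn 𝒟.q) (m : ℕ) : c.d (m : L) = 0 := by
  have h1 : c.d 1 = 0 := by
    have := c.leib 1 1
    rw [mul_one, mul_one, one_mul] at this
    simpa using this
  induction m with
  | zero => rw [Nat.cast_zero, map_zero]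
  | succ m ih => rw [Nat.cast_succ, map_add, ih, h1, add_zero]

variable [DecidableEq J]

/-- the residues along a line -/
theorem isPoly_Res (a b : J → V) (s : Fin 3) : IsPoly fun τ : L => Res 𝒟 (a + τ • b) s := by
  have h1 : (fun τ : L => Res 𝒟 (a + τ • b) s) = fun τ =>
      (Res 𝒟 a s + τ • (opr 𝒟.q (Tt L a) (Gm 𝒟.arm 𝒟.Ω s) (Tt L b) +
        opr 𝒟.q (Tt L b) (Gm 𝒟.arm 𝒟.Ω s) (Tt L a))) + τ ^ 2 • Res 𝒟 b s := by
    funext τ
    simp only [Res, Sop, Tt_add, Tt_smul, opr_add_left, opr_add_right, opr_smul_left,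
      opr_smul_right, smul_add, pow_two, mul_smul]
    abel
  rw [h1]
  exact ((H250.IsPoly.const _).add (H250.IsPoly.const _).mulX).add
    ((H250.IsPoly.const _).mulXn 2)

variable [CharZero L]

omit [DecidableEq J] in
/-- translates by integers avoid the zeros of a polynomial -/
theorem exists_nat_of_cofinite {P : L → Prop} (h : ∀ᶠ x in cofinite, P x) (τ : L) :
    ∃ m : ℕ, P (τ + m) := by
  have hf : Function.Injective fun m : ℕ => τ + (m : L) := fun m m' h =>
    Nat.cast_injective (add_left_cancel h)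
  exact (hf.tendsto_cofinite.eventually h).exists

/-- **Block [R], first half.** -/
theorem exists_gen [FiniteDimensional L V] (hG : 𝒟.Good) (hR : 𝒟.Rich)
    (hd : finrank L 𝒟.K = 2) : ∃ t : J → V, MaxCoreC 𝒟 t ∧ Moves 𝒟 t := by
  classical
  have hq := hG.form
  let k := finBasisOfFinrankEq L 𝒟.K hd
  obtain ⟨n, τ, hn1, hn2, hn3⟩ := hR 2
  have hn : ∀ a, IsD 𝒟 (n a) := fun a => ⟨fun s i v hv => hn1 a s i v hv, fun l k => hn2 a l k⟩
  let α : Fin 2 → Fin 2 → Fin 2 → L := fun a i j => k.repr ⟨_, isD_K (hn a) (k i).2⟩ j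
  have hα : ∀ a i l, (n a).δ ((k i : J → V) l) = ∑ j, α a i j • (k j : J → V) l := by
    intro a i l
    have h1 := congrArg (fun x : 𝒟.K => (x : J → V) l)
      (k.sum_repr ⟨_, isD_K (hn a) (k i).2⟩)
    simp only [AddSubmonoidClass.coe_finsetSum, Submodule.coe_smul, Finset.sum_apply,
      Pi.smul_apply] at h1
    exact h1.symm
  have hspan : ∀ z ∈ 𝒟.K, ∃ ζ : Fin 2 → L, z = ζ 0 • (k 0 : J → V) + ζ 1 • (k 1 : J → V) := by
    intro z hz
    have h1 := congrArg Subtype.val (k.sum_repr ⟨z, hz⟩)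
    rw [Fin.sum_univ_two] at h1
    exact ⟨_, h1.symm⟩
  obtain ⟨t0, ht0⟩ := exists_maxCoreC 𝒟
  obtain ⟨C0⟩ := exists_core 𝒟.q (Res 𝒟 t0)
  obtain ⟨ζ, hζ⟩ := hspan t0 ht0.1
  let M : L → L → Matrix (Fin 2) (Fin 2) L := fun x y a j =>
    (if a = j then 1 else 0) + x * α a 0 j + y * α a 1 j
  have hMx : ∀ y, IsPoly fun x => (M x y).det := by
    intro y
    have h1 : ∀ a j, IsPoly fun x => M x y a j := fun a j =>
      ((H250.IsPoly.const _).add (H250.IsPoly.id.mul (H250.IsPoly.const _))).add
        (H250.IsPoly.const _)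
    have h2 : (fun x => (M x y).det) =
        fun x => M x y 0 0 * M x y 1 1 - M x y 0 1 * M x y 1 0 := by
      funext x
      rw [Matrix.det_fin_two]
    rw [h2]
    exact ((h1 0 0).mul (h1 1 1)).sub ((h1 0 1).mul (h1 1 0))
  have hMy : ∀ x, IsPoly fun y => (M x y).det := by
    intro x
    have h1 : ∀ a j, IsPoly fun y => M x y a j := fun a j =>
      (H250.IsPoly.const _).add (H250.IsPoly.id.mul (H250.IsPoly.const _))
    have h2 : (fun y => (M x y).det) =
        fun y => M x y 0 0 * M x y 1 1 - M x y 0 1 * M x y 1 0 := by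
      funext y
      rw [Matrix.det_fin_two]
    rw [h2]
    exact ((h1 0 0).mul (h1 1 1)).sub ((h1 0 1).mul (h1 1 0))
  have hM0 : (M 0 0).det ≠ 0 := by
    have h1 : M 0 0 = 1 := by
      ext a j
      simp only [M, zero_mul, add_zero, Matrix.one_apply]
    rw [h1, Matrix.det_one]
    exact one_ne_zero
  -- the second coordinate
  have hty : t0 = ζ 0 • (k 0 : J → V) + ζ 1 • (k 1 : J → V) := hζ
  have C0' : Core 𝒟.q fun s => Res 𝒟 (ζ 0 • (k 0 : J → V) + ζ 1 • (k 1 : J → V)) s := by
    rw [← hty]; exact C0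
  obtain ⟨m1, hm1a, hm1b⟩ := exists_nat_of_cofinite
    ((eventually_core hq _ (fun s => isPoly_Res (𝒟 := 𝒟) (ζ 0 • (k 0 : J → V)) (k 1 : J → V) s)
      (ζ 1) C0').and ((hMy 0).eventually_ne_zero hM0)) (τ 1)
  set y := τ 1 + (m1 : L) with hy
  obtain ⟨C1⟩ := exists_core 𝒟.q (fun s => Res 𝒟 (ζ 0 • (k 0 : J → V) + y • (k 1 : J → V)) s)
  have C1' : Core 𝒟.q fun s => Res 𝒟 (y • (k 1 : J → V) + ζ 0 • (k 0 : J → V)) s := by
    rw [add_comm (y • _)]; exact C1
  obtain ⟨m0, hm0a, hm0b⟩ := exists_nat_of_cofinite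
    ((eventually_core hq _ (fun s => isPoly_Res (𝒟 := 𝒟) (y • (k 1 : J → V)) (k 0 : J → V) s)
      (ζ 0) C1').and ((hMx y).eventually_ne_zero hm1b)) (τ 0)
  set x := τ 0 + (m0 : L) with hx
  refine ⟨y • (k 1 : J → V) + x • (k 0 : J → V), ⟨?_, ?_⟩, ?_⟩
  · exact Submodule.add_mem _ (Submodule.smul_mem _ _ (k 1).2) (Submodule.smul_mem _ _ (k 0).2)
  · intro t' ht' C C'
    have e1 : finrank L C'.V1 ≤ finrank L C0.V1 := ht0.2 t' ht' C0 C'
    have e2 : finrank L C0.V1 = finrank L C0'.V1 := by
      have key : ∀ (t1 : J → V) (_ : t0 = t1) (D : Core 𝒟.q fun s => Res 𝒟 t1 s),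
          finrank L C0.V1 = finrank L D.V1 := by
        rintro _ rfl D
        exact finrank_core' C0 D
      exact key _ hty C0'
    have e3 : finrank L C0'.V1 ≤ finrank L C1.V1 := hm1a C1
    have e4 : finrank L C1.V1 = finrank L C1'.V1 := by
      have key : ∀ (t1 : J → V) (_ : ζ 0 • (k 0 : J → V) + y • (k 1 : J → V) = t1)
          (D : Core 𝒟.q fun s => Res 𝒟 t1 s), finrank L C1.V1 = finrank L D.V1 := by
        rintro _ rfl D
        exact finrank_core' C1 D
      exact key _ (add_comm _ _) C1'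
    have e5 : finrank L C1'.V1 ≤ finrank L C.V1 := hm0a C
    omega
  · have hdx : ∀ a, (n a).d x = if a = 0 then 1 else 0 := fun a => by
      rw [hx, map_add, conn_nat, add_zero, hn3]
    have hdy : ∀ a, (n a).d y = if a = 1 then 1 else 0 := fun a => by
      rw [hy, map_add, conn_nat, add_zero, hn3]
    have hδ : ∀ a l, (n a).δ ((y • (k 1 : J → V) + x • (k 0 : J → V)) l) =
        ∑ j, M x y a j • (k j : J → V) l := by
      intro a l
      rw [Pi.add_apply, Pi.smul_apply, Pi.smul_apply, map_add, (n a).smul, (n a).smul, hα, hα,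
        hdx, hdy]
      simp only [M, Fin.sum_univ_two]
      fin_cases a <;> simp [add_smul, mul_smul, smul_add] <;> abel
    intro z hz
    obtain ⟨ξ, hξ⟩ := hspan z hz
    have hu : IsUnit (M x y).det := isUnit_iff_ne_zero.mpr hm0b
    set c : Fin 2 → L := ξ ᵥ* (M x y)⁻¹ with hc
    have hcM : c ᵥ* M x y = ξ := by
      rw [hc, Matrix.vecMul_vecMul, Matrix.nonsing_inv_mul _ hu, Matrix.vecMul_one]
    have hcj : ∀ j, c 0 * M x y 0 j + c 1 * M x y 1 j = ξ j := by
      intro j
      have h1 := congrFun hcM j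
      rw [Matrix.vecMul, dotProduct, Fin.sum_univ_two] at h1
      exact h1
    have hD := (hn 0).ccomb (hn 1) (c 0) (c 1)
    refine ⟨ccomb (c 0) (n 0) (c 1) (n 1), hD.1, hD.2, fun l => ?_⟩
    rw [ccomb_δ, hδ, hδ, hξ, Fin.sum_univ_two, Fin.sum_univ_two, Pi.add_apply, Pi.smul_apply,
      Pi.smul_apply, ← hcj 0, ← hcj 1]
    module

/-- **Block [R], second half**: exact realisation on the core. -/
theorem realS_core [FiniteDimensional L V] (hG : 𝒟.Good) (hV : 𝒟.Versal) {t : J → V}
    (ht : t ∈ 𝒟.K) (hm : Moves 𝒟 t) (C : Core 𝒟.q (Res 𝒟 t)) :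
    H89.RealS C.q1 (C.S1 hG.form) := by
  intro A hA hsum
  obtain ⟨X, hX, hXI, hXA, η, hη, hT⟩ :=
    exists_lift 𝒟.arm hG.form two_ne_zero (Tt L t) hG.skew C hA hsum
  obtain ⟨n, R, ⟨r, hr, rfl⟩, h1, h2⟩ := realC hG hV ht X η hX hη hT
  obtain ⟨m, hm1, hm2, hm3⟩ := hm r hr
  have h1' : ∀ j, (ccomb 1 n (-1) m).δ (Tt L t (Pi.single j 1)) =
      X (𝒟.arm j) (Tt L t (Pi.single j 1)) := by
    intro j
    rw [ccomb_δ, h1, Tt_single, Tt_single, hm3]
    module
  have h2' : ∀ i j, (ccomb 1 n (-1) m).d (𝒟.Ω i j) = η i j := by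
    intro i j
    rw [ccomb_d, h2, hm2]
    ring
  obtain ⟨c1, -, hc1⟩ := C.exists_conn hG.form (Sop_SA 𝒟.arm hG.form (Tt L t) hG.skew) hX hXI hXA
    (ccomb 1 n (-1) m) (delta_Sop 𝒟.arm (Tt L t) hG.skew hX hη hT _ h1' h2')
  exact ⟨c1, hc1⟩

omit [CharZero L] in
/-- the null type on the core -/
theorem nul_core [FiniteDimensional L V] (hG : 𝒟.Good) (t : J → V) (C : Core 𝒟.q (Res 𝒟 t))
    (h : NullCore C hG.form) : ∃ p, H89.Nul C.q1 (C.S1 hG.form) p := by
  obtain ⟨p, h1, h2, h3⟩ := h
  have hSA : ∀ s, IsSA 𝒟.q (Res 𝒟 t s) := Sop_SA 𝒟.arm hG.form (Tt L t) hG.skew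
  refine ⟨p, C.isForm hG.form, C.S1_SA hG.form hSA, ?_, h1, h2, h3, C.S1_span hG.form hSA⟩
  have h0 : ∀ v, ∑ s, Res 𝒟 t s v = 0 := by
    intro v
    have h4 : ∀ s, Res 𝒟 t s v = Tt L t (Gm 𝒟.arm 𝒟.Ω s *ᵥ ad 𝒟.q (Tt L t) v) := fun s => rfl
    simp only [h4]
    rw [← map_sum, ← Matrix.sum_mulVec, Gm_sum, Matrix.zero_mulVec, map_zero]
  refine LinearMap.ext fun v => ?_
  rw [LinearMap.sum_apply, LinearMap.zero_apply]
  have h5 : ∀ s, C.S1 hG.form s v = C.P hG.form (Res 𝒟 t s v) := fun s => rfl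
  simp only [h5]
  rw [← map_sum, h0, map_zero]

end gen

section main

universe u v w

variable (L : Type u) (J : Type w) [Field L] [Fintype J] [DecidableEq J] [CharZero L]

/-- **Block [R]** for the null case. -/
theorem hypGenT : HypGenT.{u, v, w} L J := fun _ _ _ _ _ h => exists_gen h.good h.rich h.dim

end main

end Vale.Agent.P182.H258
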