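import Vale.Agent.P182.H58.Glue7I

/-!
# Chains and (S) at two bases: parity (note 20078 (P) of helper563)

A chain `T_a ∈ U_i ⊗ U_j` at the base `(x, y)` is also a chain at the base `(x', y')` with
`u_i' = -u_i`, `u_j' = u_j`.  Row (S) at both bases gives `T x` and `T^† x` separately.
-/

namespace Vale.Agent.P182.H258

open Module Matrix Vale.Agent.P182.H533 Vale.Agent.P182.B1 Vale.Agent.P182.H922
  Vale.Agent.P182.H578 Vale.Agent.P182.H588 Vale.Agent.P182.H983 Vale.Agent.P182.H58

universe u v w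

variable {L : Type u} {V : Type v} {J : Type w} [Field L] [AddCommGroup V] [Module L V]
  [Fintype J] [DecidableEq J] {𝒟 : Cfg L V J} {u : J → L} {t t' : J → V}
  {W I : Submodule L V} {m : ℕ} {U : Fin m → Submodule L V} {d : Fin m → L} {p : Fin 3 → ℕ}

section flip

variable {q : V →ₗ[L] V →ₗ[L] L} {U1 U2 : Submodule L V} {T Td : End L V}

/-- the adjoint of a tensor has values in the second factor -/
theorem flip_mem [FiniteDimensional L V] (hq : IsForm q) (hT : T ∈ Ten q U1 U2)
    (ha : ∀ v w, q (T v) w = q v (Td w)) (w : V) : Td w ∈ U2 := by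
  rw [← H62.perp_perp hq U2]
  intro v hv
  rw [hq.symm, ← ha, hT.2 v hv, map_zero, LinearMap.zero_apply]

/-- the adjoint of a tensor is a tensor -/
theorem flip_ten [FiniteDimensional L V] (hq : IsForm q) (hT : T ∈ Ten q U1 U2)
    (ha : ∀ v w, q (T v) w = q v (Td w)) : Td ∈ Ten q U2 U1 :=
  ⟨flip_mem hq hT ha, fun v hv => by
    apply hq.nondeg
    intro w
    rw [hq.symm, ← ha, hq.symm]
    exact hv _ (hT.1 w)⟩

/-- a tensor kills everything orthogonal to the second factor: two vectors which pair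
proportionally with the second factor have proportional images -/
theorem ten_smul (hq : IsForm q) [FiniteDimensional L V] (hT : T ∈ Ten q U1 U2) {x y : V} {c : L}
    (h : ∀ w ∈ U2, q x w = c * q y w) : T x = c • T y := by
  rw [← map_smul, ← sub_eq_zero, ← map_sub]
  refine hT.2 _ fun w hw => ?_
  rw [map_sub, LinearMap.sub_apply, map_smul, LinearMap.smul_apply, h w hw, smul_eq_mul, sub_self]

end flip

variable [FiniteDimensional L V]

omit [DecidableEq J] [FiniteDimensional L V] in
/-- the dual families pair in the same way -/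
theorem om_rel {τ t : J → V} {w : V} {c : L} (h : ∀ l, 𝒟.q (τ l) w = c * 𝒟.q (t l) w) (l : J) :
    𝒟.q (𝒟.om τ l) w = c * 𝒟.q (𝒟.om t l) w := by
  simp only [Cfg.om, map_sum, map_smul, LinearMap.sum_apply, LinearMap.smul_apply, smul_eq_mul,
    Finset.mul_sum]
  exact Finset.sum_congr rfl fun k _ => by rw [h k]; ring

section base

variable (hG : 𝒟.Good) (B : Blk 𝒟 u t t' W I U d p)

include B

omit [FiniteDimensional L V] in
/-- the pairing of the two-parameter base with a block -/
theorem q_tm (x y : L) (k : Fin m) {w : V} (hw : w ∈ U k) (l : J) :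
    𝒟.q (tm t t' x y l) w = (x + y * d k) * 𝒟.q (t l) w := by
  have h : tm t t' x y l = x • t l + y • t' l := rfl
  rw [h, map_add, LinearMap.add_apply, map_smul, map_smul, LinearMap.smul_apply,
    LinearMap.smul_apply, smul_eq_mul, smul_eq_mul, B.star k w hw l]
  ring

include hG

/-- **The families of tensors at the two-parameter base** -/
theorem fam_tm (x y : L) {k : Fin m} {U1 : Submodule L V} {T : Fin 3 → End L V}
    (hT : ∀ a, T a ∈ Ten 𝒟.q U1 (U k)) :
    fam 𝒟 (tm t t' x y) T = (x + y * d k) • fam 𝒟 t T := by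
  have h1 : ∀ l, T (𝒟.arm l) (tm t t' x y l) = (x + y * d k) • T (𝒟.arm l) (t l) := fun l =>
    ten_smul hG.form (hT _) fun w hw => q_tm B x y k hw l
  have h2 : ∀ l, T (𝒟.arm l) (𝒟.om (tm t t' x y) l) = (x + y * d k) • T (𝒟.arm l) (𝒟.om t l) :=
    fun l => ten_smul hG.form (hT _) fun w hw => om_rel (fun l => q_tm B x y k hw l) l
  exact Prod.ext (funext h1) (funext h2)

variable (hK : KRel 𝒟.arm 𝒟.q 𝒟.Ω (Tt L '' (Ku 𝒟 u : Set (J → V))))

include hK

/-- **(P)**: row (S) at the two bases `(u_i, u_j)` and `(-u_i, u_j)` gives the chain and its flip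
separately. -/
theorem chain_WF [CharZero L] {i j : Fin m} (hij : i ≠ j) {x y x' y' : L}
    (h1 : x' + y' * d i = -(x + y * d i)) (h2 : x' + y' * d j = x + y * d j)
    (hi : x + y * d i ≠ 0) (hj : x + y * d j ≠ 0)
    (hS : RowS 𝒟 u t t' W I x y) (hS' : RowS 𝒟 u t t' W I x' y') {T Td : Fin 3 → End L V}
    (hT : ∀ a, T a ∈ Ten 𝒟.q (U i) (U j)) (hTd : ∀ a v w, 𝒟.q (T a v) w = 𝒟.q v (Td a w))
    (hsum : ∑ a, (Res 𝒟 (tm t t' x y) a * T a - T a * Res 𝒟 (tm t t' x y) a) = 0)
    (hcomm : ∀ a, ∀ v ∈ U j, Res 𝒟 (tm t t' x y) a (T a v) -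
      T a (Res 𝒟 (tm t t' x y) a v) ∈ I) :
    fam 𝒟 t T ∈ WF 𝒟 t W I u ∧ fam 𝒟 t Td ∈ WF 𝒟 t W I u := by
  have hq := hG.form
  have hTdm : ∀ a, Td a ∈ Ten 𝒟.q (U j) (U i) := fun a => flip_ten hq (hT a) (hTd a)
  have hTd' : ∀ a v w, 𝒟.q (Td a v) w = 𝒟.q v (T a w) := fun a v w => by
    rw [hq.symm, ← hTd, hq.symm]
  have hUW : ∀ k, U k ≤ W := fun k => B.supU ▸ le_iSup U k
  have hUS : ∀ (x y : L) k a, ∀ w ∈ U k, Res 𝒟 (tm t t' x y) a w ∈ U k := fun x y k a w hw => by
    rw [Glue7.res_tm hG hK B x y hw]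
    exact (U k).smul_mem _ (Glue7.res_mem_U hG hK B hw a)
  have hSA : ∀ (x y : L) a, IsSA 𝒟.q (Res 𝒟 (tm t t' x y) a) := fun x y a =>
    Sop_SA 𝒟.arm hq (Tt L (tm t t' x y)) hG.skew a
  -- the residues at the two bases agree on `U i` and `U j`
  have hRi : ∀ a, ∀ w ∈ U i, Res 𝒟 (tm t t' x' y') a w = Res 𝒟 (tm t t' x y) a w :=
    fun a w hw => by
      rw [Glue7.res_tm hG hK B x y hw, Glue7.res_tm hG hK B x' y' hw, h1, neg_sq]
  have hRj : ∀ a, ∀ w ∈ U j, Res 𝒟 (tm t t' x' y') a w = Res 𝒟 (tm t t' x y) a w :=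
    fun a w hw => by
      rw [Glue7.res_tm hG hK B x y hw, Glue7.res_tm hG hK B x' y' hw, h2]
  have hTR : ∀ a v, T a (Res 𝒟 (tm t t' x' y') a v) = T a (Res 𝒟 (tm t t' x y) a v) := by
    intro a v
    apply hq.ext
    intro w
    rw [hTd, hTd, hSA x' y', hSA x y, hRj a _ ((hTdm a).1 w)]
  have hsum' : ∑ a, (Res 𝒟 (tm t t' x' y') a * T a - T a * Res 𝒟 (tm t t' x' y') a) = 0 := by
    rw [← hsum]
    refine Finset.sum_congr rfl fun a _ => LinearMap.ext fun v => ?_
    rw [LinearMap.sub_apply, LinearMap.sub_apply, Module.End.mul_apply, Module.End.mul_apply,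
      Module.End.mul_apply, Module.End.mul_apply, hRi a _ ((hT a).1 v), hTR]
  have hcomm' : ∀ a, ∀ v ∈ U j, Res 𝒟 (tm t t' x' y') a (T a v) -
      T a (Res 𝒟 (tm t t' x' y') a v) ∈ I := fun a v hv => by
    rw [hRi a _ ((hT a).1 v), hTR]
    exact hcomm a v hv
  -- the general step
  have key : ∀ x y : L, RowS 𝒟 u t t' W I x y →
      (∑ a, (Res 𝒟 (tm t t' x y) a * T a - T a * Res 𝒟 (tm t t' x y) a) = 0) →
      (∀ a, ∀ v ∈ U j, Res 𝒟 (tm t t' x y) a (T a v) -
        T a (Res 𝒟 (tm t t' x y) a v) ∈ I) →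
      (x + y * d j) • fam 𝒟 t T + (x + y * d i) • fam 𝒟 t Td ∈ WF 𝒟 t W I u := by
    intro x y hS hsum hcomm
    have e : fam 𝒟 (tm t t' x y) (T + Td) =
        (x + y * d j) • fam 𝒟 t T + (x + y * d i) • fam 𝒟 t Td := by
      rw [← fam_tm hG B x y hT, ← fam_tm hG B x y hTdm]
      rfl
    rw [← e]
    refine hS (T + Td) (fun a => ?_) (fun a v w => ?_) (fun a w hw => ?_) ?_
    · refine add_mem ⟨fun v => hUW i ((hT a).1 v), fun v hv => (hT a).2 v fun w hw =>
        hv w (hUW j hw)⟩ ⟨fun v => hUW j ((hTdm a).1 v), fun v hv => (hTdm a).2 v fun w hw =>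
        hv w (hUW i hw)⟩
    · show 𝒟.q (T a v + Td a v) w = 𝒟.q v (T a w + Td a w)
      rw [map_add, LinearMap.add_apply, map_add, hTd, hTd', add_comm]
    · -- commuting modulo `I`
      have hIW : ∀ v : V, v ∈ W → (∀ w ∈ W, 𝒟.q v w = 0) → v ∈ I := fun v h1 h2 => by
        rw [B.I_eq]; exact ⟨h1, h2⟩
      have hk : ∀ k, k ≠ j → ∀ v ∈ U k, T a v = 0 := fun k hkj v hv =>
        (hT a).2 v fun w hw => B.ortho k j hkj v hv w hw
      have hkd : ∀ k, k ≠ i → ∀ v ∈ U k, Td a v = 0 := fun k hki v hv =>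
        (hTdm a).2 v fun w hw => B.ortho k i hki v hv w hw
      have hIq : ∀ v ∈ I, ∀ w ∈ W, 𝒟.q w v = 0 := fun v hv w hw => by
        rw [B.I_eq] at hv
        rw [hq.symm]; exact hv.2 w hw
      rw [← B.supU] at hw
      refine Submodule.iSup_induction U
        (motive := fun w => (T + Td) a (Res 𝒟 (tm t t' x y) a w) -
          Res 𝒟 (tm t t' x y) a ((T + Td) a w) ∈ I) hw ?_ ?_ ?_
      · intro k w hw
        show (T a (Res 𝒟 (tm t t' x y) a w) + Td a (Res 𝒟 (tm t t' x y) a w)) -
          Res 𝒟 (tm t t' x y) a (T a w + Td a w) ∈ I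
        have hRw := hUS x y k a w hw
        by_cases hkj : k = j
        · subst hkj
          rw [hkd k hij.symm _ hw, hkd k hij.symm _ hRw, add_zero, add_zero]
          have := hcomm a w hw
          rw [← Submodule.neg_mem_iff, neg_sub] at this
          exact this
        · rw [hk k hkj _ hw, hk k hkj _ hRw, zero_add, zero_add]
          by_cases hki : k = i
          · subst hki
            refine hIW _ (sub_mem (hUW j ((hTdm a).1 _)) (hUW j (hUS x y j a _ ((hTdm a).1 _))))
              fun v hv => ?_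
            rw [← B.supU] at hv
            refine Submodule.iSup_induction U
              (motive := fun v => 𝒟.q (Td a (Res 𝒟 (tm t t' x y) a w) -
                Res 𝒟 (tm t t' x y) a (Td a w)) v = 0) hv ?_ ?_ ?_
            · intro r v hv
              rw [map_sub, LinearMap.sub_apply, hTd', hSA x y, hSA x y, hTd', ← map_sub]
              by_cases hrj : r = j
              · subst hrj
                exact hIq _ (hcomm a v hv) _ (hUW k hw)
              · rw [hk r hrj _ hv, hk r hrj _ (hUS x y r a v hv), map_zero, sub_zero, map_zero]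
            · rw [map_zero]
            · intro v v' hv hv'
              rw [map_add, hv, hv', add_zero]
          · rw [hkd k hki _ hw, hkd k hki _ hRw, map_zero, sub_zero]
            exact I.zero_mem
      · rw [map_zero, map_zero, map_zero, sub_zero]; exact I.zero_mem
      · intro v w hv hw
        have e : (T + Td) a (Res 𝒟 (tm t t' x y) a (v + w)) -
            Res 𝒟 (tm t t' x y) a ((T + Td) a (v + w)) =
            ((T + Td) a (Res 𝒟 (tm t t' x y) a v) - Res 𝒟 (tm t t' x y) a ((T + Td) a v)) +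
            ((T + Td) a (Res 𝒟 (tm t t' x y) a w) - Res 𝒟 (tm t t' x y) a ((T + Td) a w)) := by
          simp only [map_add]; abel
        rw [e]
        exact add_mem hv hw
    · -- the chain relation
      have e1 : ∑ a, (Res 𝒟 (tm t t' x y) a * Td a - Td a * Res 𝒟 (tm t t' x y) a) = 0 := by
        refine LinearMap.ext fun v => hq.ext fun w => ?_
        have h3 := congrArg (𝒟.q v) (LinearMap.congr_fun hsum w)
        rw [LinearMap.sum_apply, map_sum, LinearMap.zero_apply, map_zero] at h3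
        rw [LinearMap.sum_apply, map_sum, LinearMap.sum_apply, LinearMap.zero_apply, map_zero,
          LinearMap.zero_apply, ← neg_eq_zero, ← Finset.sum_neg_distrib, ← h3]
        refine Finset.sum_congr rfl fun a _ => ?_
        rw [LinearMap.sub_apply, LinearMap.sub_apply, Module.End.mul_apply, Module.End.mul_apply,
          Module.End.mul_apply, Module.End.mul_apply, map_sub, map_sub, LinearMap.sub_apply,
          hSA x y, hTd', hTd', hSA x y, neg_sub]
      have e2 : ∀ a, Res 𝒟 (tm t t' x y) a * (T + Td) a - (T + Td) a * Res 𝒟 (tm t t' x y) a =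
          (Res 𝒟 (tm t t' x y) a * T a - T a * Res 𝒟 (tm t t' x y) a) +
          (Res 𝒟 (tm t t' x y) a * Td a - Td a * Res 𝒟 (tm t t' x y) a) := fun a => by
        rw [Pi.add_apply, mul_add, add_mul]
        abel
      rw [Finset.sum_congr rfl fun a _ => e2 a, Finset.sum_add_distrib, hsum, e1, add_zero]
  have k1 := key x y hS hsum hcomm
  have k2 := key x' y' hS' hsum' hcomm'
  rw [h1, h2] at k2
  have h2L : (2 : L) ≠ 0 := two_ne_zero
  constructor
  · have h3 := add_mem k1 k2
    have e : (x + y * d j) • fam 𝒟 t T + (x + y * d i) • fam 𝒟 t Td +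
        ((x + y * d j) • fam 𝒟 t T + (-(x + y * d i)) • fam 𝒟 t Td) =
        (2 * (x + y * d j)) • fam 𝒟 t T := by
      module
    rw [e] at h3
    exact (Submodule.smul_mem_iff _ (mul_ne_zero h2L hj)).1 h3
  · have h3 := sub_mem k1 k2
    have e : (x + y * d j) • fam 𝒟 t T + (x + y * d i) • fam 𝒟 t Td -
        ((x + y * d j) • fam 𝒟 t T + (-(x + y * d i)) • fam 𝒟 t Td) =
        (2 * (x + y * d i)) • fam 𝒟 t Td := by
      module
    rw [e] at h3
    exact (Submodule.smul_mem_iff _ (mul_ne_zero h2L hi)).1 h3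

end base

end Vale.Agent.P182.H258
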