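import Vale.Agent.P182.H96.B7

/-!
# Case (g) for arbitrary heights: the core

The endgame of `H96` with the weaker data `Dat` at an isotropic element: no parity and no class of
columns is used.
-/

namespace Vale.Agent.P182.H258

open Module Matrix Vale.Agent.P182.H533 Vale.Agent.P182.H96 Vale.Agent.P182.H96.Cf

section core

variable {L V J ι : Type*} [Field L] [AddCommGroup V] [Module L V] [Fintype J]
  {a : Cf L V J ι}

/-- the data at an isotropic element with span `R`: an isotropic `S ⊇ R` with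
`Ext(N, S/R) = 0` -/
structure Dat (a : Cf L V J ι) (R S : Submodule L V) : Prop where
  le : R ≤ S
  iso : S ≤ pp a.q S
  ext : a.E (pp a.q R) ⊓ a.perp (a.E S) ≤ a.E (pp a.q S)

theorem Dat.isoR {R S : Submodule L V} (D : Dat a R S) : R ≤ pp a.q R :=
  D.le.trans (D.iso.trans (pp_anti D.le))

theorem M_zero {S : Submodule L V} {t w : J → V} (ht : ∀ l, t l ∈ S)
    (hw : ∀ l, w l ∈ pp a.q S) (h : a.Good) : a.M w t = 0 := by
  rw [Cf.M_apply]
  refine Finset.sum_eq_zero fun l _ => ?_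
  rw [h.form.symm]
  exact hw l _ (om_mem ht l)

theorem E_le_perp (h : a.Good) {S : Submodule L V} : a.E S ≤ a.perp (a.E (pp a.q S)) := by
  intro t ht
  exact mem_perp.mpr ⟨fun l => (mem_E.mp ht l).1, fun w hw =>
    M_zero (fun l => (mem_E.mp ht l).2) (fun l => (mem_E.mp hw l).2) h⟩

theorem Dat.K_le {R S : Submodule L V} (D : Dat a R S) (hK : a.K ≤ a.E (pp a.q R)) :
    a.K ≤ a.E (pp a.q S) :=
  (le_inf hK (K_le_perp _ (E_le_top _))).trans D.ext

theorem Dat.h6 [FiniteDimensional L V] (h : a.Good) {R S : Submodule L V} (D : Dat a R S)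
    (hK : a.K ≤ a.E (pp a.q R)) :
    a.perp (a.E (pp a.q S)) = a.E S ⊔ a.perp (a.E (pp a.q R)) := by
  refine le_antisymm ?_ (sup_le (E_le_perp h) (po_anti (E_mono (pp_anti D.le))))
  set X := a.E S ⊔ a.perp (a.E (pp a.q R)) with hX
  have hXE : X ≤ a.E ⊤ := sup_le (E_le_top _) (po_le _)
  have hKX : a.K ≤ X := (K_le_perp _ (E_le_top _)).trans le_sup_right
  have h1 : a.perp (a.perp X) = X := by
    have : a.perp (a.perp X) = X ⊔ a.K := po_po h.M_skew hXE
    rw [this]
    exact sup_eq_left.mpr hKX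
  have h2 : a.perp X = a.perp (a.E S) ⊓ a.E (pp a.q R) := by
    have e1 : a.perp X = a.perp (a.E S) ⊓ a.perp (a.perp (a.E (pp a.q R))) := po_sup _ _
    have e2 : a.perp (a.perp (a.E (pp a.q R))) = a.E (pp a.q R) ⊔ a.K :=
      po_po h.M_skew (E_le_top _)
    rw [e1, e2, sup_eq_left.mpr hK]
  rw [← h1, h2, inf_comm]
  exact po_anti D.ext

theorem UU_le {S : Submodule L V} (hKS : a.K ≤ a.E S) : a.UU ≤ S := fun u hu =>
  UU_induction (a := a) (p := fun u => u ∈ S) S.zero_mem (fun _ _ => S.add_mem)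
    (fun _ _ => S.smul_mem _) (fun _ ht l => (mem_E.mp (hKS ht) l).2) u hu

/-- **(star).** -/
theorem Dat.star [FiniteDimensional L V] (h : a.Good) {R S : Submodule L V} (D : Dat a R S)
    (hKS : a.K ≤ a.E S) {v : J → V} (hv1 : v ∈ a.E (pp a.q R))
    (hv2 : v ∈ a.perp (a.E (pp a.q a.UU))) : v ∈ a.E (pp a.q S) := by
  have hSR : a.E S ≤ a.E (pp a.q R) := E_mono (D.iso.trans (pp_anti D.le))
  have h7 : v ∈ a.E S ⊔ a.perp (a.E (pp a.q R)) := by
    rw [← D.h6 h (hKS.trans hSR)]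
    exact po_anti (E_mono (pp_anti (UU_le hKS))) hv2
  obtain ⟨e, he, f, hf, rfl⟩ := Submodule.mem_sup.mp h7
  have hf' : f ∈ a.E (pp a.q R) := by
    have := (a.E (pp a.q R)).sub_mem hv1 (hSR he)
    rwa [add_sub_cancel_left] at this
  exact (a.E (pp a.q S)).add_mem (E_mono D.iso he) (D.ext ⟨hf', po_anti hSR hf⟩)

/-- the conclusion of (5a) at `x` -/
def FA (a : Cf L V J ι) (x : J → V) : Prop :=
  ∀ c : Conn a.q, a.IsX c → (∀ l, ∀ u ∈ a.UU, a.q (c.δ (x l)) u = 0) →
    ∀ u ∈ a.UU, ∀ u' ∈ a.UU, a.q (c.δ u) u' = 0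

/-- `x` is of type (i): some other element of the kernel is an infinitesimal movement of `x` -/
def TypeI (a : Cf L V J ι) (x : J → V) : Prop :=
  ∃ y ∈ a.K, ∃ b, a.Eps (Submodule.span L (Set.range x)) b ∧
    (∀ l, y l - b (a.arm l) (x l) ∈ Submodule.span L (Set.range x)) ∧
    ¬ ∀ l, y l ∈ Submodule.span L (Set.range x)

section five_a

variable [DecidableEq J] [DecidableEq ι] [Fintype ι] [FiniteDimensional L V]

omit [DecidableEq J] [DecidableEq ι] [Fintype ι] [FiniteDimensional L V] in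
/-- reduction to one more element of the kernel -/
theorem fa_red (hK : finrank L a.K = 2)
    (hH : ∀ x ∈ a.K, ∀ y ∈ a.K, ∀ l k, a.q (x l) (y k) = 0) (h : a.Good) {x : J → V}
    (hx : x ∈ a.K) (hx0 : x ≠ 0) {c : Conn a.q}
    (hcx : ∀ l, ∀ u ∈ a.UU, a.q (c.δ (x l)) u = 0) {y : J → V} (hy : y ∈ a.K)
    (hyx : ∀ b : L, y ≠ b • x) (hyy : ∀ l k, a.q (c.δ (y l)) (y k) = 0) :
    ∀ u ∈ a.UU, ∀ u' ∈ a.UU, a.q (c.δ u) u' = 0 := by
  have hU := U_iso hH
  have hcoord := exists_coord hK hx hy hx0 hyx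
  have e1 : ∀ l, ∀ u' ∈ a.UU, a.q (c.δ (y l)) u' = 0 := by
    intro l
    refine UU_induction (a := a) (p := fun u' => a.q (c.δ (y l)) u' = 0) (map_zero _)
      (fun _ _ h3 h4 => by rw [map_add, h3, h4, add_zero])
      (fun _ _ h3 => by rw [map_smul, h3, smul_zero]) ?_
    intro t ht k
    obtain ⟨α, β, rfl⟩ := hcoord t ht
    rw [Pi.add_apply, Pi.smul_apply, Pi.smul_apply, map_add, map_smul, map_smul, hyy,
      h.der_skew hU c (mem_UU hy l) (mem_UU hx k), hcx k _ (mem_UU hy l), neg_zero, smul_zero,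
      smul_zero, add_zero]
  have e2 := UU_induction (a := a)
    (p := fun u => u ∈ a.UU ∧ ∀ u' ∈ a.UU, a.q (c.δ u) u' = 0)
    ⟨a.UU.zero_mem, fun u' _ => by rw [map_zero, map_zero, LinearMap.zero_apply]⟩
    (fun _ _ h3 h4 => ⟨a.UU.add_mem h3.1 h4.1, fun u' hu' => by
      rw [map_add, map_add, LinearMap.add_apply, h3.2 u' hu', h4.2 u' hu', add_zero]⟩)
    (fun b u h3 => ⟨a.UU.smul_mem b h3.1, fun u' hu' => by
      rw [c.smul, map_add, map_smul, map_smul, LinearMap.add_apply, LinearMap.smul_apply,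
        LinearMap.smul_apply, h3.2 u' hu', hU hu' u h3.1, smul_zero, smul_zero, add_zero]⟩)
    (fun t ht k => ⟨mem_UU ht k, fun u' hu' => by
      obtain ⟨α, β, rfl⟩ := hcoord t ht
      rw [Pi.add_apply, Pi.smul_apply, Pi.smul_apply, map_add, c.smul, c.smul]
      simp only [map_add, map_smul, LinearMap.add_apply, LinearMap.smul_apply]
      rw [hcx k u' hu', e1 k u' hu', hU hu' _ (mem_UU hx k), hU hu' _ (mem_UU hy k)]
      simp⟩)
  exact fun u hu => (e2 u hu).2

/-- **(5a)** at elements of type (i) -/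
theorem fa_typeI (h : a.Good) (h2 : (2 : L) ≠ 0) (hV : a.Versal) (hN : a.N1sq)
    (hK : finrank L a.K = 2)
    (hH : ∀ x ∈ a.K, ∀ y ∈ a.K, ∀ l k, a.q (x l) (y k) = 0) {x : J → V} (hx : x ∈ a.K)
    (hx0 : x ≠ 0) (hI : TypeI a x) : FA a x := by
  intro c hc hcx
  have hU := U_iso hH
  set R := Submodule.span L (Set.range x) with hRx
  have hxR : ∀ l, x l ∈ R := fun l => Submodule.subset_span ⟨l, rfl⟩
  have hRU : R ≤ a.UU := by
    rw [hRx, Submodule.span_le]
    rintro _ ⟨k, rfl⟩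
    exact mem_UU hx k
  have hR : R ≤ pp a.q R := hRU.trans (hU.trans (pp_anti hRU))
  -- `c` kills `R`
  have hcR : ∀ r ∈ R, ∀ u ∈ a.UU, a.q (c.δ r) u = 0 := by
    intro r hr u hu
    rw [hRx] at hr
    induction hr using Submodule.span_induction with
    | mem r hr =>
      obtain ⟨k, rfl⟩ := hr
      exact hcx k u hu
    | zero => rw [map_zero, map_zero, LinearMap.zero_apply]
    | add r r' _ _ h3 h4 => rw [map_add, map_add, LinearMap.add_apply, h3, h4, add_zero]
    | smul b r hr h3 =>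
      rw [← hRx] at hr
      rw [c.smul, map_add, map_smul, map_smul, LinearMap.add_apply, LinearMap.smul_apply,
        LinearMap.smul_apply, h3, hU hu r (hRU hr), smul_zero, smul_zero, add_zero]
  obtain ⟨y, hy, b, hb, hyb, hyR⟩ := hI
  have hyx : ∀ b : L, y ≠ b • x := by
    rintro b rfl
    exact hyR fun l => R.smul_mem b (hxR l)
  apply fa_red hK hH h hx hx0 hcx hy hyx
  have hkill : ∀ l, ∀ r ∈ R, a.q (c.δ (y l)) r = 0 := fun l r hr => by
    rw [h.der_skew hU c (mem_UU hy l) (hRU hr), hcR r hr _ (mem_UU hy l), neg_zero]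
  have hbU : ∀ s, ∀ r ∈ R, b s r ∈ a.UU := by
    intro s r hr
    rw [hRx] at hr
    induction hr using Submodule.span_induction with
    | mem r hr =>
      obtain ⟨k, rfl⟩ := hr
      have e1 := a.UU.add_mem (a.UU.sub_mem (mem_UU hy k) (hRU (hyb k)))
        (hRU (hb.comp s (a.arm k) _ (hxR k)))
      convert e1 using 1
      abel
    | zero => rw [map_zero]; exact a.UU.zero_mem
    | add r r' _ _ h3 h4 => rw [map_add]; exact a.UU.add_mem h3 h4
    | smul b r _ h3 => rw [map_smul]; exact a.UU.smul_mem _ h3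
  have hind : ∀ l s s', ∀ r ∈ R, a.q (c.δ (y l)) (b s r) = a.q (c.δ (y l)) (b s' r) := by
    intro l s s' r hr
    have := hkill l _ (hb.comp s s' r hr)
    rwa [map_sub, sub_eq_zero] at this
  have hδC : ∀ l, c.δ (y l) ∈ a.C l := fun l => hc _ _ _ ((mem_K'.mp hy).1 l)
  let z : J → V := fun l => - b (a.arm l) (c.δ (y l))
  have hz : ∀ l, z l ∈ a.C l := fun l => (a.C l).neg_mem (hb.pres l _ (hδC l))
  have hzr : ∀ l s, ∀ r ∈ R, a.q (z l) r = a.q (c.δ (y l)) (b s r) := by
    intro l s r hr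
    show a.q (- b (a.arm l) (c.δ (y l))) r = _
    rw [map_neg, LinearMap.neg_apply, hb.sk, neg_neg]
    exact hind l _ _ r hr
  have hzR : ∀ t ∈ a.E R, a.M t z = 0 := by
    intro t ht
    have ht' := mem_E.mp ht
    rw [h.M_skew, M_apply, neg_eq_zero]
    have e1 : ∀ l, a.q (z l) (om a.Ω t l) =
        ∑ k, a.Ω l k * a.q (c.δ (y l)) (b (a.arm k) (t k)) := by
      intro l
      rw [om, map_sum]
      exact Finset.sum_congr rfl fun k _ => by
        rw [map_smul, smul_eq_mul, hzr l (a.arm k) _ (ht' k).2]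
    simp only [e1]
    have e2 : a.M (fun k => b (a.arm k) (t k)) (fun l => c.δ (y l)) = 0 :=
      (mem_perp.mp (h.der_perp hc hy)).2 _ (mem_E.mpr fun k =>
        ⟨hb.pres k _ (ht' k).1, hU (hbU _ _ (ht' k).2)⟩)
    rw [h.M_skew, M_eq, neg_eq_zero] at e2
    exact e2
  have hτ : ∀ s, ∀ r ∈ R, a.tau s z x r = 0 := by
    intro s r hr
    have e0 : ∀ l, a.q (z l) r = - a.q (y l) (c.δ (b s r)) := by
      intro l
      rw [hzr l s r hr, h.der_skew hU c (mem_UU hy l) (hbU s r hr), h.form.symm]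
    have e1 : ∀ l, a.q (om a.Ω z l) r = - a.q (om a.Ω y l) (c.δ (b s r)) := by
      intro l
      rw [om, om, map_sum, map_sum, LinearMap.sum_apply, LinearMap.sum_apply,
        ← Finset.sum_neg_distrib]
      exact Finset.sum_congr rfl fun k _ => by
        rw [map_smul, map_smul, LinearMap.smul_apply, LinearMap.smul_apply, e0, smul_neg]
    have e2 : a.tau s z x r = - a.tau s y x (c.δ (b s r)) := by
      rw [tau, tau, ← Finset.sum_neg_distrib]
      exact Finset.sum_congr rfl fun l _ => by rw [e1, e0, neg_smul, neg_smul, neg_add]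
    have e3 : ∀ l, a.q (x l) (c.δ (b s r)) = 0 := by
      intro l
      rw [h.form.symm, h.der_skew hU c (hbU s r hr) (mem_UU hx l), hcx l _ (hbU s r hr),
        neg_zero]
    rw [e2, h.F2 hV hy hx, tau, neg_eq_zero]
    refine Finset.sum_eq_zero fun l _ => ?_
    have e4 : a.q (om a.Ω x l) (c.δ (b s r)) = 0 := by
      rw [om, map_sum, LinearMap.sum_apply]
      exact Finset.sum_eq_zero fun k _ => by
        rw [map_smul, LinearMap.smul_apply, e3, smul_zero]
    rw [e3, e4, zero_smul, zero_smul, add_zero]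
  intro l k
  have hZ := h.lemmaZ h2 hV hN hx hxR hR hz hzR hτ l k
  rw [hzr l (a.arm k) _ (hxR k)] at hZ
  have e4 := hkill l _ (hyb k)
  rw [map_sub, hZ, sub_zero] at e4
  exact e4

omit [DecidableEq J] [DecidableEq ι] [Fintype ι] in
/-- **(5a)** at elements with the data `Dat` -/
theorem fa_dat (h : a.Good) (hK : finrank L a.K = 2)
    (hH : ∀ x ∈ a.K, ∀ y ∈ a.K, ∀ l k, a.q (x l) (y k) = 0) {x : J → V} (hx : x ∈ a.K)
    (hx0 : x ≠ 0) {S : Submodule L V} (D : Dat a (Submodule.span L (Set.range x)) S)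
    (hKS : a.K ≤ a.E S) : FA a x := by
  intro c hc hcx
  have hU := U_iso hH
  set R := Submodule.span L (Set.range x) with hRx
  have hxR : ∀ l, x l ∈ R := fun l => Submodule.subset_span ⟨l, rfl⟩
  have hRU : R ≤ a.UU := by
    rw [hRx, Submodule.span_le]
    rintro _ ⟨k, rfl⟩
    exact mem_UU hx k
  -- `c` kills `R`
  have hcR : ∀ r ∈ R, ∀ u ∈ a.UU, a.q (c.δ r) u = 0 := by
    intro r hr u hu
    rw [hRx] at hr
    induction hr using Submodule.span_induction with
    | mem r hr =>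
      obtain ⟨k, rfl⟩ := hr
      exact hcx k u hu
    | zero => rw [map_zero, map_zero, LinearMap.zero_apply]
    | add r r' _ _ h3 h4 => rw [map_add, map_add, LinearMap.add_apply, h3, h4, add_zero]
    | smul b r hr h3 =>
      rw [← hRx] at hr
      rw [c.smul, map_add, map_smul, map_smul, LinearMap.add_apply, LinearMap.smul_apply,
        LinearMap.smul_apply, h3, hU hu r (hRU hr), smul_zero, smul_zero, add_zero]
  obtain ⟨y, hy, hyx⟩ := exists_compl hK (x := x)
  apply fa_red hK hH h hx hx0 hcx hy hyx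
  have hδ : (fun l => c.δ (y l)) ∈ a.E (pp a.q S) := by
    apply D.star h hKS _ (h.der_perp hc hy)
    refine mem_E.mpr fun l => ⟨hc _ _ _ ((mem_K'.mp hy).1 l), fun r hr => ?_⟩
    rw [h.form.symm, h.der_skew hU c (mem_UU hy l) (hRU hr), hcR r hr _ (mem_UU hy l),
      neg_zero]
  intro l k
  rw [h.form.symm]
  exact (mem_E.mp hδ l).2 _ (mem_E.mp (hKS hy) k).2

end five_a

end core

end Vale.Agent.P182.H258
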