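import Vale.Agent.P182.H258.OfExt

/-!
# Base change of the data
-/

namespace Vale.Agent.P182.H258

open Module Matrix TensorProduct Vale.Agent.P182.H533 Vale.Agent.P182.B1 Vale.Agent.P182.H62
open Vale.Agent.P182.H96 (ofCfg toCfg pp pp_eq om Rd)

universe u v w

variable {L : Type u} {V : Type v} {J : Type w} [Field L] [AddCommGroup V] [Module L V]
  {L' : Type u} [Field L'] [Algebra L L'] [Fintype J] {𝒟 : Cfg L V J}

/-- the components of a family -/
noncomputable def evf (f : L' →ₗ[L] L) (t : J → L' ⊗[L] V) : J → V := fun l => ev f (t l)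

/-- the families all of whose components lie in a subspace -/
def famS (L' : Type u) [Field L'] [Algebra L L'] (X : Submodule L (J → V)) :
    Submodule L' (J → L' ⊗[L] V) where
  carrier := {t | ∀ f : L' →ₗ[L] L, evf f t ∈ X}
  add_mem' := by
    intro s t hs ht f
    have : evf f (s + t) = evf f s + evf f t := by
      funext l
      exact map_add _ _ _
    rw [this]
    exact X.add_mem (hs f) (ht f)
  zero_mem' := by
    intro f
    have : evf f (0 : J → L' ⊗[L] V) = 0 := by
      funext l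
      exact map_zero _
    rw [this]
    exact X.zero_mem
  smul_mem' := by
    intro a t ht f
    have : evf f (a • t) = evf (f ∘ₗ LinearMap.mulLeft L a) t := by
      funext l
      show ev f (a • t l) = ev (f ∘ₗ LinearMap.mulLeft L a) (t l)
      generalize t l = x
      induction x with
      | zero => rw [smul_zero, map_zero, map_zero]
      | tmul b v =>
        rw [smul_tmul', ev_tmul, ev_tmul]
        rfl
      | add x y hx hy => rw [smul_add, map_add, map_add, hx, hy]
    rw [this]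
    exact ht _

omit [Fintype J] in
theorem mem_famS {X : Submodule L (J → V)} {t : J → L' ⊗[L] V} :
    t ∈ famS L' X ↔ ∀ f : L' →ₗ[L] L, evf f t ∈ X := Iff.rfl

/-- the dimension is preserved -/
theorem finrank_famS [DecidableEq J] (X : Submodule L (J → V)) :
    finrank L' (famS L' X) = finrank L X := by
  have h1 : (X.baseChange L').map (piE J L L' V).toLinearMap = famS L' X := by
    have key : ∀ x : L' ⊗[L] (J → V), x ∈ X.baseChange L' ↔ piE J L L' V x ∈ famS L' X := by
      intro x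
      rw [mem_bc_iff, mem_famS]
      refine forall_congr' fun f => ?_
      have : evf f (piE J L L' V x) = ev f x := by
        funext l
        exact ev_piE f x l
      rw [this]
    ext t
    rw [Submodule.mem_map]
    constructor
    · rintro ⟨x, hx, rfl⟩
      exact (key x).mp hx
    · intro ht
      refine ⟨(piE J L L' V).symm t, ?_, (piE J L L' V).apply_symm_apply t⟩
      rw [key, LinearEquiv.apply_symm_apply]
      exact ht
  rw [← h1, LinearEquiv.finrank_map_eq, finrank_bc]

omit [Fintype J] in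
theorem pp_bc (g : 𝒟.Good) (S : Submodule L V) :
    pp (ofCfg (bcC 𝒟 L')).q (S.baseChange L') = (pp (ofCfg 𝒟).q S).baseChange L' := by
  show pp (qbc L' 𝒟.q) (S.baseChange L') = (pp 𝒟.q S).baseChange L'
  rw [pp_eq (isForm_qbc g.form), pp_eq g.form, perp_bc]

omit [Fintype J] in
theorem E_bc (S : Submodule L V) :
    (ofCfg (bcC 𝒟 L')).E (S.baseChange L') = famS L' ((ofCfg 𝒟).E S) := by
  ext t
  rw [H96.Cf.mem_E, mem_famS]
  constructor
  · intro h f
    refine H96.Cf.mem_E.mpr fun l => ⟨?_, ?_⟩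
    · exact mem_bc_iff.mp (h l).1 f
    · exact mem_bc_iff.mp (h l).2 f
  · intro h l
    refine ⟨mem_bc_iff.mpr fun f => (H96.Cf.mem_E.mp (h f) l).1,
      mem_bc_iff.mpr fun f => (H96.Cf.mem_E.mp (h f) l).2⟩

theorem f_M (g : 𝒟.Good) (f : L' →ₗ[L] L) (w : J → V) (t : J → L' ⊗[L] V) :
    f ((ofCfg (bcC 𝒟 L')).M (fam L' w) t) = (ofCfg 𝒟).M w (evf f t) := by
  rw [H96.Cf.M_apply, H96.Cf.M_apply, map_sum]
  refine Finset.sum_congr rfl fun l _ => ?_
  show f (qbc L' 𝒟.q ((1 : L') ⊗ₜ[L] w l) ((bcC 𝒟 L').om t l)) = 𝒟.q (w l) (𝒟.om (evf f t) l)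
  rw [(isForm_qbc g.form).symm, ev_qbc, ev_om, g.form.symm]
  rfl

theorem perp_bcE (g : 𝒟.Good) (S : Submodule L V) :
    (ofCfg (bcC 𝒟 L')).perp ((ofCfg (bcC 𝒟 L')).E (S.baseChange L')) =
      famS L' ((ofCfg 𝒟).perp ((ofCfg 𝒟).E S)) := by
  ext t
  rw [H96.Cf.mem_perp, mem_famS]
  constructor
  · rintro ⟨h1, h2⟩ f
    refine H96.Cf.mem_perp.mpr ⟨fun l => mem_bc_iff.mp (h1 l) f, fun w hw => ?_⟩
    rw [← f_M g, h2 (fam L' w) ?_, map_zero]
    refine H96.Cf.mem_E.mpr fun l => ⟨?_, ?_⟩
    · exact Submodule.tmul_mem_baseChange_of_mem _ (H96.Cf.mem_E.mp hw l).1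
    · exact Submodule.tmul_mem_baseChange_of_mem _ (H96.Cf.mem_E.mp hw l).2
  · intro h
    refine ⟨fun l => mem_bc_iff.mpr fun f => (H96.Cf.mem_perp.mp (h f)).1 l, fun w hw => ?_⟩
    -- expand `w` along a basis: it suffices to treat `w = a ⊗ w₀`, `w₀ ∈ E S`
    have key : ∀ (l : J) (x : L' ⊗[L] V), x ∈ (𝒟.C l ⊓ S).baseChange L' →
        qbc L' 𝒟.q x ((bcC 𝒟 L').om t l) = 0 := by
      intro l x hx
      rw [Submodule.baseChange_eq_span] at hx
      induction hx using Submodule.span_induction with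
      | mem x hx =>
        obtain ⟨v, hv, rfl⟩ := hx
        refine fun_sep (L := L) fun f => ?_
        rw [TensorProduct.mk_apply, (isForm_qbc g.form).symm, ev_qbc, ev_om, g.form.symm]
        classical
        have h1 := (H96.Cf.mem_perp.mp (h f)).2 (Pi.single l v) (H96.Cf.mem_E.mpr fun k => by
          by_cases hk : k = l
          · subst hk; rw [Pi.single_eq_same]; exact hv
          · rw [Pi.single_eq_of_ne hk]; exact ⟨zero_mem _, zero_mem _⟩)
        rw [H96.Cf.M_apply, Finset.sum_eq_single l] at h1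
        · rwa [Pi.single_eq_same] at h1
        · intro k _ hk
          rw [Pi.single_eq_of_ne hk, map_zero, LinearMap.zero_apply]
        · intro h; exact absurd (Finset.mem_univ _) h
      | zero => rw [map_zero, LinearMap.zero_apply]
      | add x z _ _ hx hz => rw [map_add, LinearMap.add_apply, hx, hz, add_zero]
      | smul a x _ hx => rw [map_smul, LinearMap.smul_apply, hx, smul_zero]
    rw [H96.Cf.M_apply]
    refine Finset.sum_eq_zero fun l _ => ?_
    have h3 := H96.Cf.mem_E.mp hw l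
    exact key l (w l) (by
      rw [bc_inf]
      exact h3)

omit [Fintype J] in
theorem famS_mono {X Y : Submodule L (J → V)} (h : X ≤ Y) : famS L' X ≤ famS L' Y :=
  fun _ ht f => h (ht f)

omit [Fintype J] in
theorem famS_inf (X Y : Submodule L (J → V)) :
    famS L' (X ⊓ Y) = famS L' X ⊓ famS L' Y := by
  ext t
  exact ⟨fun h => ⟨fun f => (h f).1, fun f => (h f).2⟩, fun h f => ⟨h.1 f, h.2 f⟩⟩

theorem K_bc [DecidableEq J] (g : 𝒟.Good) :
    (ofCfg (bcC 𝒟 L')).K = famS L' (ofCfg 𝒟).K := by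
  rw [ofCfg_K g, ofCfg_K (good_bcC g)]
  ext t
  rw [mem_K_bcC, mem_famS]
  rfl

/-- base change of the data -/
theorem dat_bc (g : 𝒟.Good) {R S : Submodule L V} (D : Dat (ofCfg 𝒟) R S) :
    Dat (ofCfg (bcC 𝒟 L')) (R.baseChange L') (S.baseChange L') where
  le := Submodule.baseChange_mono L' D.le
  iso := by
    rw [pp_bc g]
    exact Submodule.baseChange_mono L' D.iso
  ext := by
    rw [pp_bc g, pp_bc g, perp_bcE g, E_bc, E_bc, ← famS_inf]
    exact famS_mono D.ext

/-- base change of the dimension of the radical -/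
theorem rad_bc [DecidableEq J] (g : 𝒟.Good) (S : Submodule L V) :
    finrank L' ((ofCfg (bcC 𝒟 L')).E (pp (ofCfg (bcC 𝒟 L')).q (S.baseChange L')) ⊓
      (ofCfg (bcC 𝒟 L')).perp ((ofCfg (bcC 𝒟 L')).E
        (pp (ofCfg (bcC 𝒟 L')).q (S.baseChange L'))) : Submodule L' (J → L' ⊗[L] V)) =
    finrank L ((ofCfg 𝒟).E (pp (ofCfg 𝒟).q S) ⊓
      (ofCfg 𝒟).perp ((ofCfg 𝒟).E (pp (ofCfg 𝒟).q S)) : Submodule L (J → V)) := by
  rw [pp_bc g, perp_bcE g, E_bc, ← famS_inf, finrank_famS]

end Vale.Agent.P182.H258
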