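import Vale.Agent.P182.H258.Count
import Vale.Agent.P182.H96.Bridge
import Vale.Agent.P182.H62.CIso

/-!
# Case (g) for arbitrary heights: base change
-/

namespace Vale.Agent.P182.H258

open Module Matrix TensorProduct Vale.Agent.P182.H533 Vale.Agent.P182.B1 Vale.Agent.P182.H62
open Vale.Agent.P182.H96 (ofCfg toCfg pp pp_eq om)

universe u v w

section bc

variable {L : Type u} {V : Type v} {J : Type w} [Field L] [AddCommGroup V] [Module L V]
  {L' : Type u} [Field L'] [Algebra L L'] [Fintype J]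

/-- the base change of a family of vectors -/
def fam (L' : Type u) [Field L'] [Algebra L L'] (x : J → V) : J → L' ⊗[L] V :=
  fun l => (1 : L') ⊗ₜ[L] x l

theorem mem_K_bcC {𝒟 : Cfg L V J} {t : J → L' ⊗[L] V} :
    t ∈ (bcC 𝒟 L').K ↔ ∀ f : L' →ₗ[L] L, (fun l => ev f (t l)) ∈ 𝒟.K := by
  rw [Cfg.mem_K]
  constructor
  · rintro ⟨h1, h2⟩ f
    refine ⟨fun l => ?_, fun l => ?_⟩
    · have := h1 l
      rw [bcC_C, mem_bc_iff] at this
      exact this f
    · have := h2 l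
      rw [perp_bcC_C, mem_bc_iff] at this
      have := this f
      rwa [ev_om] at this
  · intro h
    refine ⟨fun l => ?_, fun l => ?_⟩
    · rw [bcC_C, mem_bc_iff]
      exact fun f => (h f).1 l
    · rw [perp_bcC_C, mem_bc_iff]
      intro f
      rw [ev_om]
      exact (h f).2 l

theorem fam_mem_K {𝒟 : Cfg L V J} {x : J → V} (hx : x ∈ 𝒟.K) : fam L' x ∈ (bcC 𝒟 L').K := by
  rw [mem_K_bcC]
  intro f
  have : (fun l => ev f (fam L' x l)) = f 1 • x := by
    funext l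
    rw [fam, ev_tmul]
    rfl
  rw [this]
  exact 𝒟.K.smul_mem _ hx

omit [Fintype J] in
theorem fam_ne_zero {x : J → V} (hx : x ≠ 0) : fam (L := L) L' x ≠ 0 := by
  intro h
  apply hx
  funext l
  have h1 : (1 : L') ⊗ₜ[L] x l = 0 := congrFun h l
  have h2 := fun f : L' →ₗ[L] L => congrArg (ev f) h1
  simp only [ev_tmul, map_zero] at h2
  have h3 : ∃ f : L' →ₗ[L] L, f 1 ≠ 0 := by
    by_contra hcon
    push Not at hcon
    exact one_ne_zero (fun_sep (L := L) (L' := L') hcon)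
  obtain ⟨f, hf⟩ := h3
  exact (smul_eq_zero.mp (h2 f)).resolve_left hf

omit [Fintype J] in
theorem span_fam (x : J → V) : Submodule.span L' (Set.range (fam (L := L) L' x)) =
    (Submodule.span L (Set.range x)).baseChange L' := by
  rw [Submodule.baseChange_span]
  congr 1
  ext v
  constructor
  · rintro ⟨l, rfl⟩
    exact ⟨x l, ⟨l, rfl⟩, rfl⟩
  · rintro ⟨_, ⟨l, rfl⟩, rfl⟩
    exact ⟨l, rfl⟩

theorem qbc_one (q : V →ₗ[L] V →ₗ[L] L) (u v : V) :
    qbc L' q (1 ⊗ₜ u) (1 ⊗ₜ v) = algebraMap L L' (q u v) := by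
  rw [qbc_tmul, one_mul, one_mul]

/-- vanishing of the form on the base change of two subspaces -/
theorem qbc_zero {q : V →ₗ[L] V →ₗ[L] L} {A B : Submodule L V}
    (h : ∀ x ∈ A, ∀ y ∈ B, q x y = 0) {x y : L' ⊗[L] V} (hx : x ∈ A.baseChange L')
    (hy : y ∈ B.baseChange L') : qbc L' q x y = 0 := by
  rw [Submodule.baseChange_eq_span] at hx hy
  induction hx using Submodule.span_induction with
  | mem x hx =>
    obtain ⟨u, hu, rfl⟩ := hx
    induction hy using Submodule.span_induction with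
    | mem y hy =>
      obtain ⟨v, hv, rfl⟩ := hy
      rw [TensorProduct.mk_apply, TensorProduct.mk_apply, qbc_one, h u hu v hv, map_zero]
    | zero => rw [map_zero]
    | add y z _ _ hy hz => rw [map_add, hy, hz, add_zero]
    | smul a y _ hy => rw [map_smul, hy, smul_zero]
  | zero => rw [map_zero, LinearMap.zero_apply]
  | add x z _ _ hx hz => rw [map_add, LinearMap.add_apply, hx, hz, add_zero]
  | smul a x _ hx => rw [map_smul, LinearMap.smul_apply, hx, smul_zero]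

theorem ofCfg_K [DecidableEq J] {𝒟 : Cfg L V J} (g : 𝒟.Good) : (ofCfg 𝒟).K = 𝒟.K :=
  H96.K_ofCfg g

theorem UU_bc_le [DecidableEq J] {𝒟 : Cfg L V J} (g : 𝒟.Good) :
    (ofCfg (bcC 𝒟 L')).UU ≤ ((ofCfg 𝒟).UU).baseChange L' := by
  intro u hu
  refine H96.Cf.UU_induction (a := ofCfg (bcC 𝒟 L'))
    (p := fun u => u ∈ ((ofCfg 𝒟).UU).baseChange L')
    (zero_mem _) (fun _ _ => add_mem) (fun _ _ => Submodule.smul_mem _ _) ?_ u hu
  intro t ht l
  rw [ofCfg_K (good_bcC g), mem_K_bcC] at ht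
  rw [mem_bc_iff]
  intro f
  exact H96.Cf.mem_UU (a := ofCfg 𝒟) (by rw [ofCfg_K g]; exact ht f) l

theorem mem_UU_bc [DecidableEq J] {𝒟 : Cfg L V J} (g : 𝒟.Good) {u : V}
    (hu : u ∈ (ofCfg 𝒟).UU) : (1 : L') ⊗ₜ[L] u ∈ (ofCfg (bcC 𝒟 L')).UU := by
  refine H96.Cf.UU_induction (a := ofCfg 𝒟)
    (p := fun u => (1 : L') ⊗ₜ[L] u ∈ (ofCfg (bcC 𝒟 L')).UU)
    (by rw [tmul_zero]; exact zero_mem _) (fun _ _ h1 h2 => by rw [tmul_add]; exact add_mem h1 h2)
    (fun c u h => by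
      rw [tmul_smul, ← algebraMap_smul L' c]
      exact Submodule.smul_mem _ _ h) ?_ u hu
  intro t ht l
  rw [ofCfg_K g] at ht
  have h1 : fam L' t ∈ (ofCfg (bcC 𝒟 L')).K := by
    rw [ofCfg_K (good_bcC g)]
    exact fam_mem_K ht
  exact H96.Cf.mem_UU (a := ofCfg (bcC 𝒟 L')) h1 l

omit [Fintype J] in
/-- the extension of a connection preserving the flags -/
theorem isX_bc {𝒟 : Cfg L V J} {n : Conn 𝒟.q} (hn : (ofCfg 𝒟).IsX n) (d' : L' →+ L')
    (hl : ∀ a b, d' (a * b) = d' a * b + a * d' b)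
    (hd : ∀ a, d' (algebraMap L L' a) = algebraMap L L' (n.d a)) :
    (ofCfg (bcC 𝒟 L')).IsX (bcConn n d' hl hd) := by
  intro s i x hx
  have hx' : x ∈ (𝒟.F s i).baseChange L' := hx
  obtain ⟨y, rfl⟩ := hx'
  show _ ∈ (𝒟.F s i).baseChange L'
  induction y with
  | zero => simp only [map_zero]; exact zero_mem _
  | tmul a v =>
    rw [LinearMap.baseChange_tmul]
    exact add_mem (Submodule.tmul_mem_baseChange_of_mem _ v.2)
      (Submodule.tmul_mem_baseChange_of_mem _ (hn s i v v.2))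
  | add y z hy hz =>
    have := add_mem (hy ⟨y, rfl⟩) (hz ⟨z, rfl⟩)
    simp only [map_add] at this ⊢
    exact this

/-- the conclusion of (5a) descends -/
theorem fa_desc [DecidableEq J] {𝒟 : Cfg L V J} (g : 𝒟.Good) (hE : DExt L L') {x : J → V}
    (h : FA (ofCfg (bcC 𝒟 L')) (fam L' x)) : FA (ofCfg 𝒟) x := by
  intro c hc hcx u hu u' hu'
  obtain ⟨d', hl, hd⟩ := hE c.d c.leib
  have hd1 : d' 1 = 0 := by
    have := hl 1 1
    simpa using this
  have hδ : ∀ v : V, (bcConn c d' hl hd).δ ((1 : L') ⊗ₜ[L] v) = (1 : L') ⊗ₜ[L] c.δ v := by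
    intro v
    show d' 1 ⊗ₜ[L] v + (1 : L') ⊗ₜ[L] c.δ v = _
    rw [hd1, zero_tmul, zero_add]
  have h1 := h (bcConn c d' hl hd) (isX_bc hc d' hl hd) (fun l w hw => by
    show qbc L' 𝒟.q ((bcConn c d' hl hd).δ ((1 : L') ⊗ₜ[L] x l)) w = 0
    rw [hδ]
    exact qbc_zero (A := Submodule.span L {c.δ (x l)}) (B := (ofCfg 𝒟).UU) (fun a ha b hb => by
      obtain ⟨r, rfl⟩ := Submodule.mem_span_singleton.mp ha
      rw [map_smul, LinearMap.smul_apply]
      have : 𝒟.q (c.δ (x l)) b = 0 := hcx l b hb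
      rw [this, smul_zero])
      (Submodule.tmul_mem_baseChange_of_mem _ (Submodule.mem_span_singleton_self _))
      (UU_bc_le g hw)) _ (mem_UU_bc g hu) _ (mem_UU_bc g hu')
  have h2 : qbc L' 𝒟.q ((1 : L') ⊗ₜ[L] c.δ u) ((1 : L') ⊗ₜ[L] u') = 0 := by
    rw [← hδ]
    exact h1
  rw [qbc_one, map_eq_zero] at h2
  exact h2

end bc

end Vale.Agent.P182.H258
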