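import Vale.Agent.P182.H62.CIso

/-!
# Input (H) in constants

The statement which the analysis of the situation (B2) produces, and which the chain of bundles
over the line excludes. Everything is expressed by the constant spaces `S` and `S^⊥ / S` with their
three flags, the families `x : J → S`, `φ : J → S^⊥ / S` and the skew matrix `Ω`.
-/

namespace Vale.Agent.P182.H258

open Module Matrix Vale.Agent.P182.H533 Vale.Agent.P182.B1 Vale.Agent.P182.H62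

universe u w

variable {L : Type u} {V : Type u} {J : Type w} [Field L] [AddCommGroup V] [Module L V]

/-- `H^0(Λ² S^*)`: the skew forms on `S` compatible with the flags -/
def SkF (𝒟 : Cfg L V J) (S : Submodule L V) : Submodule L (↥S →ₗ[L] Dual L ↥S) where
  carrier := {d | (∀ u v, d u v = - d v u) ∧ ∀ s i (u v : ↥S), (u : V) ∈ 𝒟.F s i →
    (v : V) ∈ perp 𝒟.q (𝒟.F s i) → d u v = 0}
  add_mem' := by
    rintro d d' ⟨h1, h2⟩ ⟨h3, h4⟩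
    refine ⟨fun u v => ?_, fun s i u v hu hv => ?_⟩
    · rw [LinearMap.add_apply, LinearMap.add_apply, LinearMap.add_apply, LinearMap.add_apply,
        h1, h3, neg_add]
    · rw [LinearMap.add_apply, LinearMap.add_apply, h2 s i u v hu hv, h4 s i u v hu hv, add_zero]
  zero_mem' := ⟨fun u v => by simp, fun s i u v _ _ => rfl⟩
  smul_mem' := by
    rintro a d ⟨h1, h2⟩
    refine ⟨fun u v => ?_, fun s i u v hu hv => ?_⟩
    · rw [LinearMap.smul_apply, LinearMap.smul_apply, LinearMap.smul_apply, LinearMap.smul_apply,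
        h1, smul_neg]
    · rw [LinearMap.smul_apply, LinearMap.smul_apply, h2 s i u v hu hv, smul_zero]

/-- the matrices of the skew Higgs fields on `N` -/
def SkHiggs (arm : J → Fin 3) (c : J → ℕ) (Ω : Matrix J J L) [Fintype J] (h : Matrix J J L) :
    Prop :=
  (∀ l k, h l k = - h k l) ∧ (∀ l k, arm l = arm k → h l k = 0) ∧
    ∀ l k, arm l = arm k → c l ≤ c k → ∑ j, h l j * Ω k j = 0

variable [Fintype J]

/-- **Input (H).** -/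
structure HIn (𝒟 : Cfg L V J) (g : 𝒟.Good) (S : Submodule L V) (x : J → ↥S)
    (φ : J → SQ 𝒟.q S) : Prop where
  iso : 𝒟.Iso S
  /-- `x ∈ Hom(N, S)` -/
  xN : x ∈ H887.HomN 𝒟.Ω (objA 𝒟 S) (objB 𝒟 S)
  x_ne : x ≠ 0
  /-- `Hom(N, S) = L x` -/
  x_span : ∀ t ∈ H887.HomN 𝒟.Ω (objA 𝒟 S) (objB 𝒟 S), ∃ a : L, t = a • x
  /-- `Hom(N, M) = L φ` -/
  φK : φ ∈ (sq 𝒟 g S).K
  φ_ne : φ ≠ 0
  φ_span : ∀ t ∈ (sq 𝒟 g S).K, ∃ a : L, t = a • φ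
  /-- `Ext(S, M) = 0` -/
  ext : ∀ Y : Fin 3 → (↥S →ₗ[L] SQ 𝒟.q S), ∃ (a : ↥S →ₗ[L] SQ 𝒟.q S)
    (b : Fin 3 → (↥S →ₗ[L] SQ 𝒟.q S)), (∀ s, Y s = a + b s) ∧
      (∀ s i (v : ↥S), (v : V) ∈ 𝒟.F s i → b s v ∈ (sq 𝒟 g S).F s i) ∧
        ∀ s i (v : ↥S), (v : V) ∈ perp 𝒟.q (𝒟.F s i) →
          b s v ∈ perp (sq 𝒟 g S).q ((sq 𝒟 g S).F s i)
  /-- `C ≠ 0` -/
  c_ne : ∃ d ∈ SkF 𝒟 S, d ≠ 0
  /-- `Hom(N, S^*) = C x` -/
  c_surj : ∀ z ∈ H887.HomD 𝒟.Ω (objA 𝒟 S) (objB 𝒟 S), ∃ d ∈ SkF 𝒟 S, ∀ l, z l = d (x l)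
  /-- `x^* d x = 0 ⇒ d = 0` -/
  c_inj : ∀ d ∈ SkF 𝒟 S, (∀ l k, d (x l) (x k) = 0) → d = 0
  /-- either `φ^* φ ≠ 0` or there are two independent skew Higgs fields `φ^* γ φ` -/
  alt : (∃ l k, (sq 𝒟 g S).q (φ l) (φ k) ≠ 0) ∨
    ∃ γ : Fin 2 → (SQ 𝒟.q S →ₗ[L] Dual L (SQ 𝒟.q S)), (∀ i u v, γ i u v = - γ i v u) ∧
      (∀ i, SkHiggs 𝒟.arm 𝒟.c 𝒟.Ω (Matrix.of fun l k => γ i (φ l) (φ k))) ∧
        (∀ a b : L, (∀ l k, a * γ 0 (φ l) (φ k) + b * γ 1 (φ l) (φ k) = 0) → a = 0 ∧ b = 0) ∧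
          ∀ i s n, ∀ u ∈ Submodule.span L (Set.range φ), ∀ v ∈ Submodule.span L (Set.range φ),
            u ∈ (sq 𝒟 g S).F s n → v ∈ perp (sq 𝒟 g S).q ((sq 𝒟 g S).F s n) → γ i u v = 0

end Vale.Agent.P182.H258
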