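import Vale.Agent.P182.H258.RdIso

/-!
# The data at an isotropic element from `Ext(N, S/R) = 0`
-/

namespace Vale.Agent.P182.H258

open Module Matrix TensorProduct Vale.Agent.P182.H533 Vale.Agent.P182.B1 Vale.Agent.P182.H62
open Vale.Agent.P182.H96 (ofCfg toCfg pp pp_eq om Rd)

universe u w

variable {L : Type u} {V : Type u} {J : Type w} [Field L] [AddCommGroup V] [Module L V]
  {𝒟 : Cfg L V J} {R S : Submodule L V} [Fintype J]

theorem dat_of_ext [DecidableEq J] (g : 𝒟.Good) (hRS : R ≤ S) (hS : 𝒟.Iso S)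
    (hE : ExtZero (sq 𝒟 g R) (SQim R S)) : Dat (ofCfg 𝒟) R S where
  le := hRS
  iso := by
    show S ≤ pp 𝒟.q S
    rw [pp_eq g.form]
    exact hS
  ext := by
    rintro t ⟨ht1, ht2⟩
    have h1 := H96.Cf.mem_E.mp ht1
    have hC : ∀ l, t l ∈ 𝒟.C l := fun l => (h1 l).1
    have hR : ∀ l, t l ∈ perp 𝒟.q R := fun l => by
      rw [← pp_eq g.form]; exact (h1 l).2
    have hom : ∀ l, 𝒟.om t l ∈ perp 𝒟.q R := fun l =>
      Submodule.sum_mem _ fun k _ => Submodule.smul_mem _ _ (hR k)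
    have hM : ∀ l, ∀ v ∈ 𝒟.C l, v ∈ S → 𝒟.q v (𝒟.om t l) = 0 := by
      intro l v hv hvS
      have h2 := (H96.Cf.mem_perp.mp ht2).2 (Pi.single l v) (H96.Cf.mem_E.mpr fun k => by
        by_cases hk : k = l
        · subst hk; rw [Pi.single_eq_same]; exact ⟨hv, hvS⟩
        · rw [Pi.single_eq_of_ne hk]; exact ⟨zero_mem _, zero_mem _⟩)
      rw [H96.Cf.M_apply, Finset.sum_eq_single l] at h2
      · rwa [Pi.single_eq_same] at h2
      · intro k _ hk
        rw [Pi.single_eq_of_ne hk, map_zero, LinearMap.zero_apply]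
      · intro h; exact absurd (Finset.mem_univ _) h
    let y : J → Dual L ↥(SQim (q := 𝒟.q) R S) := fun l =>
      ((sq 𝒟 g R).q (SQmk R ⟨t l, hR l⟩)).comp (SQim (q := 𝒟.q) R S).subtype
    have hy : y ∈ H887.HomD (sq 𝒟 g R).Ω (objA (sq 𝒟 g R) (SQim R S))
        (objB (sq 𝒟 g R) (SQim R S)) := by
      rw [H887.mem_HomD]
      refine ⟨fun l v hv => ?_, fun l v hv => ?_⟩
      · show (sq 𝒟 g R).q (SQmk R ⟨t l, hR l⟩) v = 0
        have hsymm : (sq 𝒟 g R).q (SQmk R ⟨t l, hR l⟩) v =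
            (sq 𝒟 g R).q v (SQmk R ⟨t l, hR l⟩) := by
          obtain ⟨v', hv'⟩ := SQmk_surjective R (v : SQ 𝒟.q R)
          rw [← hv']
          exact g.form.symm _ _
        rw [hsymm]
        exact hv _ (SQmk_mem_SQim R (hC l))
      · rw [H887.om_dual_apply]
        obtain ⟨⟨v0, hv0⟩, hvS0, hv'⟩ := (mem_SQim R).mp v.2
        have hvA : (v : SQ 𝒟.q R) ∈ SQim R (𝒟.C l) := hv
        obtain ⟨⟨v1, hv1⟩, hvC1, hv1'⟩ := (mem_SQim R).mp hvA
        have h3 : v1 - v0 ∈ R := by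
          have e1 : SQmk R ⟨v1, hv1⟩ - SQmk R ⟨v0, hv0⟩ = 0 := by rw [hv1', hv', sub_self]
          rw [← map_sub, SQmk_eq_zero] at e1
          exact e1
        have h4 : v1 ∈ S := by
          have e1 := S.add_mem (hRS h3) hvS0
          rwa [sub_add_cancel] at e1
        have h5 : ∀ k, y k v = 𝒟.q (t k) v1 := by
          intro k
          show (sq 𝒟 g R).q (SQmk R ⟨t k, hR k⟩) v = _
          rw [← hv1']
          rfl
        have h6 : ∑ k, (sq 𝒟 g R).Ω l k * y k v = 𝒟.q (𝒟.om t l) v1 := by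
          rw [Cfg.om, map_sum, LinearMap.sum_apply]
          refine Finset.sum_congr rfl fun k _ => ?_
          rw [map_smul, LinearMap.smul_apply, smul_eq_mul, h5]
          rfl
        rw [h6, g.form.symm]
        exact hM l v1 hvC1 h4
    have hE' : H887.HomD (sq 𝒟 g R).Ω (objA (sq 𝒟 g R) (SQim R S))
        (objB (sq 𝒟 g R) (SQim R S)) = ⊥ := hE
    rw [hE'] at hy
    have h0 : y = 0 := (Submodule.mem_bot L).mp hy
    refine H96.Cf.mem_E.mpr fun l => ⟨hC l, fun s hs => ?_⟩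
    have hsR : s ∈ perp 𝒟.q R := fun r hr => hS hs r (hRS hr)
    have h7 := LinearMap.congr_fun (congrFun h0 l)
      ⟨SQmk R ⟨s, hsR⟩, SQmk_mem_SQim R hs⟩
    have h8 : 𝒟.q (t l) s = 0 := h7
    show 𝒟.q s (t l) = 0
    rw [g.form.symm]
    exact h8

/-- the radical of `E_{S^⊥}` -/
theorem rad_le [DecidableEq J] [FiniteDimensional L V] (g : 𝒟.Good) (hS : 𝒟.Iso S)
    {m : ℕ} (hK : finrank L (sq 𝒟 g S).K ≤ m) :
    finrank L ((ofCfg 𝒟).E (pp 𝒟.q S) ⊓ (ofCfg 𝒟).perp ((ofCfg 𝒟).E (pp 𝒟.q S)) :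
      Submodule L (J → V)) ≤ m + finrank L ((ofCfg 𝒟).E S) := by
  have hS' : S ≤ pp 𝒟.q S := by rw [pp_eq g.form]; exact hS
  obtain ⟨D⟩ := H96.exists_rd g.form hS'
  have h1 := (H96.good_ofCfg g).finrank_rad_le (R := S) D
  have h2 : finrank L ((ofCfg 𝒟).red D).K = finrank L (sq 𝒟 g S).K := by
    rw [← H96.K_toCfg ((H96.good_ofCfg g).red D)]
    exact (ciso_finrank_K (rdIso g D)).symm
  have h3 : finrank L ((ofCfg 𝒟).E (pp 𝒟.q S) ⊓ (ofCfg 𝒟).perp ((ofCfg 𝒟).E (pp 𝒟.q S)) :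
      Submodule L (J → V)) ≤ finrank L ((ofCfg 𝒟).red D).K + finrank L ((ofCfg 𝒟).E S) := h1
  omega

end Vale.Agent.P182.H258
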