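import Vale.Agent.P182.H258.Core

/-!
# The choice of `S`

Among the isotropic subspaces `S` with `Ext(N, S/R) = 0` and given `θ` a smallest one has no
skew forms which vanish on `R`.
-/

namespace Vale.Agent.P182.H258

open Module Matrix Vale.Agent.P182.H533 Vale.Agent.P182.H96 Vale.Agent.P182.H96.Cf

section lift

variable {L V : Type*} [Field L] [AddCommGroup V] [Module L V] [FiniteDimensional L V]
  {q : V →ₗ[L] V →ₗ[L] L}

/-- the functionals on `W` which vanish on `W ∩ C^⊥` come from `C` -/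
theorem exists_lift (_ : IsForm q) (W C : Submodule L V) (f : Dual L ↥W)
    (hf : ∀ w : ↥W, (w : V) ∈ pp q C → f w = 0) : ∃ z ∈ C, ∀ w : ↥W, q z w = f w := by
  let Λ : ↥C →ₗ[L] Dual L ↥W :=
    { toFun := fun z => q z ∘ₗ W.subtype
      map_add' := fun a b => by ext v; simp
      map_smul' := fun c a => by ext v; simp }
  have h1 : f ∈ LinearMap.range Λ := by
    rw [← Subspace.dualCoannihilator_dualAnnihilator_eq (W := LinearMap.range Λ),
      Submodule.mem_dualAnnihilator]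
    intro w hw
    rw [Submodule.mem_dualCoannihilator] at hw
    exact hf w fun z hz => hw (Λ ⟨z, hz⟩) ⟨_, rfl⟩
  obtain ⟨z, hz⟩ := h1
  exact ⟨z, z.2, fun w => LinearMap.congr_fun hz w⟩

end lift

section prod

variable {L V J ι : Type*} [Field L] [AddCommGroup V] [Module L V] [Fintype J]
  {a : Cf L V J ι} [FiniteDimensional L V]

/-- the constant skew forms on `S` -/
structure SkC (a : Cf L V J ι) (S : Submodule L V) (c : ↥S →ₗ[L] Dual L ↥S) : Prop where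
  sk : ∀ u v, c u v = - c v u
  col : ∀ l (u v : ↥S), (u : V) ∈ a.C l → (v : V) ∈ pp a.q (a.C l) → c u v = 0

/-- the kernel of a form, in `V` -/
def kerV {S : Submodule L V} (c : ↥S →ₗ[L] Dual L ↥S) : Submodule L V :=
  (LinearMap.ker c).map S.subtype

omit [FiniteDimensional L V] [Fintype J] in
theorem mem_kerV {S : Submodule L V} {c : ↥S →ₗ[L] Dual L ↥S} {v : V} :
    v ∈ kerV c ↔ ∃ h : v ∈ S, c ⟨v, h⟩ = 0 := by
  constructor
  · rintro ⟨u, hu, rfl⟩
    exact ⟨u.2, hu⟩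
  · rintro ⟨h, h1⟩
    exact ⟨⟨v, h⟩, h1, rfl⟩

omit [FiniteDimensional L V] [Fintype J] in
theorem kerV_le {S : Submodule L V} (c : ↥S →ₗ[L] Dual L ↥S) : kerV c ≤ S := by
  intro v hv
  exact (mem_kerV.mp hv).1

/-- the lift of `c t` to a family with values in the columns -/
theorem exists_ct (h : a.Good) {S : Submodule L V} {c : ↥S →ₗ[L] Dual L ↥S}
    (hc : SkC a S c) {t : J → V} (htS : ∀ l, t l ∈ S) (htC : ∀ l, t l ∈ a.C l)
    (hom : ∀ k, ∀ w, (hw : w ∈ S) → w ∈ a.C k → c ⟨om a.Ω t k, om_mem htS k⟩ ⟨w, hw⟩ = 0) :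
    ∃ z ∈ a.perp (a.E S), ∀ l (s : ↥S), a.q (z l) s = c ⟨t l, htS l⟩ s := by
  have h1 : ∀ l, ∃ z ∈ a.C l, ∀ s : ↥S, a.q z s = c ⟨t l, htS l⟩ s := fun l =>
    exists_lift h.form S (a.C l) (c ⟨t l, htS l⟩) fun w hw => hc.col l _ w (htC l) hw
  choose z hz1 hz2 using h1
  refine ⟨z, mem_perp.mpr ⟨hz1, fun w hw => ?_⟩, hz2⟩
  have hw' := mem_E.mp hw
  rw [h.M_skew, M_eq, neg_eq_zero, Finset.sum_comm]
  refine Finset.sum_eq_zero fun k _ => ?_
  have e1 : ∑ l, a.Ω l k * a.q (z l) (w k) =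
      - c ⟨om a.Ω t k, om_mem htS k⟩ ⟨w k, (hw' k).2⟩ := by
    have e2 : (⟨om a.Ω t k, om_mem htS k⟩ : ↥S) = ∑ l, a.Ω k l • (⟨t l, htS l⟩ : ↥S) := by
      apply Subtype.ext
      rw [Submodule.coe_sum]
      rfl
    rw [e2, map_sum, LinearMap.sum_apply, ← Finset.sum_neg_distrib]
    refine Finset.sum_congr rfl fun l _ => ?_
    rw [map_smul, LinearMap.smul_apply, smul_eq_mul, ← hz2 l ⟨w k, (hw' k).2⟩, h.skew l k]
    ring
  rw [e1, hom k (w k) (hw' k).2 (hw' k).1, neg_zero]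

/-- elements of `Hom(N, S/R)` are killed by the forms which vanish on `R` -/
theorem ct_zero (h : a.Good) {R S : Submodule L V} (D : Dat a R S)
    {c : ↥S →ₗ[L] Dual L ↥S} (hc : SkC a S c) (hcR : ∀ u : ↥S, (u : V) ∈ R → c u = 0)
    {t : J → V} (ht : t ∈ a.E S) (ht' : t ∈ a.perp (a.E (pp a.q R))) : t ∈ a.E (kerV c) := by
  have h1 := mem_E.mp ht
  have h2 := mem_perp.mp ht'
  obtain ⟨z, hz, hz2⟩ := exists_ct h hc (t := t) (fun l => (h1 l).2) (fun l => (h1 l).1) (by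
    intro k w hw hwC
    -- `om t k ∈ C_k^⊥ + R`
    have e1 : om a.Ω t k ∈ pp a.q (a.C k ⊓ pp a.q R) := by
      intro v hv
      classical
      have e2 := h2.2 (Pi.single k v) (mem_E.mpr fun j => by
        by_cases hj : j = k
        · subst hj; rw [Pi.single_eq_same]; exact hv
        · rw [Pi.single_eq_of_ne hj]; exact ⟨zero_mem _, zero_mem _⟩)
      rw [M_apply, Finset.sum_eq_single k] at e2
      · rwa [Pi.single_eq_same] at e2
      · intro j _ hj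
        rw [Pi.single_eq_of_ne hj, map_zero, LinearMap.zero_apply]
      · intro h; exact absurd (Finset.mem_univ _) h
    have e3 : pp a.q (a.C k ⊓ pp a.q R) ≤ pp a.q (a.C k) ⊔ R := by
      have e4 : a.C k ⊓ pp a.q R = pp a.q (pp a.q (a.C k) ⊔ R) := by
        ext v
        constructor
        · rintro ⟨h3, h4⟩ u hu
          obtain ⟨u1, hu1, u2, hu2, rfl⟩ := Submodule.mem_sup.mp hu
          rw [map_add, LinearMap.add_apply, h4 u2 hu2, add_zero, h.form.symm]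
          exact hu1 v h3
        · intro hv
          refine ⟨?_, fun u hu => hv u (le_sup_right (a := pp a.q (a.C k)) hu)⟩
          rw [← pp_pp h.form (a.C k)]
          exact fun u hu => hv u (le_sup_left (b := R) hu)
      rw [e4, pp_pp h.form]
    obtain ⟨u, hu, r, hr, hur⟩ := Submodule.mem_sup.mp (e3 e1)
    have hrS : r ∈ S := D.le hr
    have huS : u ∈ S := by
      have e5 : u = om a.Ω t k - r := eq_sub_of_add_eq hur
      rw [e5]
      exact S.sub_mem (om_mem (fun l => (h1 l).2) k) hrS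
    have e6 : (⟨om a.Ω t k, om_mem (fun l => (h1 l).2) k⟩ : ↥S) = ⟨u, huS⟩ + ⟨r, hrS⟩ :=
      Subtype.ext hur.symm
    rw [e6, map_add, hcR ⟨r, hrS⟩ hr, add_zero, hc.sk, neg_eq_zero]
    exact hc.col k _ _ hwC hu)
  have h3 : z ∈ a.E (pp a.q S) := D.ext ⟨mem_E.mpr fun l => ⟨(mem_perp.mp hz).1 l, fun r hr => by
    rw [h.form.symm]
    have e1 := hz2 l ⟨r, D.le hr⟩
    rw [hc.sk, hcR ⟨r, D.le hr⟩ hr, LinearMap.zero_apply, neg_zero] at e1
    exact e1⟩, hz⟩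
  refine mem_E.mpr fun l => ⟨(h1 l).1, mem_kerV.mpr ⟨(h1 l).2, ?_⟩⟩
  refine LinearMap.ext fun s => ?_
  rw [← hz2 l s, LinearMap.zero_apply, h.form.symm]
  exact (mem_E.mp h3 l).2 s s.2

/-- `θ(S/Z) ≤ 0` for the kernel `Z` of a skew form -/
theorem theta_kerV (h : a.Good) {S : Submodule L V} {c : ↥S →ₗ[L] Dual L ↥S} (hc : SkC a S c) :
    a.θ S ≤ a.θ (kerV c) := by
  rw [Cf.θ, Cf.θ]
  refine Finset.sum_le_sum fun l _ => ?_
  -- the two maps to `Dual S`
  let Φ : ↥(a.C l ⊓ S : Submodule L V) →ₗ[L] Dual L ↥S :=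
    c ∘ₗ Submodule.inclusion (inf_le_right : a.C l ⊓ S ≤ S)
  let Ψ : ↥(a.C l ⊓ pp a.q (kerV c) : Submodule L V) →ₗ[L] Dual L ↥S :=
    { toFun := fun z => a.q z ∘ₗ S.subtype
      map_add' := fun a b => by ext v; simp
      map_smul' := fun c a => by ext v; simp }
  have hle : LinearMap.range Φ ≤ LinearMap.range Ψ := by
    rintro _ ⟨u, rfl⟩
    obtain ⟨z, hz, hz2⟩ := exists_lift h.form S (a.C l) (Φ u) fun w hw =>
      hc.col l _ w u.2.1 hw
    refine ⟨⟨z, hz, fun w hw => ?_⟩, LinearMap.ext fun s => hz2 s⟩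
    obtain ⟨hw1, hw2⟩ := mem_kerV.mp hw
    rw [h.form.symm]
    refine (hz2 ⟨w, hw1⟩).trans ?_
    show c _ _ = 0
    rw [hc.sk, hw2, LinearMap.zero_apply, neg_zero]
  have hkΦ : (LinearMap.ker Φ).map (a.C l ⊓ S).subtype = a.C l ⊓ kerV c := by
    ext v
    constructor
    · rintro ⟨u, hu, rfl⟩
      exact ⟨u.2.1, mem_kerV.mpr ⟨u.2.2, hu⟩⟩
    · rintro ⟨h1, h2⟩
      obtain ⟨h3, h4⟩ := mem_kerV.mp h2
      exact ⟨⟨v, h1, h3⟩, h4, rfl⟩
  have hkΨ : (LinearMap.ker Ψ).map (a.C l ⊓ pp a.q (kerV c)).subtype = a.C l ⊓ pp a.q S := by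
    ext v
    constructor
    · rintro ⟨u, hu, rfl⟩
      refine ⟨u.2.1, fun s hs => ?_⟩
      rw [h.form.symm]
      exact LinearMap.congr_fun hu ⟨s, hs⟩
    · rintro ⟨h1, h2⟩
      refine ⟨⟨v, h1, pp_anti (kerV_le c) h2⟩, LinearMap.ext fun s => ?_, rfl⟩
      show a.q v s = 0
      rw [h.form.symm]
      exact h2 s s.2
  have e1 := LinearMap.finrank_range_add_finrank_ker Φ
  have e2 := LinearMap.finrank_range_add_finrank_ker Ψ
  rw [← Submodule.finrank_map_subtype_eq, hkΦ] at e1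
  rw [← Submodule.finrank_map_subtype_eq, hkΨ] at e2
  have e3 := Submodule.finrank_mono hle
  omega

/-- the double orthogonal computation -/
theorem dim_X (h : a.Good) {R Z : Submodule L V} (hK : a.K ≤ a.E (pp a.q R)) :
    finrank L (a.E (pp a.q R) ⊓ a.perp (a.E Z) : Submodule L (J → V)) + finrank L (a.E Z) +
      finrank L (a.perp (a.E (pp a.q R))) = finrank L (a.E ⊤) + finrank L a.K +
        finrank L (a.E Z ⊓ a.perp (a.E (pp a.q R)) : Submodule L (J → V)) := by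
  set P := a.perp (a.E (pp a.q R)) with hP
  have hPE : P ≤ a.E ⊤ := po_le _
  have hKP : a.K ≤ P := K_le_perp _ (E_le_top _)
  have e1 : a.perp (a.E Z ⊔ P) = a.E (pp a.q R) ⊓ a.perp (a.E Z) := by
    have e2 : a.perp (a.E Z ⊔ P) = a.perp (a.E Z) ⊓ a.perp P := po_sup _ _
    have e3 : a.perp P = a.E (pp a.q R) ⊔ a.K := po_po h.M_skew (E_le_top _)
    rw [e2, e3, sup_eq_left.mpr hK, inf_comm]
  have e4 := finrank_po (M := a.M) (E := a.E ⊤) h.M_skew
    (sup_le (E_le_top Z) hPE : a.E Z ⊔ P ≤ a.E ⊤)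
  have e5 : (a.E Z ⊔ P) ⊓ po a.M (a.E ⊤) (a.E ⊤) = a.K :=
    inf_eq_right.mpr (hKP.trans le_sup_right)
  have e6 : po a.M (a.E ⊤) (a.E Z ⊔ P) = a.E (pp a.q R) ⊓ a.perp (a.E Z) := e1
  rw [e5, e6] at e4
  have e7 := Submodule.finrank_sup_add_finrank_inf_eq (a.E Z) P
  omega

/-- the kernel of a form which vanishes on `R` -/
theorem dat_kerV (h : a.Good) {R S : Submodule L V} (D : Dat a R S)
    (hK : a.K ≤ a.E (pp a.q R)) {c : ↥S →ₗ[L] Dual L ↥S} (hc : SkC a S c)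
    (hcR : ∀ u : ↥S, (u : V) ∈ R → c u = 0) :
    Dat a R (kerV c) ∧ a.θ (kerV c) = a.θ S := by
  have hZS := kerV_le c
  have hRZ : R ≤ kerV c := fun r hr => mem_kerV.mpr ⟨D.le hr, hcR ⟨r, D.le hr⟩ hr⟩
  have hZ : kerV c ≤ pp a.q (kerV c) := hZS.trans (D.iso.trans (pp_anti hZS))
  have e1 := dim_X h hK (Z := S)
  have e2 := dim_X h hK (Z := kerV c)
  have e3 : a.E S ⊓ a.perp (a.E (pp a.q R)) = a.E (kerV c) ⊓ a.perp (a.E (pp a.q R)) := by
    apply le_antisymm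
    · rintro t ⟨h1, h2⟩
      exact ⟨ct_zero h D hc hcR h1 h2, h2⟩
    · exact inf_le_inf_right _ (E_mono hZS)
  rw [e3] at e1
  have hX : ∀ {W : Submodule L V}, R ≤ W → W ≤ pp a.q W →
      a.E (pp a.q W) ≤ a.E (pp a.q R) ⊓ a.perp (a.E W) := fun {W} hRW hW =>
    le_inf (E_mono (pp_anti hRW)) fun t ht => mem_perp.mpr ⟨fun l => (mem_E.mp ht l).1,
      fun w hw => by
        rw [h.M_skew, neg_eq_zero]
        exact M_zero (fun l => (mem_E.mp hw l).2) (fun l => (mem_E.mp ht l).2) h⟩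
  have e4 : a.E (pp a.q R) ⊓ a.perp (a.E S) = a.E (pp a.q S) :=
    le_antisymm D.ext (hX D.le D.iso)
  rw [e4] at e1
  have e5 := Submodule.finrank_mono (hX hRZ hZ)
  have e6 := theta_kerV h hc
  rw [a.θ_eq, a.θ_eq] at e6
  have e7 : finrank L (a.E (pp a.q R) ⊓ a.perp (a.E (kerV c)) : Submodule L (J → V)) ≤
      finrank L (a.E (pp a.q (kerV c))) := by omega
  have e8 := Submodule.eq_of_le_of_finrank_le (hX hRZ hZ) e7
  refine ⟨⟨hRZ, hZ, e8.ge⟩, ?_⟩
  rw [a.θ_eq, a.θ_eq]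
  rw [← e8] at e2
  omega

/-- `S` can be chosen without skew forms vanishing on `R` -/
theorem exists_min (h : a.Good) {R S₀ : Submodule L V} (D : Dat a R S₀)
    (hK : a.K ≤ a.E (pp a.q R)) :
    ∃ S ≤ S₀, Dat a R S ∧ a.θ S = a.θ S₀ ∧
      ∀ c : ↥S →ₗ[L] Dual L ↥S, SkC a S c → (∀ u : ↥S, (u : V) ∈ R → c u = 0) → c = 0 := by
  have key : ∀ (n : ℕ) (S : Submodule L V), finrank L S ≤ n → Dat a R S →
      ∃ S' ≤ S, Dat a R S' ∧ a.θ S' = a.θ S ∧
        ∀ c : ↥S' →ₗ[L] Dual L ↥S', SkC a S' c → (∀ u : ↥S', (u : V) ∈ R → c u = 0) → c = 0 := by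
    intro n
    induction n with
    | zero =>
      intro S hn D
      refine ⟨S, le_rfl, D, rfl, fun c _ _ => ?_⟩
      have h0 : S = ⊥ := Submodule.finrank_eq_zero.mp (Nat.le_zero.mp hn)
      subst h0
      refine LinearMap.ext fun u => ?_
      have : u = 0 := Subsingleton.elim _ _
      rw [this, map_zero, map_zero]
    | succ n ih =>
      intro S hn D
      by_cases hall : ∀ c : ↥S →ₗ[L] Dual L ↥S, SkC a S c →
          (∀ u : ↥S, (u : V) ∈ R → c u = 0) → c = 0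
      · exact ⟨S, le_rfl, D, rfl, hall⟩
      · push Not at hall
        obtain ⟨c, hc, hcR, hc0⟩ := hall
        obtain ⟨D', hθ⟩ := dat_kerV h D hK hc hcR
        have hlt : kerV c < S := by
          refine lt_of_le_of_ne (kerV_le c) fun heq => hc0 (LinearMap.ext fun u => ?_)
          have h1 : (u : V) ∈ kerV c := by rw [heq]; exact u.2
          exact (mem_kerV.mp h1).2
        obtain ⟨S', h1, h2, h3, h4⟩ := ih (kerV c) (by
          have := Submodule.finrank_lt_finrank_of_lt hlt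
          omega) D'
        exact ⟨S', h1.trans hlt.le, h2, h3.trans hθ, h4⟩
  exact key _ S₀ le_rfl D

/-- the radical stays small -/
theorem rad_small (h : a.Good) {R S S₀ : Submodule L V} (D₀ : Dat a R S₀) (D : Dat a R S)
    (hle : S ≤ S₀) (hθ : a.θ S = a.θ S₀) (hK : a.K ≤ a.E (pp a.q R)) {m : ℕ}
    (hrad : finrank L (a.E (pp a.q S₀) ⊓ a.perp (a.E (pp a.q S₀)) : Submodule L (J → V)) ≤
      m + finrank L (a.E S₀)) :
    finrank L (a.E (pp a.q S) ⊓ a.perp (a.E (pp a.q S)) : Submodule L (J → V)) ≤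
      m + finrank L (a.E S) := by
  have hKS := D.K_le hK
  have hKS₀ := D₀.K_le hK
  have D1 : Dat a S S₀ :=
    ⟨hle, D₀.iso, (inf_le_inf_right _ (E_mono (pp_anti D.le))).trans D₀.ext⟩
  have h6 := D1.h6 h hKS
  have e1 := finrank_po (M := a.M) (E := a.E ⊤) h.M_skew (E_le_top (a := a) (pp a.q S))
  have e2 := finrank_po (M := a.M) (E := a.E ⊤) h.M_skew (E_le_top (a := a) (pp a.q S₀))
  have e3 : a.E (pp a.q S) ⊓ po a.M (a.E ⊤) (a.E ⊤) = a.K := inf_eq_right.mpr hKS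
  have e4 : a.E (pp a.q S₀) ⊓ po a.M (a.E ⊤) (a.E ⊤) = a.K := inf_eq_right.mpr hKS₀
  rw [e3] at e1
  rw [e4] at e2
  have e5 := Submodule.finrank_sup_add_finrank_inf_eq (a.E S₀) (a.perp (a.E (pp a.q S)))
  rw [← h6] at e5
  have e1' : finrank L (a.E (pp a.q S)) + finrank L (a.perp (a.E (pp a.q S))) =
      finrank L (a.E ⊤) + finrank L a.K := e1
  have e2' : finrank L (a.E (pp a.q S₀)) + finrank L (a.perp (a.E (pp a.q S₀))) =
      finrank L (a.E ⊤) + finrank L a.K := e2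
  rw [a.θ_eq, a.θ_eq] at hθ
  have e6 : a.E S ≤ a.E S₀ ⊓ a.perp (a.E (pp a.q S)) := le_inf (E_mono hle) (E_le_perp h)
  have e7 : finrank L (a.E S₀ ⊓ a.perp (a.E (pp a.q S)) : Submodule L (J → V)) ≤
      finrank L (a.E S) := by omega
  have e8 := Submodule.eq_of_le_of_finrank_le e6 e7
  set X := a.E (pp a.q S) ⊓ a.perp (a.E (pp a.q S)) with hX
  have hES₀ : a.E S₀ ≤ a.E (pp a.q S) := E_mono (D₀.iso.trans (pp_anti hle))
  have hXX : X ≤ a.E (pp a.q S₀) ⊓ a.perp (a.E (pp a.q S₀)) := by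
    rintro t ⟨h1, h2⟩
    exact ⟨D1.ext ⟨h1, po_anti hES₀ h2⟩, po_anti (E_mono (pp_anti hle)) h2⟩
  have e9 : X ⊓ a.E S₀ = a.E S := by
    apply le_antisymm
    · rintro t ⟨⟨-, h2⟩, h3⟩
      rw [e8]
      exact ⟨h3, h2⟩
    · exact le_inf (le_inf (E_mono D.iso) (E_le_perp h)) (E_mono hle)
  have e10 := Submodule.finrank_sup_add_finrank_inf_eq X (a.E S₀)
  rw [e9] at e10
  have e11 : finrank L (X ⊔ a.E S₀ : Submodule L (J → V)) ≤
      finrank L (a.E (pp a.q S₀) ⊓ a.perp (a.E (pp a.q S₀)) : Submodule L (J → V)) :=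
    Submodule.finrank_mono (sup_le hXX (le_inf (E_mono D₀.iso) (E_le_perp h)))
  omega

end prod

end Vale.Agent.P182.H258
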