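import Vale.Agent.P182.H258.Prod1

/-!
# `Hom(N, S^*) = C x`
-/

namespace Vale.Agent.P182.H258

open Module Matrix Vale.Agent.P182.H533 Vale.Agent.P182.H96 Vale.Agent.P182.H96.Cf

section prod

variable {L V J ι : Type*} [Field L] [AddCommGroup V] [Module L V] [Fintype J]
  {a : Cf L V J ι} [DecidableEq J] [DecidableEq ι] [Fintype ι] [FiniteDimensional L V]

/-- **F4 for `S`.** -/
theorem F4S (h : a.Good) (h2 : (2 : L) ≠ 0) (hV : a.Versal) (hN : a.N1sq) {x : J → V}
    (hx : x ∈ a.K) {S : Submodule L V} (D : Dat a (Submodule.span L (Set.range x)) S) :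
    a.perp (a.E (pp a.q S)) ≤ a.K ⊔ a.E S ⊔ a.TT S x := by
  have hxR : ∀ l, x l ∈ Submodule.span L (Set.range x) := fun l =>
    Submodule.subset_span ⟨l, rfl⟩
  have hxS : ∀ l, x l ∈ S := fun l => D.le (hxR l)
  have hx' := mem_K.mp hx
  set W := a.K ⊔ a.E S ⊔ a.TT S x with hW
  have hWE : W ≤ a.E ⊤ := by
    refine sup_le (sup_le (po_le _) (E_le_top S)) ?_
    rintro t ⟨b, h1, h3⟩
    refine mem_E_top.mpr fun l => ?_
    rw [h3]
    exact h1.pres l _ (hx'.1 l)
  have hKW : a.K ≤ W := le_sup_left.trans le_sup_left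
  have hWW : a.perp (a.perp W) = W := by
    have e1 : a.perp (a.perp W) = W ⊔ a.K := po_po h.M_skew hWE
    rw [e1]
    exact sup_eq_left.mpr hKW
  have hle : a.perp W ≤ a.E (pp a.q S) := by
    intro z hz
    obtain ⟨hz1, hz2⟩ := mem_perp.mp hz
    have hzS : ∀ t ∈ a.E S, a.M t z = 0 := fun t ht =>
      hz2 t ((le_sup_right.trans le_sup_left : a.E S ≤ W) ht)
    have hT : ∀ B : ι → End L V, (∀ s, IsSk a.q (B s)) → (∀ s, ∀ r ∈ S, B s r ∈ S) →
        a.Tt z x B = 0 := by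
      intro B hB hBR
      obtain ⟨c, hc1, hc2⟩ := hV (fun s => - B s) (fun s u v => by
        rw [LinearMap.neg_apply, LinearMap.neg_apply, map_neg, map_neg, LinearMap.neg_apply,
          hB s u v]) (fun _ _ => 0) (fun _ _ => by simp)
      obtain ⟨cs, h3, h4, h5⟩ := h.exists_cs h2 c D.iso
      have hkey := h.key c hx hz1 hxS hzS cs h3 (fun l => h4 _ _) h5
      simp only [hc2, zero_mul, Finset.sum_const_zero, zero_add] at hkey
      have hb : a.Eps S ((fun s => dif c (cs s) (h3 s)) - B) := by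
        refine ⟨fun s u v => ?_, fun s i v hv => ?_, fun s s' r hr => ?_⟩
        · have e1 := dif_sk c (cs s) (h3 s) u v
          simp only [Pi.sub_apply, LinearMap.sub_apply, map_sub, hB s u v, e1]
          ring
        · have e1 := (a.F s i).sub_mem (h4 s i v hv) (hc1 s i v hv)
          simp only [LinearMap.neg_apply, sub_neg_eq_add] at e1
          simp only [Pi.sub_apply, LinearMap.sub_apply, dif_apply]
          convert e1 using 1
          abel
        · have e1 := S.sub_mem (S.sub_mem (h5 s r hr) (h5 s' r hr))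
            (S.sub_mem (hBR s r hr) (hBR s' r hr))
          simp only [Pi.sub_apply, LinearMap.sub_apply, dif_apply]
          convert e1 using 1
          abel
      have hb0 : a.Tt z x ((fun s => dif c (cs s) (h3 s)) - B) = 0 := by
        have e1 : ∑ l, a.q (z l) (((fun s => dif c (cs s) (h3 s)) - B) (a.arm l)
            (om a.Ω x l)) = 0 := by
          refine Finset.sum_eq_zero fun l _ => ?_
          have e2 := hb.sk (a.arm l) (z l) (om a.Ω x l)
          rw [hx'.2 l _ (hb.pres l _ (hz1 l))] at e2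
          exact neg_eq_zero.mp e2.symm
        rw [Tt, Finset.sum_add_distrib, e1, add_zero]
        have e3 := hz2 (fun l => ((fun s => dif c (cs s) (h3 s)) - B) (a.arm l) (x l))
          ((le_sup_right : a.TT S x ≤ W) ⟨_, hb, fun l => rfl⟩)
        rw [h.M_skew, h.M_apply', neg_neg] at e3
        exact e3
      rw [Tt_sub, hkey, zero_sub, neg_eq_zero] at hb0
      exact hb0
    have hZ := h.lemmaZ h2 hV hN hx hxS D.iso hz1 hzS (tau_eq_zero_of_Tt h hxS D.iso
      fun B hB hBR => hT B hB fun s r hr => hBR s r (D.iso hr))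
    refine D.ext ⟨mem_E.mpr fun l => ⟨hz1 l, fun r hr => ?_⟩, mem_perp.mpr ⟨hz1, hzS⟩⟩
    induction hr using Submodule.span_induction with
    | mem r hr =>
      obtain ⟨k, rfl⟩ := hr
      rw [h.form.symm]
      exact hZ l k
    | zero => rw [map_zero, LinearMap.zero_apply]
    | add u v _ _ hu hv => rw [map_add, LinearMap.add_apply, hu, hv, add_zero]
    | smul c u _ hu => rw [map_smul, LinearMap.smul_apply, hu, smul_zero]
  exact (po_anti hle).trans hWW.le

omit [DecidableEq J] [DecidableEq ι] [Fintype ι] in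
/-- the radical of `E_{S^⊥}` is `E_S + K` -/
theorem rad_eq (h : a.Good) {S : Submodule L V} (hS : S ≤ pp a.q S)
    (hKS : a.K ≤ a.E (pp a.q S)) {y : J → V} (hy : y ∈ a.K) (hyS : y ∉ a.E S)
    (hrad : finrank L (a.E (pp a.q S) ⊓ a.perp (a.E (pp a.q S)) : Submodule L (J → V)) ≤
      1 + finrank L (a.E S)) :
    a.E (pp a.q S) ⊓ a.perp (a.E (pp a.q S)) = a.E S ⊔ a.K := by
  have h1 : a.E S ⊔ a.K ≤ a.E (pp a.q S) ⊓ a.perp (a.E (pp a.q S)) :=
    sup_le (le_inf (E_mono hS) (E_le_perp h)) (le_inf hKS (K_le_perp _ (E_le_top _)))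
  symm
  apply Submodule.eq_of_le_of_finrank_le h1
  have h2 : a.E S < a.E S ⊔ a.K := by
    refine lt_of_le_of_ne le_sup_left fun heq => hyS ?_
    rw [heq]
    exact (le_sup_right : a.K ≤ a.E S ⊔ a.K) hy
  have h3 := Submodule.finrank_lt_finrank_of_lt h2
  omega

omit [DecidableEq J] [DecidableEq ι] [Fintype ι] in
/-- `Hom(N, V/S) → Hom(N, S^*)` is onto -/
theorem perp_ES (h : a.Good) {S : Submodule L V}
    (hKS : a.K ≤ a.E (pp a.q S))
    (hrad : a.E (pp a.q S) ⊓ a.perp (a.E (pp a.q S)) = a.E S ⊔ a.K) :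
    a.perp (a.E S) = a.E (pp a.q S) ⊔ a.perp (a.E (pp a.q S)) := by
  set P := a.perp (a.E (pp a.q S)) with hP
  have hPE : P ≤ a.E ⊤ := po_le _
  have e1 : a.perp (a.E (pp a.q S) ⊔ P) = a.E S ⊔ a.K := by
    have e2 : a.perp (a.E (pp a.q S) ⊔ P) = a.perp (a.E (pp a.q S)) ⊓ a.perp P := po_sup _ _
    have e3 : a.perp P = a.E (pp a.q S) ⊔ a.K := po_po h.M_skew (E_le_top _)
    rw [e2, e3, sup_eq_left.mpr hKS, inf_comm]
    exact hrad
  have e4 : a.perp (a.perp (a.E (pp a.q S) ⊔ P)) = a.E (pp a.q S) ⊔ P ⊔ a.K :=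
    po_po h.M_skew (sup_le (E_le_top _) hPE)
  have e5 : a.perp (a.E S ⊔ a.K) = a.perp (a.E S) := by
    have e6 : a.perp (a.E S ⊔ a.K) = a.perp (a.E S) ⊓ a.perp a.K := po_sup _ _
    have e7 : a.perp a.K = a.E ⊤ := by
      apply le_antisymm (po_le _)
      intro t ht
      refine mem_perp.mpr ⟨mem_E_top.mp ht, fun w hw => ?_⟩
      rw [h.M_skew, (mem_K'.mp hw).2 t (mem_E_top.mp ht), neg_zero]
    rw [e6, e7]
    exact inf_eq_left.mpr (po_le _)
  rw [e1, e5] at e4
  rw [e4]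
  exact sup_eq_left.mpr (hKS.trans le_sup_left)

/-- every element of `Hom(N, S^*)` is of the form `ε x` -/
theorem exists_eps (h : a.Good) (h2 : (2 : L) ≠ 0) (hV : a.Versal) (hN : a.N1sq) {x : J → V}
    (hx : x ∈ a.K) {S : Submodule L V} (D : Dat a (Submodule.span L (Set.range x)) S)
    (hKS : a.K ≤ a.E (pp a.q S))
    (hrad : a.E (pp a.q S) ⊓ a.perp (a.E (pp a.q S)) = a.E S ⊔ a.K) {z : J → V}
    (hz : z ∈ a.perp (a.E S)) :
    ∃ b, a.Eps S b ∧ ∀ l, z l - b (a.arm l) (x l) ∈ pp a.q S := by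
  rw [perp_ES h hKS hrad] at hz
  obtain ⟨e, he, f, hf, rfl⟩ := Submodule.mem_sup.mp hz
  obtain ⟨g, hg, t, ⟨b, hb, ht⟩, rfl⟩ := Submodule.mem_sup.mp (F4S h h2 hV hN hx D hf)
  obtain ⟨k, hk, s, hs, rfl⟩ := Submodule.mem_sup.mp hg
  refine ⟨b, hb, fun l => ?_⟩
  have h3 := (pp a.q S).add_mem (mem_E.mp he l).2 ((pp a.q S).add_mem (mem_E.mp (hKS hk) l).2
    (D.iso (mem_E.mp hs l).2))
  convert h3 using 1
  rw [Pi.add_apply, Pi.add_apply, Pi.add_apply, ht]
  abel

/-- the constant form of `ε` -/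
def epsC (a : Cf L V J ι) (S : Submodule L V) (B : End L V) : ↥S →ₗ[L] Dual L ↥S :=
  LinearMap.mk₂ L (fun u v => a.q (B u) v)
    (fun u u' v => by simp) (fun c u v => by simp) (fun u v v' => by simp)
    (fun c u v => by simp)

omit [Fintype J] [DecidableEq J] [DecidableEq ι] [Fintype ι] [FiniteDimensional L V] in
theorem epsC_apply (S : Submodule L V) (B : End L V) (u v : ↥S) :
    epsC a S B u v = a.q (B u) v := rfl

omit [Fintype J] [DecidableEq J] [DecidableEq ι] [Fintype ι] [FiniteDimensional L V] in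
/-- independence of the arm -/
theorem epsC_indep {S : Submodule L V} (hS : S ≤ pp a.q S) {b : ι → End L V} (hb : a.Eps S b)
    (h : a.Good) (s s' : ι) (u v : ↥S) : epsC a S (b s) u v = epsC a S (b s') u v := by
  have h1 := hS v.2 _ (hb.comp s s' u u.2)
  have h2 := h.form.symm
  rw [epsC_apply, epsC_apply, ← sub_eq_zero, ← LinearMap.sub_apply, ← map_sub]
  exact h1

omit [Fintype J] [DecidableEq J] [DecidableEq ι] [Fintype ι] [FiniteDimensional L V] in
theorem epsC_skew (h : a.Good) {S : Submodule L V} {b : ι → End L V} (hb : a.Eps S b) (s : ι)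
    (u v : ↥S) : epsC a S (b s) u v = - epsC a S (b s) v u := by
  rw [epsC_apply, epsC_apply, hb.sk, h.form.symm]

omit [Fintype J] [DecidableEq J] [DecidableEq ι] [Fintype ι] [FiniteDimensional L V] in
theorem epsC_flag (h : a.Good) {S : Submodule L V} (hS : S ≤ pp a.q S) {b : ι → End L V}
    (hb : a.Eps S b) (s₀ s : ι) (i : ℕ) {u v : ↥S} (hu : (u : V) ∈ a.F s i)
    (hv : (v : V) ∈ pp a.q (a.F s i)) : epsC a S (b s₀) u v = 0 := by
  rw [epsC_indep hS hb h s₀ s, epsC_apply]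
  exact hv _ (hb.presF s i u hu)

/-- forms which vanish on the values of `x` -/
theorem skc_inj (h : a.Good) {x : J → V} (hx : x ∈ a.K) {S : Submodule L V}
    (D : Dat a (Submodule.span L (Set.range x)) S) (hxS : ∀ l, x l ∈ S)
    (hmin : ∀ c : ↥S →ₗ[L] Dual L ↥S, SkC a S c →
      (∀ u : ↥S, (u : V) ∈ Submodule.span L (Set.range x) → c u = 0) → c = 0)
    {c : ↥S →ₗ[L] Dual L ↥S} (hc : SkC a S c)
    (h0 : ∀ l k, c ⟨x l, hxS l⟩ ⟨x k, hxS k⟩ = 0) : c = 0 := by
  have hx' := mem_K.mp hx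
  apply hmin c hc
  obtain ⟨z, hz, hz2⟩ := exists_ct h hc hxS hx'.1 (fun k w hw hwC => by
    rw [hc.sk, neg_eq_zero]
    exact hc.col k _ _ hwC (fun v hv => hx'.2 k v hv))
  have h3 : z ∈ a.E (pp a.q S) := by
    refine D.ext ⟨mem_E.mpr fun l => ⟨(mem_perp.mp hz).1 l, fun r hr => ?_⟩, hz⟩
    induction hr using Submodule.span_induction with
    | mem r hr =>
      obtain ⟨k, rfl⟩ := hr
      rw [h.form.symm]
      exact (hz2 l ⟨x k, hxS k⟩).trans (h0 l k)
    | zero => rw [map_zero, LinearMap.zero_apply]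
    | add u v _ _ hu hv => rw [map_add, LinearMap.add_apply, hu, hv, add_zero]
    | smul c u _ hu => rw [map_smul, LinearMap.smul_apply, hu, smul_zero]
  have h4 : ∀ l, c ⟨x l, hxS l⟩ = 0 := by
    intro l
    refine LinearMap.ext fun s => ?_
    rw [← hz2 l s, LinearMap.zero_apply, h.form.symm]
    exact (mem_E.mp h3 l).2 s s.2
  intro u hu
  obtain ⟨v, hv⟩ := u
  have hu' : v ∈ Submodule.span L (Set.range x) := hu
  have key : ∀ w ∈ Submodule.span L (Set.range x), ∀ hw : w ∈ S, c ⟨w, hw⟩ = 0 := by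
    intro w hw
    induction hw using Submodule.span_induction with
    | mem r hr =>
      obtain ⟨k, rfl⟩ := hr
      intro _
      exact h4 k
    | zero => intro hw; exact map_zero c
    | add u v hu' hv' hu hv =>
      intro hw
      have e1 : (⟨u + v, hw⟩ : ↥S) = ⟨u, D.le hu'⟩ + ⟨v, D.le hv'⟩ := rfl
      rw [e1, map_add, hu, hv, add_zero]
    | smul b u hu' hu =>
      intro hw
      have e1 : (⟨b • u, hw⟩ : ↥S) = b • ⟨u, D.le hu'⟩ := rfl
      rw [e1, map_smul, hu, smul_zero]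
  exact key v hu' hv

/-- there are elements of `Hom(N, S^*)` if `θ(S) ≤ 0` -/
theorem exists_zS (h : a.Good) {x : J → V} (hx : x ∈ a.K) (hx0 : x ≠ 0) {S : Submodule L V}
    (hxS : ∀ l, x l ∈ S) (hθ : a.θ S ≤ 0) :
    ∃ z ∈ a.perp (a.E S), z ∉ a.E (pp a.q S) := by
  by_contra hcon
  push Not at hcon
  have hle : a.perp (a.E S) ≤ a.E (pp a.q S) := hcon
  have e1 := finrank_po (M := a.M) (E := a.E ⊤) h.M_skew (E_le_top (a := a) S)
  have e2 := Submodule.finrank_mono hle
  have e3 : 1 ≤ finrank L (a.E S ⊓ po a.M (a.E ⊤) (a.E ⊤) : Submodule L (J → V)) := by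
    rw [Nat.one_le_iff_ne_zero]
    intro h0
    have h1 := Submodule.finrank_eq_zero.mp h0
    have h2 : x ∈ a.E S ⊓ po a.M (a.E ⊤) (a.E ⊤) :=
      ⟨mem_E.mpr fun l => ⟨(mem_K'.mp hx).1 l, hxS l⟩, hx⟩
    rw [h1, Submodule.mem_bot] at h2
    exact hx0 h2
  have e4 : po a.M (a.E ⊤) (a.E S) = a.perp (a.E S) := rfl
  rw [e4] at e1
  rw [a.θ_eq] at hθ
  omega

end prod

end Vale.Agent.P182.H258
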