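import Vale.Agent.P182.H258.Prod2
import Vale.Agent.P182.H258.OfExt
import Vale.Agent.P182.H258.HIn
import Vale.Agent.P182.H62.Gen0

/-!
# The producer: from (B2) to input (H)
-/

namespace Vale.Agent.P182.H258

open Module Matrix TensorProduct Vale.Agent.P182.H533 Vale.Agent.P182.B1 Vale.Agent.P182.H62
open Vale.Agent.P182.H96 (ofCfg toCfg pp pp_eq om Rd)

universe u w

section conv

variable {L : Type u} {V : Type u} {J : Type w} [Field L] [AddCommGroup V] [Module L V]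
  {𝒟 : Cfg L V J}

theorem skc_of_skf (g : 𝒟.Good) {S : Submodule L V} {d : ↥S →ₗ[L] Dual L ↥S}
    (hd : d ∈ SkF 𝒟 S) : SkC (ofCfg 𝒟) S d where
  sk := hd.1
  col l u v hu hv := by
    refine hd.2 (𝒟.arm l) (𝒟.c l) u v hu ?_
    have : (v : V) ∈ pp 𝒟.q (𝒟.C l) := hv
    rw [pp_eq g.form] at this
    exact this

theorem skf_of_eps (g : 𝒟.Good) {S : Submodule L V} (hS : 𝒟.Iso S) {b : Fin 3 → End L V}
    (hb : (ofCfg 𝒟).Eps S b) (s : Fin 3) : epsC (ofCfg 𝒟) S (b s) ∈ SkF 𝒟 S := by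
  have g' := H96.good_ofCfg g
  have hS' : S ≤ pp (ofCfg 𝒟).q S := by
    show S ≤ pp 𝒟.q S
    rw [pp_eq g.form]
    exact hS
  refine ⟨fun u v => epsC_skew g' hb s u v, fun s' i u v hu hv => ?_⟩
  refine epsC_flag g' hS' hb s s' i hu ?_
  show (v : V) ∈ pp 𝒟.q (𝒟.F s' i)
  rw [pp_eq g.form]
  exact hv

variable [Fintype J] [DecidableEq J] [FiniteDimensional L V]

/-- the coordinates of the elements of the kernel of the subquotient -/
theorem mem_K_sq_lift (g : 𝒟.Good) {S : Submodule L V} {t : J → SQ 𝒟.q S}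
    (ht : t ∈ (sq 𝒟 g S).K) : ∃ u : J → V, ∃ hu : ∀ l, u l ∈ perp 𝒟.q S,
      (∀ l, t l = SQmk S ⟨u l, hu l⟩) ∧
        u ∈ (ofCfg 𝒟).E (pp (ofCfg 𝒟).q S) ⊓ (ofCfg 𝒟).perp ((ofCfg 𝒟).E (pp (ofCfg 𝒟).q S)) := by
  have h1 : ∀ l, ∃ v : ↥(perp 𝒟.q S), (v : V) ∈ 𝒟.C l ∧ SQmk S v = t l := fun l =>
    (mem_SQim S).mp (ht.1 l)
  choose v hv1 hv2 using h1
  refine ⟨fun l => v l, fun l => (v l).2, fun l => (hv2 l).symm, ?_⟩
  have hE : (fun l => (v l : V)) ∈ (ofCfg 𝒟).E (pp (ofCfg 𝒟).q S) := by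
    refine H96.Cf.mem_E.mpr fun l => ⟨hv1 l, ?_⟩
    show (v l : V) ∈ pp 𝒟.q S
    rw [pp_eq g.form]
    exact (v l).2
  refine ⟨hE, H96.Cf.mem_perp.mpr ⟨hv1, fun w hw => ?_⟩⟩
  rw [H96.Cf.M_apply]
  refine Finset.sum_eq_zero fun l _ => ?_
  obtain ⟨hw1, hw2⟩ := H96.Cf.mem_E.mp hw l
  have hw2' : w l ∈ perp 𝒟.q S := by
    rw [← pp_eq g.form]; exact hw2
  have hom : 𝒟.om (fun l => (v l : V)) l ∈ perp 𝒟.q S :=
    Submodule.sum_mem _ fun k _ => Submodule.smul_mem _ _ (v k).2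
  have e1 : (sq 𝒟 g S).om t l = SQmk S ⟨𝒟.om (fun l => (v l : V)) l, hom⟩ := by
    have e3 : (⟨𝒟.om (fun l => (v l : V)) l, hom⟩ : ↥(perp 𝒟.q S)) =
        ∑ k, 𝒟.Ω l k • v k := by
      apply Subtype.ext
      rw [Submodule.coe_sum]
      rfl
    rw [e3, map_sum, Cfg.om]
    refine Finset.sum_congr rfl fun k _ => ?_
    rw [map_smul, hv2]
    rfl
  have e2 := ht.2 l
  rw [e1] at e2
  have e3 := e2 (SQmk S ⟨w l, hw2'⟩) (SQmk_mem_SQim S hw1)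
  have e4 : 𝒟.q (𝒟.om (fun l => (v l : V)) l) (w l) = 0 := e3
  show 𝒟.q (w l) (𝒟.om (fun l => (v l : V)) l) = 0
  rw [g.form.symm]
  exact e4

/-- elements of the kernel in `S^⊥` give elements of the kernel of the subquotient -/
theorem mem_K_sq (g : 𝒟.Good) {S : Submodule L V} (hS : 𝒟.Iso S) {y : J → V} (hy : y ∈ 𝒟.K)
    (hyp : ∀ l, y l ∈ perp 𝒟.q S) : (fun l => SQmk S ⟨y l, hyp l⟩) ∈ (sq 𝒟 g S).K := by
  rw [Cfg.mem_K]
  refine ⟨fun l => SQmk_mem_SQim S (hy.1 l), fun l => ?_⟩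
  rw [perp_sq_C _ hS]
  have e1 : 𝒟.om y l ∈ perp 𝒟.q S :=
    Submodule.sum_mem _ fun k _ => Submodule.smul_mem _ _ (hyp k)
  have e2 : (sq 𝒟 g S).om (fun l => SQmk S ⟨y l, hyp l⟩) l = SQmk S ⟨𝒟.om y l, e1⟩ := by
    have e3 : (⟨𝒟.om y l, e1⟩ : ↥(perp 𝒟.q S)) = ∑ k, 𝒟.Ω l k • ⟨y k, hyp k⟩ := by
      apply Subtype.ext
      rw [Submodule.coe_sum]
      rfl
    rw [e3, map_sum, Cfg.om]
    refine Finset.sum_congr rfl fun k _ => ?_
    rw [map_smul]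
    rfl
  rw [e2]
  exact SQmk_mem_SQim S (hy.2 l)

/-- `Ext(S, M) = 0`, if all constant forms come from movements -/
theorem ext_zero (g : 𝒟.Good) (h2 : (2 : L) ≠ 0) (hV : 𝒟.Versal) {S : Submodule L V}
    (hS : 𝒟.Iso S)
    (hC : ∀ d ∈ SkF 𝒟 S, ∃ b : Fin 3 → End L V, (ofCfg 𝒟).Eps S b ∧
      ∀ u v : ↥S, d u v = 𝒟.q (b 0 u) v)
    (Y : Fin 3 → (↥S →ₗ[L] SQ 𝒟.q S)) :
    ∃ (a : ↥S →ₗ[L] SQ 𝒟.q S) (b : Fin 3 → (↥S →ₗ[L] SQ 𝒟.q S)), (∀ s, Y s = a + b s) ∧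
      (∀ s i (v : ↥S), (v : V) ∈ 𝒟.F s i → b s v ∈ (sq 𝒟 g S).F s i) ∧
        ∀ s i (v : ↥S), (v : V) ∈ perp 𝒟.q (𝒟.F s i) →
          b s v ∈ perp (sq 𝒟 g S).q ((sq 𝒟 g S).F s i) := by
  -- skew lifts of `Y s`
  have hlift : ∀ s, ∃ Z : End L V, IsSk 𝒟.q Z ∧ ∀ v : ↥S, ∃ hv : Z v ∈ perp 𝒟.q S,
      SQmk S ⟨Z v, hv⟩ = Y s v := by
    intro s
    -- a linear lift with values in `S^⊥`
    obtain ⟨σ, hσ⟩ := (SQmk (q := 𝒟.q) S).exists_rightInverse_of_surjective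
      (LinearMap.range_eq_top.mpr (SQmk_surjective S))
    let T : ↥S →ₗ[L] V := (perp 𝒟.q S).subtype ∘ₗ σ ∘ₗ Y s
    have hT : ∀ v, T v ∈ perp 𝒟.q S := fun v => (σ (Y s v)).2
    have hTY : ∀ v, SQmk S ⟨T v, hT v⟩ = Y s v := fun v => by
      have := LinearMap.congr_fun hσ (Y s v)
      exact this
    -- coordinates of `S` which are given by vectors of `V`
    let bs := Module.finBasis L ↥S
    have hco : ∀ i, ∃ e : V, ∀ v : ↥S, 𝒟.q e v = bs.repr v i := by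
      intro i
      obtain ⟨z, -, hz⟩ := exists_lift g.form S ⊤ (bs.coord i) (fun w hw => by
        have : (w : V) = 0 := g.form.nondeg _ fun v => by
          rw [g.form.symm]
          exact hw v trivial
        have hw0 : w = 0 := Subtype.ext this
        rw [hw0, map_zero])
      exact ⟨z, hz⟩
    choose e he using hco
    refine ⟨∑ i, wdg 𝒟.q (e i) (T (bs i)), fun u v => ?_, fun v => ?_⟩
    · rw [LinearMap.sum_apply, LinearMap.sum_apply, map_sum, LinearMap.sum_apply, map_sum,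
        ← Finset.sum_neg_distrib]
      exact Finset.sum_congr rfl fun i _ => wdg_skew g.form _ _ u v
    · have h3 : (∑ i, wdg 𝒟.q (e i) (T (bs i))) (v : V) = T v := by
        rw [LinearMap.sum_apply]
        conv_rhs => rw [← bs.sum_repr v, map_sum]
        refine Finset.sum_congr rfl fun i _ => ?_
        rw [wdg_apply, he, map_smul]
        have h4 : 𝒟.q (T (bs i)) (v : V) = 0 := hT (bs i) v v.2
        rw [h4, zero_smul, sub_zero]
      rw [h3]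
      exact ⟨hT v, hTY v⟩
  choose Z hZ hZ' using hlift
  obtain ⟨A, hA, hAB⟩ := h1_van g h2 hV hS Z hZ
  choose B hB1 hB2 P hP1 hP2 hZP using hAB
  -- the form `c = q(B u, v)`
  have hc : ∀ s (u v : ↥S), 𝒟.q (B s u) v = - 𝒟.q (A u) v := by
    intro s u v
    have h3 : 𝒟.q (Z s u) v = 0 := by
      obtain ⟨hv, -⟩ := hZ' s u
      exact hv v v.2
    rw [hZP s, LinearMap.add_apply, LinearMap.add_apply, map_add, map_add, LinearMap.add_apply,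
      LinearMap.add_apply] at h3
    have h4 : 𝒟.q (P s u) v = 0 := hS (hP2 s u u.2) v v.2
    rw [h4, add_zero] at h3
    linear_combination h3
  let d : ↥S →ₗ[L] Dual L ↥S := epsC (ofCfg 𝒟) S (B 0)
  have hd : d ∈ SkF 𝒟 S := by
    refine ⟨fun u v => ?_, fun s i u v hu hv => ?_⟩
    · show 𝒟.q (B 0 u) v = - 𝒟.q (B 0 v) u
      rw [hB1 0, g.form.symm]
    · show 𝒟.q (B 0 u) v = 0
      rw [hc 0, ← hc s, g.form.symm]
      exact hv _ (hB2 s i u hu)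
  obtain ⟨b, hb, hdb⟩ := hC d hd
  have hbS : ∀ s (u v : ↥S), 𝒟.q (b s u) v = - 𝒟.q (A u) v := by
    intro s u v
    have h3 := hS (hb.comp s 0 u u.2) v v.2
    rw [map_sub, LinearMap.sub_apply, sub_eq_zero] at h3
    rw [h3, ← hdb u v, ← hc 0]
    rfl
  have hperp : ∀ (T : End L V), (∀ u v : ↥S, 𝒟.q (T u) v = 0) → ∀ u : ↥S,
      T u ∈ perp 𝒟.q S := fun T hT u v hv => hT u ⟨v, hv⟩
  have ha : ∀ u : ↥S, (A + b 0) u ∈ perp 𝒟.q S := hperp _ fun u v => by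
    rw [LinearMap.add_apply, map_add, LinearMap.add_apply, hbS]
    ring
  have hbb : ∀ s, ∀ u : ↥S, (B s - b s) u ∈ perp 𝒟.q S := fun s => hperp _ fun u v => by
    rw [LinearMap.sub_apply, map_sub, LinearMap.sub_apply, hbS, hc]
    ring
  let mk : ∀ (T : End L V), (∀ u : ↥S, T u ∈ perp 𝒟.q S) → (↥S →ₗ[L] SQ 𝒟.q S) := fun T hT =>
    SQmk S ∘ₗ LinearMap.codRestrict (perp 𝒟.q S) (T ∘ₗ S.subtype) hT
  have hmk : ∀ T hT u, mk T hT u = SQmk S ⟨T u, hT u⟩ := fun T hT u => rfl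
  refine ⟨mk (A + b 0) ha, fun s => mk (B s - b s) (hbb s), fun s => ?_, fun s i v hv => ?_,
    fun s i v hv => ?_⟩
  · refine LinearMap.ext fun u => ?_
    obtain ⟨hv, hv'⟩ := hZ' s u
    rw [LinearMap.add_apply, hmk, hmk, ← hv', ← map_add, ← sub_eq_zero, ← map_sub, SQmk_eq_zero]
    show Z s u - ((A + b 0) u + (B s - b s) u) ∈ S
    have h3 : Z s u - ((A + b 0) (u : V) + (B s - b s) u) = P s u + (b s u - b 0 u) := by
      rw [hZP s]
      simp only [LinearMap.add_apply, LinearMap.sub_apply]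
      abel
    rw [h3]
    exact S.add_mem (hP2 s u u.2) (hb.comp s 0 u u.2)
  · rw [hmk]
    refine SQmk_mem_SQim S ?_
    exact Submodule.sub_mem _ (hB2 s i v hv) (hb.presF s i v hv)
  · rw [hmk, perp_sq_F g hS]
    refine SQmk_mem_SQim S ?_
    intro r hr
    show 𝒟.q ((B s - b s) (v : V)) r = 0
    rw [LinearMap.sub_apply, map_sub, LinearMap.sub_apply, hB1 s,
      (show 𝒟.q (b s v) r = - 𝒟.q v (b s r) from hb.sk s v r)]
    have h3 : 𝒟.q v (B s r) = 0 := hv _ (hB2 s i r hr)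
    have h4 : 𝒟.q v (b s r) = 0 := hv _ (hb.presF s i r hr)
    rw [h3, h4, neg_zero, sub_zero]

end conv

end Vale.Agent.P182.H258
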