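import Vale.Agent.P182.H388.DExt
import Mathlib.FieldTheory.IsAlgClosed.AlgebraicClosure

/-!
# Algebraically closed extensions with a new derivation
-/

namespace Vale.Agent.P182.H258

open Module

universe u

/-- an algebraically closed extension field with a derivation which kills the small field and
takes the value `1` -/
theorem exists_tau (L : Type u) [Field L] [CharZero L] :
    ∃ (L' : Type u) (_ : Field L') (_ : Algebra L L') (_ : IsAlgClosed L') (D : L' →+ L')
      (τ : L'), (∀ a b, D (a * b) = D a * b + a * D b) ∧ (∀ a, D (algebraMap L L' a) = 0) ∧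
        D τ = 1 := by
  obtain ⟨δ, h1, h2⟩ := H388.exists_dtau L (LaurentSeries L)
  have hc : ∀ a : L, δ (algebraMap L (LaurentSeries L) a) = 0 := by
    intro a
    have e1 : algebraMap L (LaurentSeries L) a =
        algebraMap (PowerSeries L) (LaurentSeries L) (PowerSeries.C a) := by
      rw [LaurentSeries.coe_algebraMap, HahnSeries.algebraMap_apply']
      rfl
    rw [e1, h2]
    have e2 : (PowerSeries.mk fun n => ((n : L) + 1) * PowerSeries.coeff (n + 1)
        (PowerSeries.C a)) = 0 := by
      ext n
      rw [PowerSeries.coeff_mk, PowerSeries.coeff_C, if_neg (Nat.succ_ne_zero n), mul_zero,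
        map_zero]
    rw [e2, map_zero]
  have hX : δ (algebraMap (PowerSeries L) (LaurentSeries L) PowerSeries.X) = 1 := by
    rw [h2]
    have e2 : (PowerSeries.mk fun n => ((n : L) + 1) * PowerSeries.coeff (n + 1)
        (PowerSeries.X : PowerSeries L)) = 1 := by
      ext n
      rw [PowerSeries.coeff_mk, PowerSeries.coeff_X, PowerSeries.coeff_one]
      rcases Nat.eq_zero_or_pos n with h0 | h0
      · subst h0; simp
      · rw [if_neg (by omega), if_neg (by omega), mul_zero]
    rw [e2, map_one]
  have : CharZero (LaurentSeries L) := charZero_of_injective_algebraMap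
    (algebraMap L (LaurentSeries L)).injective
  obtain ⟨D, h3, h4⟩ := H388.dExt (LaurentSeries L) (AlgebraicClosure (LaurentSeries L)) δ h1
  refine ⟨AlgebraicClosure (LaurentSeries L), inferInstance, inferInstance, inferInstance, D,
    algebraMap _ _ (algebraMap (PowerSeries L) (LaurentSeries L) PowerSeries.X), h3, fun a => ?_,
    ?_⟩
  · rw [IsScalarTower.algebraMap_apply L (LaurentSeries L)
      (AlgebraicClosure (LaurentSeries L)), h4, hc, map_zero]
  · rw [h4, hX, map_one]

end Vale.Agent.P182.H258
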