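import Vale.Agent.P182.H258.Desc

/-!
# The two models of `R^⊥ / R`
-/

namespace Vale.Agent.P182.H258

open Module Matrix TensorProduct Vale.Agent.P182.H533 Vale.Agent.P182.B1 Vale.Agent.P182.H62
open Vale.Agent.P182.H96 (ofCfg toCfg pp pp_eq om Rd)

universe u v w

section rd

variable {L : Type u} {V : Type v} {J : Type w} [Field L] [AddCommGroup V] [Module L V]
  {𝒟 : Cfg L V J} {R : Submodule L V}

/-- the comparison map -/
noncomputable def rdMap (g : 𝒟.Good) (D : Rd 𝒟.q R) : D.P →ₗ[L] SQ 𝒟.q R :=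
  SQmk R ∘ₗ Submodule.inclusion (D.le.trans (pp_eq g.form R).le)

theorem rdMap_π (g : 𝒟.Good) (D : Rd 𝒟.q R) (v : V) (hv : v ∈ perp 𝒟.q R) :
    rdMap g D (D.π v) = SQmk R ⟨v, hv⟩ := by
  rw [← sub_eq_zero]
  have h1 : rdMap g D (D.π v) = SQmk R ⟨D.π v, (D.le.trans (pp_eq g.form R).le) (D.π v).2⟩ := rfl
  rw [h1, ← map_sub, SQmk_eq_zero]
  have h2 := D.π_sub v (by rw [pp_eq g.form]; exact hv)
  have h3 : -(v - D.π v) ∈ R := R.neg_mem h2
  rwa [neg_sub] at h3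

/-- the comparison isomorphism -/
noncomputable def rdEquiv (g : 𝒟.Good) (D : Rd 𝒟.q R) : D.P ≃ₗ[L] SQ 𝒟.q R :=
  LinearEquiv.ofBijective (rdMap g D) (by
    constructor
    · rw [injective_iff_map_eq_zero]
      intro p hp
      have h1 : (p : V) ∈ R := (SQmk_eq_zero R).mp hp
      exact Subtype.ext (D.disj p p.2 h1)
    · intro y
      obtain ⟨⟨v, hv⟩, rfl⟩ := SQmk_surjective R y
      exact ⟨D.π v, rdMap_π g D v hv⟩)

theorem rdEquiv_π (g : 𝒟.Good) (D : Rd 𝒟.q R) (v : V) (hv : v ∈ perp 𝒟.q R) :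
    rdEquiv g D (D.π v) = SQmk R ⟨v, hv⟩ := rdMap_π g D v hv

/-- the two models are isomorphic configurations -/
noncomputable def rdIso (g : 𝒟.Good) (D : Rd (ofCfg 𝒟).q R) :
    CIso (toCfg ((ofCfg 𝒟).red D)) (sq 𝒟 g R) where
  e := rdEquiv (𝒟 := 𝒟) g D
  q x y := rfl
  F s i := by
    ext z
    show z ∈ ((𝒟.F s i ⊓ pp 𝒟.q R).map D.π).map (rdEquiv (𝒟 := 𝒟) g D).toLinearMap ↔
      z ∈ SQim R (𝒟.F s i)
    rw [mem_SQim]
    constructor
    · rintro ⟨_, ⟨v, ⟨h1, h2⟩, rfl⟩, rfl⟩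
      have h3 : v ∈ perp 𝒟.q R := by rw [← pp_eq g.form]; exact h2
      exact ⟨⟨v, h3⟩, h1, (rdEquiv_π (𝒟 := 𝒟) g D v h3).symm⟩
    · rintro ⟨⟨v, h3⟩, h1, rfl⟩
      have h2 : v ∈ pp 𝒟.q R := by rw [pp_eq g.form]; exact h3
      exact ⟨D.π v, ⟨v, ⟨h1, h2⟩, rfl⟩, rdEquiv_π (𝒟 := 𝒟) g D v h3⟩
  arm := rfl
  c := rfl
  Ω := rfl

end rd

section transport

variable {L : Type u} {V V' : Type v} {J : Type w} [Field L] [AddCommGroup V] [Module L V]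
  [AddCommGroup V'] [Module L V'] {𝒟 : Cfg L V J} {𝒟' : Cfg L V' J}

theorem ciso_q_symm (i : CIso 𝒟 𝒟') (x y : V') :
    𝒟.q (i.e.symm x) (i.e.symm y) = 𝒟'.q x y := by
  rw [← i.q, LinearEquiv.apply_symm_apply, LinearEquiv.apply_symm_apply]

theorem ciso_mem_F (i : CIso 𝒟 𝒟') (s : Fin 3) (k : ℕ) (x : V) :
    i.e x ∈ 𝒟'.F s k ↔ x ∈ 𝒟.F s k := by
  rw [← i.F]
  constructor
  · rintro ⟨y, hy, hxy⟩
    have : y = x := i.e.injective hxy
    rwa [← this]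
  · exact fun h => ⟨x, h, rfl⟩

theorem ciso_mem_F' (i : CIso 𝒟 𝒟') (s : Fin 3) (k : ℕ) (x : V') :
    i.e.symm x ∈ 𝒟.F s k ↔ x ∈ 𝒟'.F s k := by
  rw [← ciso_mem_F i, LinearEquiv.apply_symm_apply]

/-- transport of a connection -/
def ciso_conn (i : CIso 𝒟 𝒟') (n : Conn 𝒟.q) : Conn 𝒟'.q where
  d := n.d
  δ := (i.e.toLinearMap.toAddMonoidHom.comp n.δ).comp i.e.symm.toLinearMap.toAddMonoidHom
  leib := n.leib
  smul := fun a v => by
    show i.e (n.δ (i.e.symm (a • v))) = n.d a • v + a • i.e (n.δ (i.e.symm v))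
    rw [map_smul, n.smul, map_add, map_smul, map_smul, LinearEquiv.apply_symm_apply]
  metric := fun u v => by
    show n.d (𝒟'.q u v) = 𝒟'.q (i.e (n.δ (i.e.symm u))) v + 𝒟'.q u (i.e (n.δ (i.e.symm v)))
    rw [← ciso_q_symm i, ← ciso_q_symm i, ← ciso_q_symm i, n.metric,
      LinearEquiv.symm_apply_apply, LinearEquiv.symm_apply_apply]

theorem ciso_conn_δ (i : CIso 𝒟 𝒟') (n : Conn 𝒟.q) (v : V') :
    (ciso_conn i n).δ v = i.e (n.δ (i.e.symm v)) := rfl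

/-- transport of versality -/
theorem ciso_versal (i : CIso 𝒟 𝒟') (h : 𝒟.Versal) : 𝒟'.Versal := by
  intro Y hY η hη
  obtain ⟨n, h1, h2⟩ := h (fun s => i.e.symm.toLinearMap ∘ₗ Y s ∘ₗ i.e.toLinearMap)
    (fun s u v => by
      show 𝒟.q (i.e.symm (Y s (i.e u))) v = - 𝒟.q u (i.e.symm (Y s (i.e v)))
      have e1 := hY s (i.e u) (i.e v)
      rw [← ciso_q_symm i, ← ciso_q_symm i, LinearEquiv.symm_apply_apply,
        LinearEquiv.symm_apply_apply] at e1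
      exact e1) η hη
  refine ⟨ciso_conn i n, fun s k v hv => ?_, fun l k => ?_⟩
  · have h3 := h1 s k (i.e.symm v) ((ciso_mem_F' i s k v).mpr hv)
    rw [← ciso_mem_F i, map_sub] at h3
    rw [ciso_conn_δ]
    simpa using h3
  · show n.d (𝒟'.Ω l k) = η l k
    rw [i.Ω]
    exact h2 l k

theorem ciso_mem_C (i : CIso 𝒟 𝒟') (l : J) (x : V) : i.e x ∈ 𝒟'.C l ↔ x ∈ 𝒟.C l := by
  rw [Cfg.C, Cfg.C, i.arm, i.c, ciso_mem_F]

theorem ciso_mem_perp (i : CIso 𝒟 𝒟') (W : Submodule L V) (x : V) :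
    i.e x ∈ perp 𝒟'.q (W.map i.e.toLinearMap) ↔ x ∈ perp 𝒟.q W := by
  constructor
  · intro h w hw
    rw [← i.q]
    exact h _ ⟨w, hw, rfl⟩
  · rintro h _ ⟨w, hw, rfl⟩
    show 𝒟'.q (i.e x) (i.e w) = 0
    rw [i.q]
    exact h w hw

theorem ciso_C (i : CIso 𝒟 𝒟') (l : J) : 𝒟'.C l = (𝒟.C l).map i.e.toLinearMap := by
  rw [Cfg.C, Cfg.C, i.arm, i.c, ← i.F]

variable [Fintype J]

theorem ciso_om (i : CIso 𝒟 𝒟') (t : J → V) (l : J) :
    𝒟'.om (fun k => i.e (t k)) l = i.e (𝒟.om t l) := by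
  rw [Cfg.om, Cfg.om, i.Ω, map_sum]
  exact Finset.sum_congr rfl fun k _ => (map_smul _ _ _).symm

theorem ciso_mem_K (i : CIso 𝒟 𝒟') (t : J → V) :
    (fun l => i.e (t l)) ∈ 𝒟'.K ↔ t ∈ 𝒟.K := by
  rw [Cfg.mem_K, Cfg.mem_K]
  refine and_congr (forall_congr' fun l => ciso_mem_C i l _) (forall_congr' fun l => ?_)
  rw [ciso_om, ciso_C i, ciso_mem_perp]

/-- transport of the dimension of the kernel -/
theorem ciso_finrank_K (i : CIso 𝒟 𝒟') : finrank L 𝒟'.K = finrank L 𝒟.K := by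
  let E : (J → V) ≃ₗ[L] (J → V') := LinearEquiv.piCongrRight fun _ => i.e
  have h1 : 𝒟.K.map E.toLinearMap = 𝒟'.K := by
    ext t
    constructor
    · rintro ⟨t, ht, rfl⟩
      exact (ciso_mem_K i t).mpr ht
    · intro ht
      refine ⟨E.symm t, ?_, E.apply_symm_apply t⟩
      rw [SetLike.mem_coe, ← ciso_mem_K i]
      have : (fun l => i.e ((E.symm t) l)) = t := E.apply_symm_apply t
      rwa [this]
  rw [← h1, LinearEquiv.finrank_map_eq]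

end transport

end Vale.Agent.P182.H258
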