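import Vale.Agent.P182.H258.DatBC
import Vale.Agent.P182.H258.Tau
import Vale.Agent.P182.H62.TFrame

/-!
# Case (g) for arbitrary heights

In a strict versal configuration with two-dimensional kernel every isotropic element of the kernel
is zero, provided that the situation (B2) does not occur.
-/

namespace Vale.Agent.P182.H258

open Module Matrix TensorProduct Vale.Agent.P182.H533 Vale.Agent.P182.B1 Vale.Agent.P182.H62
open Vale.Agent.P182.H96 (ofCfg toCfg pp pp_eq om Rd)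

universe u v w

section

variable {L : Type u} {V : Type u} {J : Type w} [Field L] [AddCommGroup V] [Module L V]
  [Fintype J]

/-- the situation (B2) -/
structure B2 (𝒟 : Cfg L V J) (g : 𝒟.Good) (x y : J → V) (S : Submodule L V) : Prop where
  xK : x ∈ 𝒟.K
  x0 : x ≠ 0
  xx : ∀ l k, 𝒟.q (x l) (x k) = 0
  versalR : (sq 𝒟 g (Submodule.span L (Set.range x))).Versal
  le : Submodule.span L (Set.range x) ≤ S
  iso : 𝒟.Iso S
  ext : ExtZero (sq 𝒟 g (Submodule.span L (Set.range x))) (SQim (Submodule.span L (Set.range x)) S)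
  versal : (sq 𝒟 g S).Versal
  strict : UStrict (sq 𝒟 g S)
  dimK : finrank L (sq 𝒟 g S).K = 1
  yK : y ∈ 𝒟.K
  yS : ∀ l, y l ∈ perp 𝒟.q S
  yn : ¬ ∀ l, y l ∈ S

end

/-- the situation (B2) does not occur -/
def HypB2 (J : Type w) [Fintype J] : Prop :=
  ∀ (L : Type u) [Field L] [CharZero L] (V : Type u) [AddCommGroup V] [Module L V]
    [FiniteDimensional L V] (𝒟 : Cfg L V J) (g : 𝒟.Good), 𝒟.Versal → UStrict 𝒟 →
    IHS.{u, w} J (finrank L V) → finrank L 𝒟.K = 2 → ∀ (x y : J → V) (S : Submodule L V),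
    ¬ B2 𝒟 g x y S

section todo

variable {L : Type u} {V : Type u} {J : Type w} [Field L] [AddCommGroup V] [Module L V]
  [Fintype J] [FiniteDimensional L V]

theorem str_unfold {𝒟 : Cfg L V J} (g : 𝒟.Good) {R : Submodule L V} (hR : 𝒟.Iso R)
    (h : STR (sq 𝒟 g R) (good_sq g hR)) :
    ∃ (L' : Type u) (_ : Field L') (_ : Algebra L L') (S : Submodule L' (L' ⊗[L] V)),
      R.baseChange L' ≤ S ∧ (bcC 𝒟 L').Iso S ∧
        ExtZero (sq (bcC 𝒟 L') (good_bcC g) (R.baseChange L')) (SQim (R.baseChange L') S) ∧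
          (sq (bcC 𝒟 L') (good_bcC g) S).Versal ∧ UStrict (sq (bcC 𝒟 L') (good_bcC g) S) ∧
            finrank L' (sq (bcC 𝒟 L') (good_bcC g) S).K ≤ 1 := by
  rw [H716.STR_iff] at h
  obtain ⟨L', i1, i2, h⟩ := h
  refine ⟨L', i1, i2, ?_⟩
  have hR' : (bcC 𝒟 L').Iso (R.baseChange L') := iso_bcC hR
  obtain ⟨i⟩ := exists_cIsoBC (L' := L') g R
  have gR : (sq (bcC 𝒟 L') (good_bcC g) (R.baseChange L')).Good := good_sq _ hR'
  obtain ⟨T, hT, hE, hV, hU, hK⟩ := H716.cIso_Res i gR h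
  obtain ⟨e⟩ := exists_cIsoIter (good_bcC g) hR' gR T
  refine ⟨SQpre (R.baseChange L') T, le_SQpre _ hR' T, iso_SQpre _ hR' hT, ?_,
    ciso_versal e hV, H716.cIso_uStrict e hU, (ciso_finrank_K e).trans_le hK⟩
  have e1 : SQim (R.baseChange L') (SQpre (R.baseChange L') T) = T := SQim_SQpre _ T
  rw [e1]
  exact hE

theorem ustrict_bcC {𝒟 : Cfg L V J} (h : UStrict 𝒟) (L' : Type u) [Field L'] [Algebra L L'] :
    UStrict (bcC 𝒟 L') := H716.uStrict_bc h L'

end todo

section main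

variable {J : Type w} [Fintype J] [DecidableEq J]

/-- the standing hypotheses -/
structure Hyp {L : Type u} [Field L] [CharZero L] {V : Type u} [AddCommGroup V] [Module L V]
    [FiniteDimensional L V] (𝒟 : Cfg L V J) : Prop where
  good : 𝒟.Good
  versal : 𝒟.Versal
  strict : UStrict 𝒟
  ih : IHS.{u, w} J (finrank L V)
  dim : finrank L 𝒟.K = 2

variable {L : Type u} [Field L] [CharZero L] {V : Type u} [AddCommGroup V] [Module L V]
  [FiniteDimensional L V] {𝒟 : Cfg L V J}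

omit [DecidableEq J] in
theorem two_ne : (2 : L) ≠ 0 := two_ne_zero

omit [Fintype J] [DecidableEq J] [FiniteDimensional L V] in
theorem charZero_ext (L' : Type u) [Field L'] [Algebra L L'] : CharZero L' :=
  charZero_of_injective_algebraMap (algebraMap L L').injective

/-- the hypotheses are stable under base change -/
theorem Hyp.bc (h : Hyp 𝒟) (L' : Type u) [Field L'] [Algebra L L'] [CharZero L'] :
    Hyp (bcC 𝒟 L') where
  good := good_bcC h.good
  versal := versal_bcC h.good two_ne h.versal (H388.dExt L L')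
  strict := ustrict_bcC h.strict L'
  ih := by
    rw [Module.finrank_baseChange]
    exact h.ih
  dim := by
    rw [finrank_K_bcC]
    exact h.dim

theorem Hyp.n1sq (h : Hyp 𝒟) : (ofCfg 𝒟).N1sq := H96.n1sq_ofCfg two_ne h.good h.versal

theorem Hyp.dim' (h : Hyp 𝒟) : finrank L (ofCfg 𝒟).K = 2 := by
  rw [ofCfg_K h.good]
  exact h.dim

omit [CharZero L] [FiniteDimensional L V] [Fintype J] [DecidableEq J] in
theorem span_iso (g : 𝒟.Good) {x : J → V} (hxx : ∀ l k, 𝒟.q (x l) (x k) = 0) :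
    𝒟.Iso (Submodule.span L (Set.range x)) := by
  have key : ∀ v : V, (∀ k, 𝒟.q v (x k) = 0) →
      ∀ u ∈ Submodule.span L (Set.range x), 𝒟.q v u = 0 := by
    intro v hv u hu
    induction hu using Submodule.span_induction with
    | mem u hu =>
      obtain ⟨k, rfl⟩ := hu
      exact hv k
    | zero => rw [map_zero]
    | add u w _ _ hu hw => rw [map_add, hu, hw, add_zero]
    | smul c u _ hu => rw [map_smul, hu, smul_zero]
  show Submodule.span L (Set.range x) ≤ perp 𝒟.q _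
  rw [Submodule.span_le]
  rintro _ ⟨k, rfl⟩
  intro u hu
  exact key _ (fun l => hxx k l) u hu

omit [CharZero L] [FiniteDimensional L V] [Fintype J] [DecidableEq J] in
theorem span_ne {x : J → V} (hx : x ≠ 0) : Submodule.span L (Set.range x) ≠ ⊥ := by
  intro h0
  apply hx
  funext l
  have : x l ∈ Submodule.span L (Set.range x) := Submodule.subset_span ⟨l, rfl⟩
  rw [h0, Submodule.mem_bot] at this
  exact this

omit [CharZero L] [FiniteDimensional L V] in
/-- the kernel is orthogonal to an isotropic element -/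
theorem Hyp.K_perp [CharZero L] [FiniteDimensional L V] (h : Hyp 𝒟) {x : J → V} (hx : x ∈ 𝒟.K)
    (hxx : ∀ l k, 𝒟.q (x l) (x k) = 0) :
    (ofCfg 𝒟).K ≤ (ofCfg 𝒟).E (pp (ofCfg 𝒟).q (Submodule.span L (Set.range x))) := by
  intro y hy
  refine H96.Cf.mem_E.mpr fun l => ⟨(H96.Cf.mem_K'.mp hy).1 l, fun u hu => ?_⟩
  have hx' : x ∈ (ofCfg 𝒟).K := by rw [ofCfg_K h.good]; exact hx
  induction hu using Submodule.span_induction with
  | mem u hu =>
    obtain ⟨k, rfl⟩ := hu
    rw [(H96.good_ofCfg h.good).form.symm]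
    exact (H96.good_ofCfg h.good).N1K (H96.versal_ofCfg h.versal) h.n1sq hx' hy hxx l k
  | zero => rw [map_zero, LinearMap.zero_apply]
  | add u w _ _ hu hw => rw [map_add, LinearMap.add_apply, hu, hw, add_zero]
  | smul c u _ hu => rw [map_smul, LinearMap.smul_apply, hu, smul_zero]

/-- the data at a point -/
structure DatK (𝒟 : Cfg L V J) (x : J → V) (S : Submodule L V) : Prop where
  dat : Dat (ofCfg 𝒟) (Submodule.span L (Set.range x)) S
  K_le : (ofCfg 𝒟).K ≤ (ofCfg 𝒟).E S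
  rad : finrank L ((ofCfg 𝒟).E (pp (ofCfg 𝒟).q S) ⊓
    (ofCfg 𝒟).perp ((ofCfg 𝒟).E (pp (ofCfg 𝒟).q S)) : Submodule L (J → V)) ≤
      1 + finrank L ((ofCfg 𝒟).E S)

/-- the data at a point are stable under base change -/
theorem DatK.bc (g : 𝒟.Good) {x : J → V} {S : Submodule L V} (D : DatK 𝒟 x S) (L' : Type u)
    [Field L'] [Algebra L L'] : DatK (bcC 𝒟 L') (fam L' x) (S.baseChange L') where
  dat := by
    rw [span_fam]
    exact dat_bc g D.dat
  K_le := by
    rw [K_bc g, E_bc]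
    exact famS_mono D.K_le
  rad := by
    rw [rad_bc g, E_bc, finrank_famS]
    exact D.rad

/-- **The alternative at an isotropic element with versal reduction.** -/
theorem Hyp.alt (hB : HypB2.{u, w} J) (h : Hyp 𝒟) {x : J → V} (hx : x ∈ 𝒟.K) (hx0 : x ≠ 0)
    (hxx : ∀ l k, 𝒟.q (x l) (x k) = 0)
    (hv : (sq 𝒟 h.good (Submodule.span L (Set.range x))).Versal) :
    ∃ (L' : Type u) (_ : Field L') (_ : Algebra L L') (_ : CharZero L')
      (S : Submodule L' (L' ⊗[L] V)), DatK (bcC 𝒟 L') (fam L' x) S := by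
  have hR : 𝒟.Iso (Submodule.span L (Set.range x)) := span_iso h.good hxx
  have hlt : finrank L (SQ 𝒟.q (Submodule.span L (Set.range x))) < finrank L V :=
    finrank_SQ_lt _ h.good.form hR (span_ne hx0)
  obtain ⟨L', _, _, S, h1, h2, h3, h4, h5, h6⟩ := str_unfold h.good hR
    (h.ih L _ (sq 𝒟 h.good _) (good_sq h.good hR) hlt hv)
  have hc : CharZero L' := charZero_ext (L := L) L'
  have h' := h.bc L'
  have hxx' : ∀ l k, (bcC 𝒟 L').q (fam L' x l) (fam L' x k) = 0 := fun l k => by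
    show qbc L' 𝒟.q ((1 : L') ⊗ₜ[L] x l) ((1 : L') ⊗ₜ[L] x k) = 0
    rw [qbc_one, hxx, map_zero]
  have hD : DatK (bcC 𝒟 L') (fam L' x) S := by
    refine ⟨?_, ?_, ?_⟩
    · rw [span_fam]
      exact dat_of_ext (good_bcC h.good) h1 h2 h3
    · -- otherwise (B2) occurs
      by_contra hcon
      have hD : Dat (ofCfg (bcC 𝒟 L')) (Submodule.span L' (Set.range (fam L' x))) S := by
        rw [span_fam]
        exact dat_of_ext (good_bcC h.good) h1 h2 h3
      have hK2 := hD.K_le (h'.K_perp (fam_mem_K hx) hxx')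
      obtain ⟨y, hy, hyS⟩ := SetLike.not_le_iff_exists.mp hcon
      have hy' : y ∈ (bcC 𝒟 L').K := by rw [← ofCfg_K (good_bcC h.good)]; exact hy
      have hyp : ∀ l, y l ∈ perp (bcC 𝒟 L').q S := fun l => by
        have := (H96.Cf.mem_E.mp (hK2 hy) l).2
        rw [← pp_eq (good_bcC h.good).form]
        exact this
      have hyn : ¬ ∀ l, y l ∈ S := fun hall => hyS (H96.Cf.mem_E.mpr fun l =>
        ⟨(H96.Cf.mem_K'.mp hy).1 l, hall l⟩)
      have hyK : (fun l => SQmk S ⟨y l, hyp l⟩) ∈ (sq (bcC 𝒟 L') (good_bcC h.good) S).K := by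
        rw [Cfg.mem_K]
        refine ⟨fun l => SQmk_mem_SQim S (hy'.1 l), fun l => ?_⟩
        rw [perp_sq_C _ h2]
        have e1 : (bcC 𝒟 L').om y l ∈ perp (bcC 𝒟 L').q S :=
          Submodule.sum_mem _ fun k _ => Submodule.smul_mem _ _ (hyp k)
        have e2 : (sq (bcC 𝒟 L') (good_bcC h.good) S).om (fun l => SQmk S ⟨y l, hyp l⟩) l =
            SQmk S ⟨(bcC 𝒟 L').om y l, e1⟩ := by
          have e3 : (⟨(bcC 𝒟 L').om y l, e1⟩ : ↥(perp (bcC 𝒟 L').q S)) =
              ∑ k, (bcC 𝒟 L').Ω l k • ⟨y k, hyp k⟩ := by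
            apply Subtype.ext
            rw [Submodule.coe_sum]
            rfl
          rw [e3, map_sum, Cfg.om]
          refine Finset.sum_congr rfl fun k _ => ?_
          rw [map_smul]
          rfl
        rw [e2]
        exact SQmk_mem_SQim S (hy'.2 l)
      have hK1 : finrank L' (sq (bcC 𝒟 L') (good_bcC h.good) S).K = 1 := by
        refine le_antisymm h6 ?_
        rw [Nat.one_le_iff_ne_zero]
        intro h0
        apply hyn
        intro l
        rw [Submodule.finrank_eq_zero] at h0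
        rw [h0, Submodule.mem_bot] at hyK
        exact (SQmk_eq_zero S).mp (congrFun hyK l)
      refine hB L' (L' ⊗[L] V) (bcC 𝒟 L') (good_bcC h.good) h'.versal h'.strict h'.ih h'.dim
        (fam L' x) y S ⟨fam_mem_K hx, fam_ne_zero hx0, hxx', ?_, ?_, h2, ?_, h4, h5, hK1, hy',
          hyp, hyn⟩
      · rw [span_fam]
        obtain ⟨i⟩ := exists_cIsoBC (L' := L') h.good (Submodule.span L (Set.range x))
        exact ciso_versal i (versal_bcC (good_sq h.good hR) two_ne hv (H388.dExt L L'))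
      · rw [span_fam]; exact h1
      · rw [span_fam]; exact h3
    · have h7 := rad_le (𝒟 := bcC 𝒟 L') (S := S) (m := 1) (good_bcC h.good) h2 h6
      exact h7
  exact ⟨L', _, _, hc, S, hD⟩

/-- a point which is not of type (i) has a versal reduction -/
theorem Hyp.versal_of_not (h : Hyp 𝒟) {x : J → V} (hx : x ∈ 𝒟.K)
    (hxx : ∀ l k, 𝒟.q (x l) (x k) = 0)
    (hmov : ∀ y ∈ (ofCfg 𝒟).K, ∀ b, (ofCfg 𝒟).Eps (Submodule.span L (Set.range x)) b →
      (∀ l, y l - b ((ofCfg 𝒟).arm l) (x l) ∈ Submodule.span L (Set.range x)) →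
      ∃ c : Conn (ofCfg 𝒟).q, (ofCfg 𝒟).IsD0 c ∧
        ∀ l, c.δ (x l) - y l ∈ Submodule.span L (Set.range x)) :
    (sq 𝒟 h.good (Submodule.span L (Set.range x))).Versal := by
  have hR : Submodule.span L (Set.range x) ≤ pp 𝒟.q (Submodule.span L (Set.range x)) := by
    rw [pp_eq h.good.form]
    exact span_iso h.good hxx
  obtain ⟨D⟩ := H96.exists_rd h.good.form hR
  have hx' : x ∈ (ofCfg 𝒟).K := by rw [ofCfg_K h.good]; exact hx
  have h1 := (H96.good_ofCfg h.good).versal_red two_ne (H96.versal_ofCfg h.versal) h.n1sq hx'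
    rfl hR D hmov
  exact ciso_versal (rdIso h.good D) (H96.versal_toCfg h1)

theorem Hyp.versal_of_not_typeI (h : Hyp 𝒟) {x : J → V} (hx : x ∈ 𝒟.K)
    (hxx : ∀ l k, 𝒟.q (x l) (x k) = 0) (hI : ¬ TypeI (ofCfg 𝒟) x) :
    (sq 𝒟 h.good (Submodule.span L (Set.range x))).Versal := by
  refine h.versal_of_not hx hxx fun y hy b hb hyb => ⟨H96.zeroConn _, H96.Cf.isD0_zero,
    fun l => ?_⟩
  have e1 : (H96.zeroConn (ofCfg 𝒟).q).δ (x l) = 0 := rfl
  rw [e1, zero_sub]
  by_contra hcon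
  exact hI ⟨y, hy, b, hb, hyb, fun hall => hcon (Submodule.neg_mem _ (hall l))⟩

/-- all elements of the kernel are isotropic and mutually orthogonal -/
theorem Hyp.all_iso (hB : HypB2.{u, w} J) (h : Hyp 𝒟) {w : J → V} (hw : w ∈ 𝒟.K) (hw0 : w ≠ 0)
    (hww : ∀ l k, 𝒟.q (w l) (w k) = 0) {x y : J → V} (hx : x ∈ (ofCfg 𝒟).K)
    (hy : y ∈ (ofCfg 𝒟).K) (l k : J) : 𝒟.q (x l) (y k) = 0 := by
  have g' := H96.good_ofCfg h.good
  have hV' := H96.versal_ofCfg h.versal
  have hw' : w ∈ (ofCfg 𝒟).K := by rw [ofCfg_K h.good]; exact hw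
  by_cases hI : TypeI (ofCfg 𝒟) w
  · obtain ⟨z, hz, b, hb, hzb, hzR⟩ := hI
    have hR : Submodule.span L (Set.range w) ≤
        pp (ofCfg 𝒟).q (Submodule.span L (Set.range w)) := by
      show _ ≤ pp 𝒟.q _
      rw [pp_eq h.good.form]
      exact span_iso h.good hww
    have hwR : ∀ l, w l ∈ Submodule.span L (Set.range w) := fun l =>
      Submodule.subset_span ⟨l, rfl⟩
    have hzz := g'.typeI two_ne hV' h.n1sq hw' hz rfl hR hb hzb
    have hzw : ∀ c : L, z ≠ c • w := by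
      rintro c rfl
      exact hzR fun l => Submodule.smul_mem _ c (hwR l)
    obtain ⟨α, β, hαβ⟩ := H96.exists_coord h.dim' hw' hz hw0 hzw y hy
    have e1 : 𝒟.q (x l) (w k) = 0 := g'.N1K hV' h.n1sq hw' hx hww l k
    have e2 : 𝒟.q (x l) (z k) = 0 := g'.N1K hV' h.n1sq hz hx hzz l k
    rw [hαβ, Pi.add_apply, Pi.smul_apply, Pi.smul_apply, map_add, map_smul, map_smul,
      e1, e2, smul_zero, smul_zero, add_zero]
  · obtain ⟨L', _, _, _, S, D⟩ := h.alt hB hw hw0 hww (h.versal_of_not_typeI hw hww hI)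
    have h1 : ∀ t ∈ (ofCfg 𝒟).K, ∀ l, fam L' t l ∈ S := by
      intro t ht l
      have h2 : fam L' t ∈ (ofCfg (bcC 𝒟 L')).K := by
        rw [ofCfg_K (good_bcC h.good)]
        rw [ofCfg_K h.good] at ht
        exact fam_mem_K ht
      exact (H96.Cf.mem_E.mp (D.K_le h2) l).2
    have h3 : qbc L' 𝒟.q ((1 : L') ⊗ₜ[L] x l) ((1 : L') ⊗ₜ[L] y k) = 0 :=
      D.dat.iso (h1 y hy k) _ (h1 x hx l)
    rw [qbc_one, map_eq_zero] at h3
    exact h3

/-- (5a) at every element of the kernel -/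
theorem Hyp.fa (hB : HypB2.{u, w} J) (h : Hyp 𝒟)
    (hH : ∀ x ∈ (ofCfg 𝒟).K, ∀ y ∈ (ofCfg 𝒟).K, ∀ l k, (ofCfg 𝒟).q (x l) (y k) = 0)
    {x : J → V} (hx : x ∈ (ofCfg 𝒟).K) (hx0 : x ≠ 0) : FA (ofCfg 𝒟) x := by
  have g' := H96.good_ofCfg h.good
  have hV' := H96.versal_ofCfg h.versal
  by_cases hI : TypeI (ofCfg 𝒟) x
  · exact fa_typeI g' two_ne hV' h.n1sq h.dim' hH hx hx0 hI
  · have hx' : x ∈ 𝒟.K := by rw [← ofCfg_K h.good]; exact hx
    obtain ⟨L', _, _, _, S, D⟩ := h.alt hB hx' hx0 (hH x hx x hx)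
      (h.versal_of_not_typeI hx' (hH x hx x hx) hI)
    have h' := h.bc L'
    have hx1 : fam L' x ∈ (ofCfg (bcC 𝒟 L')).K := by
      rw [ofCfg_K (good_bcC h.good)]
      exact fam_mem_K hx'
    refine fa_desc h.good (H388.dExt L L') ?_
    refine fa_dat (H96.good_ofCfg h'.good) h'.dim' (fun a ha b hb l k => ?_) hx1
      (fam_ne_zero hx0) D.dat D.K_le
    exact D.dat.iso (H96.Cf.mem_E.mp (D.K_le hb) k).2 _ (H96.Cf.mem_E.mp (D.K_le ha) l).2

omit [FiniteDimensional L V] [Fintype J] [DecidableEq J] [CharZero L] in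
theorem fam_indep {L' : Type u} [Field L'] [Algebra L L'] {x y : J → V}
    (hxy : ∀ a b : L, a • x + b • y = 0 → a = 0 ∧ b = 0) (a b : L')
    (h : a • fam (L := L) L' x + b • fam (L := L) L' y = 0) : a = 0 ∧ b = 0 := by
  have key : ∀ f : L' →ₗ[L] L, f a = 0 ∧ f b = 0 := by
    intro f
    apply hxy
    funext l
    have h1 := congrArg (ev f) (congrFun h l)
    have h2 : ev f (a • fam (L := L) L' x l) = f a • x l := by
      rw [fam, smul_tmul', smul_eq_mul, mul_one, ev_tmul]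
    have h3 : ev f (b • fam (L := L) L' y l) = f b • y l := by
      rw [fam, smul_tmul', smul_eq_mul, mul_one, ev_tmul]
    rw [Pi.add_apply, Pi.smul_apply, Pi.smul_apply, map_add, h2, h3, Pi.zero_apply,
      map_zero] at h1
    exact h1
  exact ⟨fun_sep fun f => (key f).1, fun_sep fun f => (key f).2⟩

/-- after a field extension there is a movable element of the kernel -/
theorem Hyp.exists_movable (h : Hyp 𝒟) :
    ∃ (L' : Type u) (_ : Field L') (_ : Algebra L L') (_ : CharZero L') (_ : IsAlgClosed L'),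
      ∃ x ∈ (ofCfg (bcC 𝒟 L')).K, ∃ c : Conn (ofCfg (bcC 𝒟 L')).q,
        (ofCfg (bcC 𝒟 L')).IsD0 c ∧ ∀ μ : L', (fun l => c.δ (x l)) ≠ μ • x := by
  obtain ⟨L', i1, i2, i3, d, τ, hd, hd0, hdτ⟩ := exists_tau L
  have hc : CharZero L' := charZero_ext (L := L) L'
  refine ⟨L', i1, i2, hc, i3, ?_⟩
  have hfin : FiniteDimensional L (ofCfg 𝒟).K :=
    FiniteDimensional.of_finrank_pos (by rw [h.dim']; norm_num)
  obtain ⟨x, hx, hx0⟩ : ∃ x ∈ (ofCfg 𝒟).K, x ≠ 0 := by
    by_contra hall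
    push Not at hall
    have h1 : (ofCfg 𝒟).K = ⊥ := (Submodule.eq_bot_iff _).mpr hall
    have h2 := h.dim'
    rw [h1, finrank_bot] at h2
    omega
  obtain ⟨y, hy, hyx⟩ := H96.exists_compl h.dim' (x := x)
  have hxy : ∀ a b : L, a • x + b • y = 0 → a = 0 ∧ b = 0 := by
    intro s t hst
    have ht : t = 0 := by
      by_contra ht
      apply hyx (-(t⁻¹ * s))
      have h1 : t • y = -(s • x) := eq_neg_of_add_eq_zero_right hst
      rw [neg_smul, mul_smul, ← smul_neg, ← h1, smul_smul, inv_mul_cancel₀ ht, one_smul]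
    subst ht
    rw [zero_smul, add_zero] at hst
    exact ⟨(smul_eq_zero.mp hst).resolve_right hx0, rfl⟩
  have hmem : ∀ t ∈ (ofCfg 𝒟).K, fam L' t ∈ (ofCfg (bcC 𝒟 L')).K := by
    intro t ht
    rw [ofCfg_K (good_bcC h.good)]
    rw [ofCfg_K h.good] at ht
    exact fam_mem_K ht
  let n : Conn 𝒟.q := cnZero 𝒟.q
  have hn : (ofCfg 𝒟).IsX n := fun s i v _ => zero_mem _
  have hdn : ∀ a, d (algebraMap L L' a) = algebraMap L L' (n.d a) := by
    intro a
    rw [hd0]
    show (0 : L') = algebraMap L L' 0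
    rw [map_zero]
  let c := bcConn n d hd hdn
  have hd1 : d 1 = 0 := by
    have := hd 1 1
    simpa using this
  have hδ : ∀ v : V, c.δ ((1 : L') ⊗ₜ[L] v) = 0 := by
    intro v
    show d 1 ⊗ₜ[L] v + (1 : L') ⊗ₜ[L] (0 : V) = _
    rw [hd1, zero_tmul, tmul_zero, add_zero]
  refine ⟨fam L' x + τ • fam L' y, Submodule.add_mem _ (hmem x hx)
    (Submodule.smul_mem _ _ (hmem y hy)), c, ⟨isX_bc hn d hd hdn, fun l k => hd0 _⟩,
    fun μ hμ => ?_⟩
  have h1 : (fun l => c.δ ((fam (L := L) L' x + τ • fam (L := L) L' y) l)) =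
      fam (L := L) L' y := by
    funext l
    rw [Pi.add_apply, Pi.smul_apply, map_add, c.smul]
    show c.δ ((1 : L') ⊗ₜ[L] x l) + (d τ • ((1 : L') ⊗ₜ[L] y l) +
      τ • c.δ ((1 : L') ⊗ₜ[L] y l)) = _
    rw [hδ, hδ, hdτ, one_smul, smul_zero, add_zero, zero_add]
    rfl
  rw [h1] at hμ
  have h2 := fam_indep hxy (L' := L') μ (μ * τ - 1) (by
    have e1 : μ • fam (L := L) L' x + (μ * τ - 1) • fam (L := L) L' y =
        μ • (fam (L := L) L' x + τ • fam (L := L) L' y) - fam (L := L) L' y := by module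
    rw [e1, ← hμ, sub_self])
  rw [h2.1, zero_mul, zero_sub] at h2
  exact one_ne_zero (neg_eq_zero.mp h2.2)

/-- **(R1).** If (B2) does not occur then there is no nonzero isotropic element in the kernel of a
strict versal configuration with two-dimensional kernel. -/
theorem Hyp.iso_eq_zero (hB : HypB2.{u, w} J) (h : Hyp 𝒟) {w : J → V} (hw : w ∈ 𝒟.K)
    (hww : ∀ l k, 𝒟.q (w l) (w k) = 0) : w = 0 := by
  by_contra hw0
  -- a movable element
  obtain ⟨L1, _, _, _, _, x, hx, c, hc, hcx⟩ := h.exists_movable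
  have h1 := h.bc L1
  have hH1 : ∀ x ∈ (ofCfg (bcC 𝒟 L1)).K, ∀ y ∈ (ofCfg (bcC 𝒟 L1)).K, ∀ l k,
      (ofCfg (bcC 𝒟 L1)).q (x l) (y k) = 0 := fun x hx y hy l k =>
    h1.all_iso hB (fam_mem_K hw) (fam_ne_zero hw0) (fun l k => by
      show qbc L1 𝒟.q ((1 : L1) ⊗ₜ[L] w l) ((1 : L1) ⊗ₜ[L] w k) = 0
      rw [qbc_one, hww, map_zero]) hx hy l k
  have hx0 : x ≠ 0 := by
    rintro rfl
    apply hcx 0
    funext l
    simp
  have hx' : x ∈ (bcC 𝒟 L1).K := by rw [← ofCfg_K h1.good]; exact hx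
  have hver := h1.versal_of_not hx' (hH1 x hx x hx) fun y hy b _ _ =>
    H96.Cf.hmov_of_movable h1.dim' hx hx0
      (fun c hc => (H96.good_ofCfg h1.good).D0_K hc hx) hc hcx
      (R := Submodule.span L1 (Set.range x))
      (fun l => Submodule.subset_span (Set.mem_range_self l)) y hy
  obtain ⟨L2, _, _, _, S, D⟩ := h1.alt hB hx' hx0 (hH1 x hx x hx) hver
  -- the algebraic closure
  have h2 := h1.bc L2
  have hc3 : CharZero (AlgebraicClosure L2) := charZero_ext (L := L2) _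
  have h3 := h2.bc (AlgebraicClosure L2)
  have D3 := D.bc h2.good (AlgebraicClosure L2)
  have hx2 : fam L2 x ∈ (bcC (bcC 𝒟 L1) L2).K := fam_mem_K hx'
  have hx3 := fam_mem_K (L' := AlgebraicClosure L2) hx2
  have hx3' := hx3
  rw [← ofCfg_K h3.good] at hx3'
  have hx30 := fam_ne_zero (L := L2) (L' := AlgebraicClosure L2)
    (fam_ne_zero (L := L1) (L' := L2) hx0)
  have hH3 : ∀ a ∈ (ofCfg (bcC (bcC (bcC 𝒟 L1) L2) (AlgebraicClosure L2))).K,
      ∀ b ∈ (ofCfg (bcC (bcC (bcC 𝒟 L1) L2) (AlgebraicClosure L2))).K, ∀ l k,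
      (ofCfg (bcC (bcC (bcC 𝒟 L1) L2) (AlgebraicClosure L2))).q (a l) (b k) = 0 :=
    fun a ha b hb l k => D3.dat.iso (H96.Cf.mem_E.mp (D3.K_le hb) k).2 _
      (H96.Cf.mem_E.mp (D3.K_le ha) l).2
  have h4 := theta_ge (H96.good_ofCfg h3.good) two_ne (H96.versal_ofCfg h3.versal) h3.n1sq
    h3.dim' hH3 (fun t ht ht0 => h3.fa hB hH3 ht ht0) hx3' hx30 D3.dat D3.K_le (m := 1) D3.rad
  rw [H96.θ_ofCfg h3.good] at h4
  -- strictness
  have hS : (bcC (bcC (bcC 𝒟 L1) L2) (AlgebraicClosure L2)).Iso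
      (S.baseChange (AlgebraicClosure L2)) := by
    have := D3.dat.iso
    rw [Cfg.Iso, ← pp_eq h3.good.form]
    exact this
  have hS0 : S.baseChange (AlgebraicClosure L2) ≠ ⊥ := by
    intro h0
    apply hx30
    funext l
    have h5 : fam (AlgebraicClosure L2) (fam L2 x) l ∈ S.baseChange (AlgebraicClosure L2) :=
      D3.dat.le (Submodule.subset_span (Set.mem_range_self l))
    rw [h0, Submodule.mem_bot] at h5
    exact h5
  have h5 := h2.strict (AlgebraicClosure L2) _ hS hS0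
  have h6 : (1 : ℤ) ≤ (bcC (bcC (bcC 𝒟 L1) L2) (AlgebraicClosure L2)).theta
    (S.baseChange (AlgebraicClosure L2)) := by
    have : ((1 : ℕ) : ℤ) = 1 := rfl
    omega
  omega

end main

end Vale.Agent.P182.H258
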