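import Vale.Agent.P182.H258.Prod3
import Vale.Agent.P182.H258.R1

/-!
# The producer: all fields of (H) but the last one
-/

namespace Vale.Agent.P182.H258

open Module Matrix TensorProduct Vale.Agent.P182.H533 Vale.Agent.P182.B1 Vale.Agent.P182.H62
open Vale.Agent.P182.H96 (ofCfg toCfg pp pp_eq om Rd)

universe u w

section aux

variable {L : Type u} {V : Type u} {J : Type w} [Field L] [AddCommGroup V] [Module L V]
  [Fintype J]

theorem ustrict_self {𝒟 : Cfg L V J} (h : UStrict 𝒟) {S : Submodule L V} (hS : 𝒟.Iso S)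
    (h0 : S ≠ ⊥) : 𝒟.theta S ≤ -1 := by
  have i := H716.cIsoSelf 𝒟
  have j := cIsoSymm i
  have h1 := h L (S.map j.e.toLinearMap) ((H716.cIso_iso j).mpr hS) (H716.map_ne_bot j h0)
  rwa [H716.cIso_theta] at h1

/-- all fields of `HIn` but `alt` -/
structure HPre (𝒟 : Cfg L V J) (g : 𝒟.Good) (S : Submodule L V) (x : J → ↥S)
    (φ : J → SQ 𝒟.q S) : Prop where
  iso : 𝒟.Iso S
  xN : x ∈ H887.HomN 𝒟.Ω (objA 𝒟 S) (objB 𝒟 S)
  x_ne : x ≠ 0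
  x_span : ∀ t ∈ H887.HomN 𝒟.Ω (objA 𝒟 S) (objB 𝒟 S), ∃ a : L, t = a • x
  φK : φ ∈ (sq 𝒟 g S).K
  φ_ne : φ ≠ 0
  φ_span : ∀ t ∈ (sq 𝒟 g S).K, ∃ a : L, t = a • φ
  ext : ∀ Y : Fin 3 → (↥S →ₗ[L] SQ 𝒟.q S), ∃ (a : ↥S →ₗ[L] SQ 𝒟.q S)
    (b : Fin 3 → (↥S →ₗ[L] SQ 𝒟.q S)), (∀ s, Y s = a + b s) ∧
      (∀ s i (v : ↥S), (v : V) ∈ 𝒟.F s i → b s v ∈ (sq 𝒟 g S).F s i) ∧
        ∀ s i (v : ↥S), (v : V) ∈ perp 𝒟.q (𝒟.F s i) →
          b s v ∈ perp (sq 𝒟 g S).q ((sq 𝒟 g S).F s i)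
  c_ne : ∃ d ∈ SkF 𝒟 S, d ≠ 0
  c_surj : ∀ z ∈ H887.HomD 𝒟.Ω (objA 𝒟 S) (objB 𝒟 S), ∃ d ∈ SkF 𝒟 S, ∀ l, z l = d (x l)
  c_inj : ∀ d ∈ SkF 𝒟 S, (∀ l k, d (x l) (x k) = 0) → d = 0

/-- the last field -/
def HAlt (𝒟 : Cfg L V J) (g : 𝒟.Good) (S : Submodule L V) (φ : J → SQ 𝒟.q S) : Prop :=
  (∃ l k, (sq 𝒟 g S).q (φ l) (φ k) ≠ 0) ∨
    ∃ γ : Fin 2 → (SQ 𝒟.q S →ₗ[L] Dual L (SQ 𝒟.q S)), (∀ i u v, γ i u v = - γ i v u) ∧
      (∀ i, SkHiggs 𝒟.arm 𝒟.c 𝒟.Ω (Matrix.of fun l k => γ i (φ l) (φ k))) ∧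
        (∀ a b : L, (∀ l k, a * γ 0 (φ l) (φ k) + b * γ 1 (φ l) (φ k) = 0) → a = 0 ∧ b = 0) ∧
          ∀ i s n, ∀ u ∈ Submodule.span L (Set.range φ), ∀ v ∈ Submodule.span L (Set.range φ),
            u ∈ (sq 𝒟 g S).F s n → v ∈ perp (sq 𝒟 g S).q ((sq 𝒟 g S).F s n) → γ i u v = 0

theorem HPre.hIn {𝒟 : Cfg L V J} {g : 𝒟.Good} {S : Submodule L V} {x : J → ↥S}
    {φ : J → SQ 𝒟.q S} (h : HPre 𝒟 g S x φ) (h' : HAlt 𝒟 g S φ) : HIn 𝒟 g S x φ :=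
  ⟨h.iso, h.xN, h.x_ne, h.x_span, h.φK, h.φ_ne, h.φ_span, h.ext, h.c_ne, h.c_surj, h.c_inj, h'⟩

end aux

section main

variable {J : Type w} [Fintype J] [DecidableEq J]
  {L : Type u} [Field L] [CharZero L] {V : Type u} [AddCommGroup V] [Module L V]
  [FiniteDimensional L V] {𝒟 : Cfg L V J}

/-- the part of the situation (B2) which is used -/
structure B2D (𝒟 : Cfg L V J) (g : 𝒟.Good) (x y : J → V) (S : Submodule L V) : Prop where
  xK : x ∈ 𝒟.K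
  x0 : x ≠ 0
  xx : ∀ l k, 𝒟.q (x l) (x k) = 0
  dat : Dat (ofCfg 𝒟) (Submodule.span L (Set.range x)) S
  versal : (sq 𝒟 g S).Versal
  strict : UStrict (sq 𝒟 g S)
  dimK : finrank L (sq 𝒟 g S).K = 1
  yK : y ∈ 𝒟.K
  yS : ∀ l, y l ∈ perp 𝒟.q S
  yn : ¬ ∀ l, y l ∈ S

omit [CharZero L] [FiniteDimensional L V] in
theorem B2.b2D {g : 𝒟.Good} {x y : J → V} {S : Submodule L V} (b : B2 𝒟 g x y S) :
    B2D 𝒟 g x y S :=
  ⟨b.xK, b.x0, b.xx, dat_of_ext g b.le b.iso b.ext, b.versal, b.strict, b.dimK, b.yK, b.yS, b.yn⟩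

omit [CharZero L] [FiniteDimensional L V] [DecidableEq J] in
theorem B2D.le {g : 𝒟.Good} {x y : J → V} {S : Submodule L V} (b : B2D 𝒟 g x y S) :
    Submodule.span L (Set.range x) ≤ S := b.dat.le

omit [CharZero L] [FiniteDimensional L V] [DecidableEq J] in
theorem B2D.iso {g : 𝒟.Good} {x y : J → V} {S : Submodule L V} (b : B2D 𝒟 g x y S) :
    𝒟.Iso S := by
  have := b.dat.iso
  rw [Cfg.Iso, ← pp_eq g.form]
  exact this

/-- **all fields of (H) but the last one** -/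
theorem Hyp.pre (h : Hyp 𝒟) {x y : J → V} {S₀ : Submodule L V} (b : B2D 𝒟 h.good x y S₀) :
    ∃ (S : Submodule L V) (x' : J → ↥S) (hy : ∀ l, y l ∈ perp 𝒟.q S), S ≤ S₀ ∧
      HPre 𝒟 h.good S x' fun l => SQmk S ⟨y l, hy l⟩ := by
  have g' := H96.good_ofCfg h.good
  have hV' := H96.versal_ofCfg h.versal
  have hxR : ∀ l, x l ∈ Submodule.span L (Set.range x) := fun l =>
    Submodule.subset_span ⟨l, rfl⟩
  have D₀ : Dat (ofCfg 𝒟) (Submodule.span L (Set.range x)) S₀ := b.dat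
  have hKR := h.K_perp b.xK b.xx
  have hrad₀ := rad_le (𝒟 := 𝒟) (S := S₀) (m := 1) h.good b.iso b.dimK.le
  obtain ⟨S, hSS₀, D, hθ, hmin⟩ := exists_min g' D₀ hKR
  have hrad := rad_small g' D₀ D hSS₀ hθ hKR hrad₀
  have hKS := D.K_le hKR
  have hxS : ∀ l, x l ∈ S := fun l => D.le (hxR l)
  have hxK : x ∈ (ofCfg 𝒟).K := by rw [ofCfg_K h.good]; exact b.xK
  have hyK : y ∈ (ofCfg 𝒟).K := by rw [ofCfg_K h.good]; exact b.yK
  have hynS : ¬ ∀ l, y l ∈ S := fun hall => b.yn fun l => hSS₀ (hall l)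
  have hyS : y ∉ (ofCfg 𝒟).E S := fun hy => hynS fun l => (H96.Cf.mem_E.mp hy l).2
  have hradeq := rad_eq g' D.iso hKS hyK hyS hrad
  have hS : 𝒟.Iso S := by
    have := D.iso
    rw [Cfg.Iso, ← pp_eq h.good.form]
    exact this
  have hθS : (ofCfg 𝒟).θ S ≤ -1 := by
    rw [hθ, H96.θ_ofCfg h.good]
    refine ustrict_self h.strict b.iso fun h0 => b.x0 ?_
    funext l
    have h1 := b.le (hxR l)
    rw [h0, Submodule.mem_bot] at h1
    exact h1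
  have hyx : ∀ c : L, y ≠ c • x := by
    rintro c rfl
    exact hynS fun l => S.smul_mem c (hxS l)
  have hyp : ∀ l, y l ∈ perp 𝒟.q S := fun l => perp_anti hSS₀ (b.yS l)
  have hx' := H96.Cf.mem_K.mp hxK
  -- `ε x` up to `S^⊥`
  have heps : ∀ z ∈ (ofCfg 𝒟).perp ((ofCfg 𝒟).E S), ∃ e : Fin 3 → End L V, (ofCfg 𝒟).Eps S e ∧
      epsC (ofCfg 𝒟) S (e 0) ∈ SkF 𝒟 S ∧
        ∀ l (s : ↥S), 𝒟.q (z l) s = epsC (ofCfg 𝒟) S (e 0) ⟨x l, hxS l⟩ s := by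
    intro z hz
    obtain ⟨e, he, hze⟩ := exists_eps g' two_ne hV' h.n1sq hxK D hKS hradeq hz
    refine ⟨e, he, skf_of_eps h.good hS he 0, fun l s => ?_⟩
    rw [epsC_indep D.iso he g' 0 (𝒟.arm l)]
    have h1 : 𝒟.q (s : V) (z l - e (𝒟.arm l) (x l)) = 0 := hze l s s.2
    rw [h.good.form.symm, map_sub, LinearMap.sub_apply, sub_eq_zero] at h1
    exact h1
  have hinj : ∀ d ∈ SkF 𝒟 S, (∀ l k, d ⟨x l, hxS l⟩ ⟨x k, hxS k⟩ = 0) → d = 0 := fun d hd h0 =>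
    skc_inj g' hxK D hxS hmin (skc_of_skf h.good hd) h0
  refine ⟨S, fun l => ⟨x l, hxS l⟩, hyp, hSS₀, hS, ?_, ?_, ?_, ?_, ?_, ?_, ?_, ?_, ?_, ?_⟩
  · -- xN
    rw [H887.mem_HomN]
    refine ⟨fun l => b.xK.1 l, fun l => ?_⟩
    show ((H887.omM 𝒟.Ω (fun l => (⟨x l, hxS l⟩ : ↥S)) l : ↥S) : V) ∈ perp 𝒟.q (𝒟.C l)
    rw [H887.omM_apply, Submodule.coe_sum]
    exact b.xK.2 l
  · -- x_ne
    intro h0
    apply b.x0
    funext l
    exact congrArg Subtype.val (congrFun h0 l)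
  · -- x_span
    intro t ht
    rw [H887.mem_HomN] at ht
    have htK : (fun l => (t l : V)) ∈ (ofCfg 𝒟).K := by
      rw [ofCfg_K h.good]
      refine ⟨fun l => ht.1 l, fun l => ?_⟩
      have h1 : ((H887.omM 𝒟.Ω t l : ↥S) : V) ∈ perp 𝒟.q (𝒟.C l) := ht.2 l
      rw [H887.omM_apply, Submodule.coe_sum] at h1
      exact h1
    obtain ⟨α, β, hαβ⟩ := H96.exists_coord h.dim' hxK hyK b.x0 hyx _ htK
    have hβ : β = 0 := by
      by_contra hβ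
      apply hynS
      intro l
      have h1 : (t l : V) = α • x l + β • y l := congrFun hαβ l
      have h2 : y l = β⁻¹ • ((t l : V) - α • x l) := by
        rw [h1, add_sub_cancel_left, smul_smul, inv_mul_cancel₀ hβ, one_smul]
      rw [h2]
      exact S.smul_mem _ (S.sub_mem (t l).2 (S.smul_mem _ (hxS l)))
    refine ⟨α, funext fun l => Subtype.ext ?_⟩
    have h1 : (t l : V) = α • x l + β • y l := congrFun hαβ l
    rw [hβ, zero_smul, add_zero] at h1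
    exact h1
  · -- φK
    exact mem_K_sq h.good hS b.yK hyp
  · -- φ_ne
    intro h0
    exact hynS fun l => (SQmk_eq_zero S).mp (congrFun h0 l)
  · -- φ_span
    intro t ht
    obtain ⟨u, hu, htu, huX⟩ := mem_K_sq_lift h.good ht
    rw [hradeq] at huX
    obtain ⟨s, hs, k, hk, hsk⟩ := Submodule.mem_sup.mp huX
    obtain ⟨α, β, hαβ⟩ := H96.exists_coord h.dim' hxK hyK b.x0 hyx k hk
    refine ⟨β, funext fun l => ?_⟩
    rw [htu l, Pi.smul_apply, ← map_smul, ← sub_eq_zero, ← map_sub, SQmk_eq_zero]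
    show u l - β • y l ∈ S
    have h1 : u l - β • y l = s l + α • x l := by
      rw [← hsk, hαβ]
      simp only [Pi.add_apply, Pi.smul_apply]
      abel
    rw [h1]
    exact S.add_mem (H96.Cf.mem_E.mp hs l).2 (S.smul_mem _ (hxS l))
  · -- ext
    refine ext_zero h.good two_ne h.versal hS fun d hd => ?_
    have hdC := skc_of_skf h.good hd
    obtain ⟨z, hz, hz2⟩ := exists_ct g' hdC (t := x) hxS hx'.1 (fun k w hw hwC => by
      rw [hdC.sk, neg_eq_zero]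
      exact hdC.col k _ _ hwC (fun v hv => hx'.2 k v hv))
    obtain ⟨e, he, heF, hze⟩ := heps z hz
    refine ⟨e, he, ?_⟩
    have h1 : d + (-1 : L) • epsC (ofCfg 𝒟) S (e 0) = 0 := by
      refine hinj _ ((SkF 𝒟 S).add_mem hd ((SkF 𝒟 S).smul_mem (-1) heF)) fun l k => ?_
      rw [LinearMap.add_apply, LinearMap.add_apply, LinearMap.smul_apply, LinearMap.smul_apply,
        ← hze, neg_one_smul, ← sub_eq_add_neg, sub_eq_zero]
      exact (hz2 l ⟨x k, hxS k⟩).symm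
    intro u v
    have h2 := LinearMap.congr_fun (LinearMap.congr_fun h1 u) v
    rw [LinearMap.add_apply, LinearMap.add_apply, LinearMap.smul_apply, LinearMap.smul_apply,
      neg_one_smul, ← sub_eq_add_neg, LinearMap.zero_apply, LinearMap.zero_apply,
      sub_eq_zero] at h2
    exact h2
  · -- c_ne
    obtain ⟨z, hz, hzn⟩ := exists_zS g' hxK b.x0 hxS (by omega)
    obtain ⟨e, he, heF, hze⟩ := heps z hz
    refine ⟨_, heF, fun h0 => hzn (H96.Cf.mem_E.mpr fun l =>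
      ⟨(H96.Cf.mem_perp.mp hz).1 l, fun s hs => ?_⟩)⟩
    show 𝒟.q s (z l) = 0
    rw [h.good.form.symm]
    have h1 := hze l ⟨s, hs⟩
    rw [h0] at h1
    exact h1
  · -- c_surj
    intro z hz
    rw [H887.mem_HomD] at hz
    have h1 : ∀ l, ∃ t ∈ 𝒟.C l, ∀ s : ↥S, 𝒟.q t s = z l s := fun l =>
      exists_lift h.good.form S (𝒟.C l) (z l) fun w hw => hz.1 l w (by
        rw [pp_eq h.good.form] at hw
        exact hw)
    choose t ht1 ht2 using h1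
    obtain ⟨e, he, heF, hze⟩ := heps t (H96.Cf.mem_perp.mpr ⟨ht1, fun w hw => by
      have hw' := H96.Cf.mem_E.mp hw
      rw [H96.Cf.M_eq]
      refine Finset.sum_eq_zero fun l _ => ?_
      have h3 := hz.2 l ⟨w l, (hw' l).2⟩ (hw' l).1
      rw [H887.om_dual_apply] at h3
      rw [← h3]
      refine Finset.sum_congr rfl fun k _ => ?_
      rw [← ht2 k]
      show 𝒟.Ω l k * 𝒟.q (w l) (t k) = _
      rw [h.good.form.symm]⟩)
    refine ⟨_, heF, fun l => LinearMap.ext fun s => ?_⟩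
    rw [← ht2 l, hze l s]
  · -- c_inj
    exact hinj

end main

end Vale.Agent.P182.H258
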