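import Vale.Agent.P182.H258.Prod4
import Vale.Agent.P182.H664.Parity

/-!
# The producer: two skew Higgs fields in the nilpotent case
-/

namespace Vale.Agent.P182.H258

open Module Matrix Vale.Agent.P182.H533 Vale.Agent.P182.H96 Vale.Agent.P182.H96.Cf

section count

variable {L V J ι : Type*} [Field L] [AddCommGroup V] [Module L V] [Fintype J]
  {a : Cf L V J ι} [FiniteDimensional L V]

/-- the codimension of a radical is even -/
theorem even_rad (h : a.Good) (h2 : (2 : L) ≠ 0) {W : Submodule L (J → V)} (hW : W ≤ a.E ⊤) :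
    ∃ n, Even n ∧ finrank L (W ⊓ a.perp W : Submodule L (J → V)) + n = finrank L W := by
  obtain ⟨n, hn, hn2⟩ := B1.even_rank h2 (a.M.domRestrict₁₂ W W)
    (fun x y => h.M_skew (x : J → V) y)
  refine ⟨n, hn, ?_⟩
  rw [← hn2, ← Submodule.finrank_map_subtype_eq]
  congr 1
  have e1 : (LinearMap.ker (a.M.domRestrict₁₂ W W)).map W.subtype = W ⊓ a.perp W := by
    ext t
    constructor
    · rintro ⟨t, ht, rfl⟩
      refine ⟨t.2, hW t.2, fun w hw => ?_⟩
      have e2 : a.M t w = 0 := LinearMap.congr_fun ht ⟨w, hw⟩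
      show a.M w t = 0
      rw [h.M_skew, e2, neg_zero]
    · rintro ⟨h1, h3⟩
      refine ⟨⟨t, h1⟩, LinearMap.ext fun w => ?_, rfl⟩
      show a.M t w = 0
      rw [h.M_skew, h3.2 w w.2, neg_zero]
  rw [e1]

/-- the count -/
theorem count_two (h : a.Good) (h2 : (2 : L) ≠ 0) {R : Submodule L V} (hK1 : finrank L a.K = 1)
    (hKR : a.K ≤ a.E (pp a.q R)) {m : ℕ} (hm : (m : ℤ) ≤ - a.θ R)
    (hrad : finrank L (a.E (pp a.q R) ⊓ a.perp (a.E (pp a.q R)) : Submodule L (J → V)) ≤
      m + finrank L (a.E R)) :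
    2 + finrank L (a.E (pp a.q R) ⊓ a.perp (a.E (pp a.q R)) : Submodule L (J → V)) ≤
      finrank L (a.perp (a.E (pp a.q R))) := by
  have e1 := finrank_po (M := a.M) (E := a.E ⊤) h.M_skew (E_le_top (a := a) (pp a.q R))
  have e3 : a.E (pp a.q R) ⊓ po a.M (a.E ⊤) (a.E ⊤) = a.K := inf_eq_left.mpr hKR ▸ by
    rw [inf_comm]
    rfl
  rw [e3, hK1] at e1
  obtain ⟨n1, ⟨k1, hk1⟩, hn1⟩ := even_rad h h2 (W := a.E ⊤) le_rfl
  have e4 : a.E ⊤ ⊓ a.perp (a.E ⊤) = a.K := inf_eq_right.mpr (po_le _)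
  rw [e4, hK1] at hn1
  obtain ⟨n2, ⟨k2, hk2⟩, hn2⟩ := even_rad h h2 (W := a.E (pp a.q R)) (E_le_top _)
  rw [a.θ_eq] at hm
  have e5 : finrank L (po a.M (a.E ⊤) (a.E (pp a.q R))) =
    finrank L (a.perp (a.E (pp a.q R))) := rfl
  rw [e5] at e1
  omega

end count

section two

variable {L V J ι : Type*} [Field L] [AddCommGroup V] [Module L V] [Fintype J]
  {a : Cf L V J ι} [DecidableEq J] [DecidableEq ι] [Fintype ι] [FiniteDimensional L V]

omit [DecidableEq J] [DecidableEq ι] [Fintype ι] [FiniteDimensional L V] [Fintype J] in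
theorem mem_pp_span (h : a.Good) {φ : J → V} {v : V} :
    v ∈ pp a.q (Submodule.span L (Set.range φ)) ↔ ∀ k, a.q v (φ k) = 0 := by
  constructor
  · intro hv k
    rw [h.form.symm]
    exact hv _ (Submodule.subset_span ⟨k, rfl⟩)
  · intro hv u hu
    rw [h.form.symm]
    induction hu using Submodule.span_induction with
    | mem r hr =>
      obtain ⟨k, rfl⟩ := hr
      exact hv k
    | zero => rw [map_zero]
    | add u w _ _ hu hw => rw [map_add, hu, hw, add_zero]
    | smul c u _ hu => rw [map_smul, hu, smul_zero]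

/-- two independent forms on the values of `φ` -/
theorem exists_two (h : a.Good) (h2 : (2 : L) ≠ 0) (hV : a.Versal) (hN : a.N1sq) {φ : J → V}
    (hφ : φ ∈ a.K) (hK1 : finrank L a.K = 1)
    (hR : Submodule.span L (Set.range φ) ≤ pp a.q (Submodule.span L (Set.range φ)))
    (hKR : a.K ≤ a.E (pp a.q (Submodule.span L (Set.range φ)))) {m : ℕ}
    (hm : (m : ℤ) ≤ - a.θ (Submodule.span L (Set.range φ)))
    (hrad : finrank L (a.E (pp a.q (Submodule.span L (Set.range φ))) ⊓
      a.perp (a.E (pp a.q (Submodule.span L (Set.range φ)))) : Submodule L (J → V)) ≤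
      m + finrank L (a.E (Submodule.span L (Set.range φ)))) :
    ∃ b : Fin 2 → ι → End L V, (∀ i, a.Eps (Submodule.span L (Set.range φ)) (b i)) ∧
      ∀ α β : L, (∀ l k, α * a.q (b 0 (a.arm l) (φ l)) (φ k) +
        β * a.q (b 1 (a.arm l) (φ l)) (φ k) = 0) → α = 0 ∧ β = 0 := by
  have h3 := count_two h h2 hK1 hKR hm hrad
  set R := Submodule.span L (Set.range φ) with hRd
  have hmem : ∀ v, v ∈ pp a.q R ↔ ∀ k, a.q v (φ k) = 0 := fun v => mem_pp_span h
  -- the matrix of an element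
  let Θ : ↥(a.perp (a.E (pp a.q R))) →ₗ[L] (J → J → L) :=
    { toFun := fun t l k => a.q (t.1 l) (φ k)
      map_add' := fun s t => by
        funext l k
        show a.q ((s.1 + t.1) l) (φ k) = _
        rw [Pi.add_apply, map_add]
        rfl
      map_smul' := fun c t => by
        funext l k
        show a.q ((c • t.1) l) (φ k) = _
        rw [Pi.smul_apply, map_smul]
        rfl }
  have hker : (LinearMap.ker Θ).map (a.perp (a.E (pp a.q R))).subtype =
      a.E (pp a.q R) ⊓ a.perp (a.E (pp a.q R)) := by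
    ext t
    constructor
    · rintro ⟨t, ht, rfl⟩
      refine ⟨mem_E.mpr fun l => ⟨(mem_perp.mp t.2).1 l, ?_⟩, t.2⟩
      rw [hmem]
      exact fun k => congrFun (congrFun ht l) k
    · rintro ⟨h1, h4⟩
      refine ⟨⟨t, h4⟩, ?_, rfl⟩
      rw [SetLike.mem_coe, LinearMap.mem_ker]
      funext l k
      have h5 := (mem_E.mp h1 l).2
      rw [hmem] at h5
      exact h5 k
  have h4 := LinearMap.finrank_range_add_finrank_ker Θ
  rw [← Submodule.finrank_map_subtype_eq (a.perp (a.E (pp a.q R))), hker] at h4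
  have h5 : 2 ≤ finrank L (LinearMap.range Θ) := by omega
  -- two independent elements
  obtain ⟨u, hu0⟩ : ∃ u : ↥(LinearMap.range Θ), u ≠ 0 := by
    have : Nontrivial ↥(LinearMap.range Θ) := Module.nontrivial_of_finrank_pos (R := L) (by omega)
    exact exists_ne 0
  obtain ⟨v, hv⟩ := exists_linearIndependent_pair_of_one_lt_finrank (R := L)
    (M := ↥(LinearMap.range Θ)) (by omega) hu0
  rw [LinearIndependent.pair_iff] at hv
  -- lifts
  have hlift : ∀ u : ↥(LinearMap.range Θ), ∃ b : ι → End L V, a.Eps R b ∧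
      ∀ l k, a.q (b (a.arm l) (φ l)) (φ k) = u.1 l k := by
    rintro ⟨_, ⟨t, rfl⟩⟩
    obtain ⟨g, hg, t', ⟨b, hb, ht'⟩, hgt⟩ := Submodule.mem_sup.mp
      (F4S h h2 hV hN hφ ⟨le_rfl, hR, inf_le_left⟩ t.2)
    obtain ⟨k, hk, e, he, rfl⟩ := Submodule.mem_sup.mp hg
    refine ⟨b, hb, fun l j => ?_⟩
    have h6 : t.1 l = k l + e l + b (a.arm l) (φ l) := by
      rw [← hgt, Pi.add_apply, Pi.add_apply, ht']
    show _ = a.q (t.1 l) (φ j)
    have h7 : a.q (k l) (φ j) = 0 := by
      have h8 := (mem_E.mp (hKR hk) l).2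
      rw [hmem] at h8
      exact h8 j
    have h9 : a.q (e l) (φ j) = 0 := by
      have h8 := hR (mem_E.mp he l).2
      rw [hmem] at h8
      exact h8 j
    rw [h6, map_add, map_add, LinearMap.add_apply, LinearMap.add_apply, h7, h9, zero_add, zero_add]
  obtain ⟨b0, hb0, hb0'⟩ := hlift u
  obtain ⟨b1, hb1, hb1'⟩ := hlift v
  refine ⟨![b0, b1], fun i => ?_, fun α β hαβ => hv α β ?_⟩
  · fin_cases i
    · exact hb0
    · exact hb1
  · apply Subtype.ext
    funext l k
    have h6 := hαβ l k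
    simp only [Matrix.cons_val_zero, Matrix.cons_val_one] at h6
    rw [hb0', hb1'] at h6
    exact h6

end two

end Vale.Agent.P182.H258
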