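import Vale.Agent.P182.H258.Prod5

/-!
# The producer: the last field of (H), and the theorem
-/

namespace Vale.Agent.P182.H258

open Module Matrix TensorProduct Vale.Agent.P182.H533 Vale.Agent.P182.B1 Vale.Agent.P182.H62
open Vale.Agent.P182.H96 (ofCfg toCfg pp pp_eq om Rd)

universe u w

section fam

variable {L W W' J : Type*} [Field L] [AddCommGroup W] [Module L W] [AddCommGroup W']
  [Module L W'] [Fintype J]

theorem exists_map_fam (φ : J → W) (φ₀ : J → W')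
    (hrel : ∀ a : J → L, ∑ l, a l • φ l = 0 → ∑ l, a l • φ₀ l = 0) :
    ∃ π : W →ₗ[L] W', ∀ l, π (φ l) = φ₀ l := by
  classical
  let F : (J → L) →ₗ[L] W := Fintype.linearCombination L φ
  let G : (J → L) →ₗ[L] W' := Fintype.linearCombination L φ₀
  have hk : LinearMap.ker F ≤ LinearMap.ker G := by
    intro a ha
    rw [LinearMap.mem_ker] at ha ⊢
    rw [Fintype.linearCombination_apply] at ha ⊢
    exact hrel a ha
  obtain ⟨π, hπ⟩ := LinearMap.exists_extend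
    ((LinearMap.ker F).liftQ G hk ∘ₗ F.quotKerEquivRange.symm.toLinearMap)
  refine ⟨π, fun l => ?_⟩
  have h1 : F (Pi.single l 1) = φ l := by
    rw [Fintype.linearCombination_apply_single, one_smul]
  have h2 : G (Pi.single l 1) = φ₀ l := by
    rw [Fintype.linearCombination_apply_single, one_smul]
  have h3 := LinearMap.congr_fun hπ ⟨F (Pi.single l 1), ⟨_, rfl⟩⟩
  have h4 : F.quotKerEquivRange.symm ⟨F (Pi.single l 1), ⟨_, rfl⟩⟩ =
      (LinearMap.ker F).mkQ (Pi.single l 1) := by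
    rw [LinearEquiv.symm_apply_eq]
    rfl
  rw [LinearMap.comp_apply, LinearMap.comp_apply, LinearEquiv.coe_coe, h4,
    Submodule.mkQ_apply, Submodule.liftQ_apply, h2] at h3
  rw [← h1]
  exact h3

end fam

section K

variable {L : Type u} {V : Type u} {J : Type w} [Field L] [AddCommGroup V] [Module L V]
  [Fintype J] [FiniteDimensional L V]

theorem finrank_K_le_neg {𝒟 : Cfg L V J} (g : 𝒟.Good) (hU : UStrict 𝒟) {R : Submodule L V}
    (hR : 𝒟.Iso R) (hR0 : R ≠ ⊥) (h : STR (sq 𝒟 g R) (good_sq g hR)) :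
    (finrank L (sq 𝒟 g R).K : ℤ) ≤ - 𝒟.theta R := by
  obtain ⟨L', i1, i2, S, hS, hK⟩ := T1u_of_STR (good_sq g hR) h
  obtain ⟨i⟩ := exists_cIsoBC (L' := L') g R
  have hR' : (bcC 𝒟 L').Iso (R.baseChange L') := iso_bcC hR
  have hT := (H716.cIso_iso i).mpr hS
  have e1 := H716.cIso_theta i S
  have e2 := theta_sq (good_bcC g) hR' (S.map i.e.toLinearMap)
  have h0 : SQpre (R.baseChange L') (S.map i.e.toLinearMap) ≠ ⊥ := by
    intro h0
    have h1 : R.baseChange L' ≤ ⊥ := h0 ▸ le_SQpre _ hR' _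
    have h2 := finrank_bc (L' := L') R
    rw [le_bot_iff.mp h1, finrank_bot] at h2
    exact hR0 (Submodule.finrank_eq_zero.mp h2.symm)
  have e3 := hU L' _ (iso_SQpre (good_bcC g) hR' hT) h0
  have e4 : (bcC 𝒟 L').theta (R.baseChange L') = 𝒟.theta R := theta_bcC R
  linarith

end K

section main

variable {J : Type w} [Fintype J] [DecidableEq J]
  {L : Type u} [Field L] [CharZero L] {V : Type u} [AddCommGroup V] [Module L V]
  [FiniteDimensional L V] {𝒟 : Cfg L V J}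

omit [CharZero L] [FiniteDimensional L V] [Fintype J] [DecidableEq J] in
theorem exists_smul_of_one [Fintype J] {K : Submodule L (J → V)} (hK : finrank L K = 1) {x : J → V} (hx : x ∈ K)
    (hx0 : x ≠ 0) {t : J → V} (ht : t ∈ K) : ∃ c : L, t = c • x := by
  have h1 : (⟨x, hx⟩ : ↥K) ≠ 0 := fun h => hx0 (congrArg Subtype.val h)
  obtain ⟨c, hc⟩ := (finrank_eq_one_iff_of_nonzero' _ h1).mp hK ⟨t, ht⟩
  exact ⟨c, (congrArg Subtype.val hc).symm⟩

/-- **the last field of (H)** -/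
theorem Hyp.halt (h : Hyp 𝒟) {x y : J → V} {S₀ : Submodule L V} (b : B2D 𝒟 h.good x y S₀)
    {S : Submodule L V} (hS : S ≤ S₀) (hy : ∀ l, y l ∈ perp 𝒟.q S) :
    HAlt 𝒟 h.good S fun l => SQmk S ⟨y l, hy l⟩ := by
  by_cases hyy : ∀ l k, 𝒟.q (y l) (y k) = 0
  swap
  · left
    push Not at hyy
    obtain ⟨l, k, hlk⟩ := hyy
    exact ⟨l, k, hlk⟩
  right
  have gE : (sq 𝒟 h.good S₀).Good := good_sq h.good b.iso
  let φ₀ : J → SQ 𝒟.q S₀ := fun l => SQmk S₀ ⟨y l, b.yS l⟩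
  have hφK : φ₀ ∈ (sq 𝒟 h.good S₀).K := mem_K_sq h.good b.iso b.yK b.yS
  have hφφ : ∀ l k, (sq 𝒟 h.good S₀).q (φ₀ l) (φ₀ k) = 0 := hyy
  have hφ0 : φ₀ ≠ 0 := fun h0 => b.yn fun l => (SQmk_eq_zero S₀).mp (congrFun h0 l)
  have hR : (sq 𝒟 h.good S₀).Iso (Submodule.span L (Set.range φ₀)) := span_iso gE hφφ
  have hR0 : Submodule.span L (Set.range φ₀) ≠ ⊥ := span_ne hφ0
  have hRpp : Submodule.span L (Set.range φ₀) ≤
      pp (sq 𝒟 h.good S₀).q (Submodule.span L (Set.range φ₀)) := by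
    rw [pp_eq gE.form]
    exact hR
  have hφR : ∀ l, φ₀ l ∈ Submodule.span L (Set.range φ₀) := fun l =>
    Submodule.subset_span ⟨l, rfl⟩
  have hφK' : φ₀ ∈ (ofCfg (sq 𝒟 h.good S₀)).K := by rw [ofCfg_K gE]; exact hφK
  have hK1 : finrank L (ofCfg (sq 𝒟 h.good S₀)).K = 1 := by rw [ofCfg_K gE]; exact b.dimK
  have hsm : ∀ t ∈ (ofCfg (sq 𝒟 h.good S₀)).K, ∃ c : L, t = c • φ₀ := fun t ht =>
    exists_smul_of_one hK1 hφK' hφ0 ht
  have hn := H96.n1sq_ofCfg two_ne gE b.versal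
  -- the reduction is versal
  have hver : (sq (sq 𝒟 h.good S₀) gE (Submodule.span L (Set.range φ₀))).Versal := by
    obtain ⟨D⟩ := H96.exists_rd gE.form hRpp
    have h1 := (H96.good_ofCfg gE).versal_red two_ne (H96.versal_ofCfg b.versal) hn hφK'
      rfl hRpp D (fun t ht e _ _ => ⟨H96.zeroConn _, H96.Cf.isD0_zero, fun l => by
        have e1 : (H96.zeroConn (ofCfg (sq 𝒟 h.good S₀)).q).δ (φ₀ l) = 0 := rfl
        obtain ⟨c, rfl⟩ := hsm t ht
        rw [e1, zero_sub, Submodule.neg_mem_iff]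
        exact Submodule.smul_mem _ c (hφR l)⟩)
    exact ciso_versal (rdIso gE D) (H96.versal_toCfg h1)
  have hlt : finrank L (SQ (sq 𝒟 h.good S₀).q (Submodule.span L (Set.range φ₀))) <
      finrank L V := by
    refine (finrank_SQ_lt _ gE.form hR hR0).trans (finrank_SQ_lt S₀ h.good.form b.iso ?_)
    rintro rfl
    apply b.x0
    funext l
    exact (Submodule.mem_bot L).mp (b.le (Submodule.subset_span ⟨l, rfl⟩))
  have hstr := h.ih L _ (sq (sq 𝒟 h.good S₀) gE _) (good_sq gE hR) hlt hver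
  have hm := finrank_K_le_neg gE b.strict hR hR0 hstr
  have hrad := rad_le (𝒟 := sq 𝒟 h.good S₀) gE hR le_rfl
  rw [← H96.θ_ofCfg gE] at hm
  have hKR : (ofCfg (sq 𝒟 h.good S₀)).K ≤ (ofCfg (sq 𝒟 h.good S₀)).E
      (pp (ofCfg (sq 𝒟 h.good S₀)).q (Submodule.span L (Set.range φ₀))) := by
    intro t ht
    obtain ⟨c, rfl⟩ := hsm t ht
    exact H96.Cf.mem_E.mpr fun l => ⟨(H96.Cf.mem_K'.mp ht).1 l,
      Submodule.smul_mem _ c (hRpp (hφR l))⟩
  obtain ⟨e, he, hind⟩ := exists_two (H96.good_ofCfg gE) two_ne (H96.versal_ofCfg b.versal) hn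
    hφK' hK1 hRpp hKR hm hrad
  -- the map to `R₀`
  obtain ⟨π, hπ⟩ := exists_map_fam (L := L) (fun l => SQmk S ⟨y l, hy l⟩)
    (fun l => (⟨φ₀ l, hφR l⟩ : ↥(Submodule.span L (Set.range φ₀)))) (by
      intro a ha
      apply Subtype.ext
      have h1 : SQmk S (∑ l, a l • (⟨y l, hy l⟩ : ↥(perp 𝒟.q S))) = 0 := by
        rw [map_sum, ← ha]
        exact Finset.sum_congr rfl fun l _ => map_smul _ _ _
      rw [SQmk_eq_zero, Submodule.coe_sum] at h1
      have h2 : SQmk S₀ (∑ l, a l • (⟨y l, b.yS l⟩ : ↥(perp 𝒟.q S₀))) = 0 := by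
        rw [SQmk_eq_zero, Submodule.coe_sum]
        exact hS h1
      rw [Submodule.coe_sum, Submodule.coe_zero, ← h2, map_sum]
      exact Finset.sum_congr rfl fun l _ => (map_smul _ _ _).symm)
  have hgE := H96.good_ofCfg gE
  let c : Fin 2 → (↥(Submodule.span L (Set.range φ₀)) →ₗ[L]
      Dual L ↥(Submodule.span L (Set.range φ₀))) := fun i =>
    epsC (ofCfg (sq 𝒟 h.good S₀)) _ (e i 0)
  have hcsk : ∀ i u v, c i u v = - c i v u := fun i u v => epsC_skew hgE (he i) 0 u v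
  have hcfl : ∀ i s n (u v : ↥(Submodule.span L (Set.range φ₀))),
      (u : SQ 𝒟.q S₀) ∈ (sq 𝒟 h.good S₀).F s n →
      (v : SQ 𝒟.q S₀) ∈ pp (sq 𝒟 h.good S₀).q ((sq 𝒟 h.good S₀).F s n) → c i u v = 0 :=
    fun i s n u v hu hv => epsC_flag hgE hRpp (he i) 0 s n hu hv
  have hCpp : ∀ s n, (sq 𝒟 h.good S₀).F s n ≤
      pp (sq 𝒟 h.good S₀).q ((sq 𝒟 h.good S₀).F s n) := fun s n => by
    rw [pp_eq gE.form]
    exact gE.iso s n
  let γ : Fin 2 → (SQ 𝒟.q S →ₗ[L] Dual L (SQ 𝒟.q S)) := fun i =>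
    LinearMap.mk₂ L (fun u v => c i (π u) (π v))
      (fun u u' v => by rw [map_add, map_add, LinearMap.add_apply])
      (fun r u v => by rw [map_smul, map_smul, LinearMap.smul_apply, smul_eq_mul])
      (fun u v v' => by rw [map_add, map_add])
      (fun r u v => by rw [map_smul, map_smul, smul_eq_mul])
  have hγ : ∀ i l k, γ i (SQmk S ⟨y l, hy l⟩) (SQmk S ⟨y k, hy k⟩) =
      c i ⟨φ₀ l, hφR l⟩ ⟨φ₀ k, hφR k⟩ := by
    intro i l k
    show c i (π _) (π _) = _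
    rw [hπ, hπ]
  -- compatibility with the flags
  have hlift : ∀ (W : Submodule L V) (u : SQ 𝒟.q S),
      u ∈ Submodule.span L (Set.range fun l => SQmk S ⟨y l, hy l⟩) → u ∈ SQim S W →
      ((π u : ↥(Submodule.span L (Set.range φ₀))) : SQ 𝒟.q S₀) ∈ SQim S₀ W := by
    intro W u hu huW
    obtain ⟨a, rfl⟩ := (Submodule.mem_span_range_iff_exists_fun L).mp hu
    obtain ⟨w, hwW, hw⟩ := (mem_SQim S).mp huW
    have h1 : SQmk S w = SQmk S (∑ l, a l • (⟨y l, hy l⟩ : ↥(perp 𝒟.q S))) := by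
      rw [hw, map_sum]
      exact Finset.sum_congr rfl fun l _ => (map_smul _ _ _).symm
    rw [← sub_eq_zero, ← map_sub, SQmk_eq_zero] at h1
    have h2 : (w : V) - ∑ l, a l • y l ∈ S := by
      rw [Submodule.coe_sub, Submodule.coe_sum] at h1
      exact h1
    have h3 : ∑ l, a l • y l ∈ perp 𝒟.q S₀ :=
      Submodule.sum_mem _ fun l _ => Submodule.smul_mem _ _ (b.yS l)
    have h4 : (w : V) ∈ perp 𝒟.q S₀ := by
      have := (perp 𝒟.q S₀).add_mem (b.iso (hS h2)) h3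
      rwa [sub_add_cancel] at this
    have h5 : ((π (∑ l, a l • SQmk S ⟨y l, hy l⟩) : ↥(Submodule.span L (Set.range φ₀))) :
        SQ 𝒟.q S₀) = SQmk S₀ ⟨w, h4⟩ := by
      have e1 : (π (∑ l, a l • SQmk S ⟨y l, hy l⟩) : ↥(Submodule.span L (Set.range φ₀))) =
          ∑ l, a l • ⟨φ₀ l, hφR l⟩ := by
        rw [map_sum]
        exact Finset.sum_congr rfl fun l _ => by rw [map_smul, hπ]
      have e2 : SQmk S₀ ⟨w, h4⟩ = SQmk S₀ (∑ l, a l • (⟨y l, b.yS l⟩ : ↥(perp 𝒟.q S₀))) := by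
        rw [← sub_eq_zero, ← map_sub, SQmk_eq_zero, Submodule.coe_sub, Submodule.coe_sum]
        exact hS h2
      rw [e1, e2, Submodule.coe_sum, map_sum]
      exact Finset.sum_congr rfl fun l _ => (map_smul _ _ _).symm
    rw [h5]
    exact SQmk_mem_SQim S₀ hwW
  refine ⟨γ, fun i u v => hcsk i _ _, fun i => ⟨fun l k => ?_, fun l k hlk => ?_,
    fun l k hlk hc => ?_⟩, fun α β hαβ => ?_, fun i s n u hu v hv huF hvF => ?_⟩
  · exact hcsk i _ _
  · rw [Matrix.of_apply, hγ]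
    rcases le_total (𝒟.c k) (𝒟.c l) with h1 | h1
    · refine hcfl i (𝒟.arm l) (𝒟.c l) _ _ (hφK.1 l) (hCpp _ _ ?_)
      have h2 : φ₀ k ∈ (sq 𝒟 h.good S₀).F (𝒟.arm k) (𝒟.c k) := hφK.1 k
      rw [← hlk] at h2
      exact gE.mono _ h1 h2
    · rw [hcsk, neg_eq_zero]
      refine hcfl i (𝒟.arm k) (𝒟.c k) _ _ (hφK.1 k) (hCpp _ _ ?_)
      have h2 : φ₀ l ∈ (sq 𝒟 h.good S₀).F (𝒟.arm l) (𝒟.c l) := hφK.1 l
      rw [hlk] at h2
      exact gE.mono _ h1 h2
  · have h1 : ∑ j, (Matrix.of fun l k => γ i (SQmk S ⟨y l, hy l⟩) (SQmk S ⟨y k, hy k⟩)) l j *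
        𝒟.Ω k j = c i ⟨φ₀ l, hφR l⟩ (∑ j, 𝒟.Ω k j • ⟨φ₀ j, hφR j⟩) := by
      rw [map_sum]
      refine Finset.sum_congr rfl fun j _ => ?_
      rw [Matrix.of_apply, hγ, map_smul, smul_eq_mul, mul_comm]
    rw [h1]
    refine hcfl i (𝒟.arm k) (𝒟.c k) _ _ ?_ ?_
    · have h2 : φ₀ l ∈ (sq 𝒟 h.good S₀).F (𝒟.arm l) (𝒟.c l) := hφK.1 l
      rw [hlk] at h2
      exact gE.mono _ hc h2
    · rw [Submodule.coe_sum]
      have h2 := hφK.2 k
      rw [pp_eq gE.form]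
      exact h2
  · refine hind α β fun l k => ?_
    have h1 := hαβ l k
    rw [hγ, hγ] at h1
    have h2 : ∀ i, c i ⟨φ₀ l, hφR l⟩ ⟨φ₀ k, hφR k⟩ =
        (ofCfg (sq 𝒟 h.good S₀)).q (e i ((ofCfg (sq 𝒟 h.good S₀)).arm l) (φ₀ l)) (φ₀ k) :=
      fun i => epsC_indep hRpp (he i) hgE 0 _ ⟨φ₀ l, hφR l⟩ ⟨φ₀ k, hφR k⟩
    rw [h2, h2] at h1
    exact h1
  · have hSi : 𝒟.Iso S := fun u hu => perp_anti hS (b.iso (hS hu))
    have hvF' : v ∈ SQim S (perp 𝒟.q (𝒟.F s n)) := by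
      rw [← perp_sq_F h.good hSi]
      exact hvF
    refine hcfl i s n _ _ (hlift _ u hu huF) ?_
    rw [pp_eq gE.form, perp_sq_F h.good b.iso]
    exact hlift _ v hv hvF'

/-- the situation is stable under base change -/
theorem B2D.bc {g : 𝒟.Good} {x y : J → V} {S : Submodule L V} (b : B2D 𝒟 g x y S) (L' : Type u)
    [Field L'] [Algebra L L'] : B2D (bcC 𝒟 L') (good_bcC g) (fam L' x) (fam L' y)
      (S.baseChange L') := by
  obtain ⟨i⟩ := exists_cIsoBC (L' := L') g S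
  refine ⟨fam_mem_K b.xK, fam_ne_zero b.x0, fun l k => ?_, ?_, ?_, ?_, ?_, fam_mem_K b.yK,
    fun l => ?_, fun hall => b.yn fun l => ?_⟩
  · show qbc L' 𝒟.q ((1 : L') ⊗ₜ[L] x l) ((1 : L') ⊗ₜ[L] x k) = 0
    rw [qbc_one, b.xx, map_zero]
  · rw [span_fam]
    exact dat_bc g b.dat
  · exact ciso_versal i (versal_bcC (good_sq g b.iso) two_ne b.versal (H388.dExt L L'))
  · exact H716.cIso_uStrict i (H716.uStrict_bc b.strict L')
  · rw [ciso_finrank_K i, finrank_K_bcC]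
    exact b.dimK
  · show fam L' y l ∈ perp (qbc L' 𝒟.q) (S.baseChange L')
    rw [perp_bc]
    exact Submodule.tmul_mem_baseChange_of_mem 1 (b.yS l)
  · have h1 : ∀ f : L' →ₗ[L] L, ev f ((1 : L') ⊗ₜ[L] y l) ∈ S := mem_bc_iff.mp (hall l)
    obtain ⟨f, hf⟩ : ∃ f : L' →ₗ[L] L, f 1 ≠ 0 := by
      by_contra hcon
      push Not at hcon
      exact one_ne_zero (fun_sep (L := L) (L' := L') hcon)
    have h2 := h1 f
    rw [ev_tmul] at h2
    exact (S.smul_mem_iff hf).mp h2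

/-- **The producer**: (B2) implies (H). -/
theorem Hyp.hIn (h : Hyp 𝒟) {x y : J → V} {S₀ : Submodule L V} (b : B2D 𝒟 h.good x y S₀) :
    ∃ (S : Submodule L V) (x' : J → ↥S) (φ : J → SQ 𝒟.q S), HIn 𝒟 h.good S x' φ := by
  obtain ⟨S, x', hy, hS, hpre⟩ := h.pre b
  exact ⟨S, x', _, hpre.hIn (h.halt b hS hy)⟩

/-- input (H) does not occur over algebraically closed fields -/
def NoHIn (J : Type w) [Fintype J] [DecidableEq J] : Prop :=
  ∀ (L : Type u) [Field L] [CharZero L] [IsAlgClosed L] (V : Type u) [AddCommGroup V]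
    [Module L V] [FiniteDimensional L V] (𝒟 : Cfg L V J) (h : Hyp.{u, w} 𝒟) (S : Submodule L V)
    (x : J → ↥S) (φ : J → SQ 𝒟.q S), ¬ HIn 𝒟 h.good S x φ

omit [CharZero L] in
/-- **(B2) does not occur**, if (H) does not. -/
theorem hypB2 (hno : NoHIn.{u, w} J) : HypB2.{u, w} J := by
  intro L _ _ V _ _ _ 𝒟 g hV hU hI hK x y S b
  have h : Hyp 𝒟 := ⟨g, hV, hU, hI, hK⟩
  have hc : CharZero (AlgebraicClosure L) := charZero_ext (L := L) _
  obtain ⟨S', x', φ, h'⟩ := (h.bc (AlgebraicClosure L)).hIn (b.b2D.bc (AlgebraicClosure L))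
  exact hno _ _ _ (h.bc (AlgebraicClosure L)) S' x' φ h'

/-- **(R1)**, if (H) does not occur -/
theorem Hyp.iso_eq_zero' (hno : NoHIn.{u, w} J) (h : Hyp 𝒟) {w : J → V} (hw : w ∈ 𝒟.K)
    (hww : ∀ l k, 𝒟.q (w l) (w k) = 0) : w = 0 := h.iso_eq_zero (hypB2 hno) hw hww

end main

end Vale.Agent.P182.H258
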