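import Vale.Agent.P182.H532.SRad
import Vale.Agent.P182.H532.SHInD
import Vale.Agent.P182.H338.STFrame

/-!
# T-SPIN: the hypotheses of the isotropic case
-/

namespace Vale.Agent.P182.H258

open Module Matrix TensorProduct Vale.Agent.P182.H533 Vale.Agent.P182.B1 Vale.Agent.P182.H62
open Vale.Agent.P182.H96 (ofCfg toCfg pp pp_eq om Rd)
open Vale.Agent.P182.H338 (SpinC1 SVersal uz thetaS UStrictS IHSs)
open Vale.Agent.P182.H588.SP (DatS)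

universe u w

/-- the standing hypotheses (special configurations) -/
structure HypS {J : Type w} [Fintype J] {L : Type u} [Field L] [CharZero L] {V : Type u}
    [AddCommGroup V] [Module L V] [FiniteDimensional L V] (𝒟 : Cfg L V J) (c0 c1 : J) :
    Prop where
  good : 𝒟.Good
  spin : SpinC1 𝒟 c0 c1
  versal : SVersal 𝒟 c0 c1
  strict : UStrictS 𝒟 c0 c1
  ih : IHSs.{u, w} J c0 c1 (finrank L V)
  dim : finrank L (H338.Ks 𝒟 c0 c1) = 2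

section

variable {L : Type u} {V : Type u} {J : Type w} [Field L] [AddCommGroup V] [Module L V]
  [Fintype J]

/-- the situation (B2) for special configurations (the part which is used) -/
structure B2S (𝒟 : Cfg L V J) (g : 𝒟.Good) (c0 c1 : J) (x y : J → V) (S : Submodule L V) :
    Prop where
  xK : x ∈ H338.Ks 𝒟 c0 c1
  x0 : x ≠ 0
  xx : ∀ l k, 𝒟.q (x l) (x k) = 0
  dat : DatS (ofCfg 𝒟) c0 c1 (Submodule.span L (Set.range x)) S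
  versal : SVersal (sq 𝒟 g S) c0 c1
  strict : UStrictS (sq 𝒟 g S) c0 c1
  dimK : finrank L (H338.Ks (sq 𝒟 g S) c0 c1) = 1
  yK : y ∈ H338.Ks 𝒟 c0 c1
  yS : ∀ l, y l ∈ perp 𝒟.q S
  yn : ¬ ∀ l, y l ∈ S

/-- all fields of `HInS` but `alt` -/
structure HPreS (𝒟 : Cfg L V J) (g : 𝒟.Good) (c0 c1 : J) (S : Submodule L V) (x : J → ↥S)
    (φ : J → SQ 𝒟.q S) : Prop where
  iso : 𝒟.Iso S
  xN : x ∈ H887.HomN 𝒟.Ω (objA 𝒟 S) (objB 𝒟 S)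
  ux : ∑ l, uz 𝒟 c0 c1 l • x l = 0
  φK : φ ∈ H338.Ks (sq 𝒟 g S) c0 c1
  φ_span : ∀ t ∈ H338.Ks (sq 𝒟 g S) c0 c1, ∃ a : L, t = a • φ
  ext : ∀ Y : Fin 3 → (↥S →ₗ[L] SQ 𝒟.q S), ∃ (a : ↥S →ₗ[L] SQ 𝒟.q S)
    (b : Fin 3 → (↥S →ₗ[L] SQ 𝒟.q S)), (∀ s, Y s = a + b s) ∧
      (∀ s i (v : ↥S), (v : V) ∈ 𝒟.F s i → b s v ∈ (sq 𝒟 g S).F s i) ∧
        ∀ s i (v : ↥S), (v : V) ∈ perp 𝒟.q (𝒟.F s i) →
          b s v ∈ perp (sq 𝒟 g S).q ((sq 𝒟 g S).F s i)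
  c_ne : ∃ d ∈ SkF 𝒟 S, d ≠ 0
  c_surj : ∀ z ∈ H887.HomD 𝒟.Ω (objA 𝒟 S) (objB 𝒟 S), ∑ l, uz 𝒟 c0 c1 l • z l = 0 →
    ∃ d ∈ SkF 𝒟 S, ∀ l, z l = d (x l)
  c_inj : ∀ d ∈ SkF 𝒟 S, (∀ l k, d (x l) (x k) = 0) → d = 0

/-- the last field -/
def HAltS (𝒟 : Cfg L V J) (g : 𝒟.Good) (S : Submodule L V) (φ : J → SQ 𝒟.q S) : Prop :=
  (∃ l k, (sq 𝒟 g S).q (φ l) (φ k) ≠ 0) ∨
    ∃ γ : Fin 2 → (SQ 𝒟.q S →ₗ[L] Dual L (SQ 𝒟.q S)), (∀ i u v, γ i u v = - γ i v u) ∧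
      (∀ a b : L, (∀ l k, a * γ 0 (φ l) (φ k) + b * γ 1 (φ l) (φ k) = 0) → a = 0 ∧ b = 0) ∧
        ∀ i s n, ∀ u ∈ Submodule.span L (Set.range φ), ∀ v ∈ Submodule.span L (Set.range φ),
          u ∈ (sq 𝒟 g S).F s n → v ∈ perp (sq 𝒟 g S).q ((sq 𝒟 g S).F s n) → γ i u v = 0

theorem HPreS.hInS {𝒟 : Cfg L V J} {g : 𝒟.Good} {c0 c1 : J} {S : Submodule L V} {x : J → ↥S}
    {φ : J → SQ 𝒟.q S} (h : HPreS 𝒟 g c0 c1 S x φ) (h' : HAltS 𝒟 g S φ) :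
    H588.HInS 𝒟 g c0 c1 S x φ :=
  ⟨h.iso, h.xN, h.ux, h.φK, h.φ_span, h.ext, h.c_ne, h.c_surj, h.c_inj, h'⟩

end

/-- the situation (B2) does not occur -/
def HypB2S (J : Type w) [Fintype J] : Prop :=
  ∀ (L : Type u) [Field L] [CharZero L] (V : Type u) [AddCommGroup V] [Module L V]
    [FiniteDimensional L V] (𝒟 : Cfg L V J) (c0 c1 : J) (h : HypS.{u, w} 𝒟 c0 c1)
    (x y : J → V) (S : Submodule L V), ¬ B2S 𝒟 h.good c0 c1 x y S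

end Vale.Agent.P182.H258
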