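import Vale.Agent.P182.H388.SCount
import Vale.Agent.P182.H258.Prod5

/-!
# T-SPIN, the producer: two skew forms in the nilpotent case
-/

namespace Vale.Agent.P182.H258

open Module Matrix Vale.Agent.P182.H533 Vale.Agent.P182.H96 Vale.Agent.P182.H96.Cf
open Vale.Agent.P182.H588.SP (Spc SVers Ks UM Esh kap N1s mem_Ks E_le_Esh Esh_le Esh_mono Ks_le
  K_le_Esh K_decomp kap_mem_Esh E_le_perp_s DatS F4S_s N1K_s kap_mem_K)
open Vale.Agent.P182.H388.S (thS kapS thS_eq finrank_K_s)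

section count

variable {L V J : Type*} [Field L] [AddCommGroup V] [Module L V] [Fintype J]
  {a : Cf L V J (Fin 3)} {c0 c1 : J} [FiniteDimensional L V]

/-- the count -/
theorem count_two_s [DecidableEq J] (hs : Spc a c0 c1) (h : a.Good) (h2 : (2 : L) ≠ 0)
    {R : Submodule L V} (hK1 : finrank L (Ks a c0 c1) = 1)
    (hKR : a.K ≤ Esh a c0 c1 (pp a.q R)) {m : ℕ} (hm : (m : ℤ) ≤ - thS a c0 c1 R)
    (hrad : finrank L (Esh a c0 c1 (pp a.q R) ⊓ a.perp (Esh a c0 c1 (pp a.q R)) :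
      Submodule L (J → V)) ≤ m + finrank L (a.E R ⊔ kapS a c0 c1 : Submodule L (J → V))) :
    2 + finrank L (Esh a c0 c1 (pp a.q R) ⊓ a.perp (Esh a c0 c1 (pp a.q R)) :
      Submodule L (J → V)) ≤ finrank L (a.perp (Esh a c0 c1 (pp a.q R))) := by
  have hle : Esh a c0 c1 (pp a.q R) ≤ a.E ⊤ := Esh_le _
  have e1 := finrank_po (M := a.M) (E := a.E ⊤) h.M_skew hle
  have e3 : Esh a c0 c1 (pp a.q R) ⊓ po a.M (a.E ⊤) (a.E ⊤) = a.K := inf_eq_right.mpr hKR
  have e0 := finrank_K_s hs h h2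
  rw [e3, e0, hK1] at e1
  obtain ⟨n1, ⟨k1, hk1⟩, hn1⟩ := even_rad h h2 (W := a.E ⊤) le_rfl
  have e4 : a.E ⊤ ⊓ a.perp (a.E ⊤) = a.K := inf_eq_right.mpr (po_le _)
  rw [e4, e0, hK1] at hn1
  obtain ⟨n2, ⟨k2, hk2⟩, hn2⟩ := even_rad h h2 (W := Esh a c0 c1 (pp a.q R)) hle
  rw [thS_eq hs h] at hm
  have e5 : finrank L (po a.M (a.E ⊤) (Esh a c0 c1 (pp a.q R))) =
    finrank L (a.perp (Esh a c0 c1 (pp a.q R))) := rfl
  rw [e5] at e1
  omega

end count

section two

variable {L V J : Type*} [Field L] [AddCommGroup V] [Module L V] [Fintype J]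
  {a : Cf L V J (Fin 3)} {c0 c1 : J} [DecidableEq J] [FiniteDimensional L V]

/-- two independent forms on the values of `φ` -/
theorem exists_two_s (hs : Spc a c0 c1) (h : a.Good) (h2 : (2 : L) ≠ 0) (hV : SVers a c0 c1)
    (hN : N1s a c0 c1) {φ : J → V} (hφ : φ ∈ Ks a c0 c1) (hK1 : finrank L (Ks a c0 c1) = 1)
    (hR : Submodule.span L (Set.range φ) ≤ pp a.q (Submodule.span L (Set.range φ)))
    (hKR : Ks a c0 c1 ≤ a.E (pp a.q (Submodule.span L (Set.range φ)))) {m : ℕ}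
    (hm : (m : ℤ) ≤ - thS a c0 c1 (Submodule.span L (Set.range φ)))
    (hrad : finrank L (Esh a c0 c1 (pp a.q (Submodule.span L (Set.range φ))) ⊓
      a.perp (Esh a c0 c1 (pp a.q (Submodule.span L (Set.range φ)))) : Submodule L (J → V)) ≤
      m + finrank L (a.E (Submodule.span L (Set.range φ)) ⊔ kapS a c0 c1 :
        Submodule L (J → V))) :
    ∃ b : Fin 2 → Fin 3 → End L V, (∀ i, a.Eps (Submodule.span L (Set.range φ)) (b i)) ∧
      ∀ α β : L, (∀ l k, α * a.q (b 0 (a.arm l) (φ l)) (φ k) +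
        β * a.q (b 1 (a.arm l) (φ l)) (φ k) = 0) → α = 0 ∧ β = 0 := by
  have hKE : a.K ≤ Esh a c0 c1 (pp a.q (Submodule.span L (Set.range φ))) :=
    K_le_Esh hs h h2 (hKR.trans (E_le_Esh _))
  have h3 := count_two_s hs h h2 hK1 hKE hm hrad
  set R := Submodule.span L (Set.range φ) with hRd
  set P := a.perp (Esh a c0 c1 (pp a.q R)) with hP
  have hmem : ∀ v, v ∈ pp a.q R ↔ ∀ k, a.q v (φ k) = 0 := fun v => mem_pp_span h
  have hER : a.E R ≤ Esh a c0 c1 (pp a.q R) ⊓ P :=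
    le_inf ((E_mono hR).trans (E_le_Esh _)) (E_le_perp_s hs h h2)
  have hKQ : a.K ≤ Esh a c0 c1 (pp a.q R) ⊓ P := le_inf hKE (K_le_perp _ (Esh_le _))
  -- the part given by movements
  let T : Submodule L (J → V) := a.TT R φ ⊓ P
  have hPT : P ≤ (Esh a c0 c1 (pp a.q R) ⊓ P) ⊔ T := by
    intro t ht
    obtain ⟨g, hg, t', ht', hgt⟩ := Submodule.mem_sup.mp
      (F4S_s hs h h2 hV hN hφ ⟨le_rfl, hR, inf_le_left⟩ ht)
    have hgQ : g ∈ Esh a c0 c1 (pp a.q R) ⊓ P := sup_le hKQ hER hg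
    rw [← hgt]
    refine Submodule.add_mem_sup hgQ ⟨ht', ?_⟩
    have e1 : t' = t - g := by rw [← hgt, add_sub_cancel_left]
    rw [e1]
    exact sub_mem ht hgQ.2
  have hTP : T ≤ P := inf_le_right
  have hdim := Submodule.finrank_sup_add_finrank_inf_eq (Esh a c0 c1 (pp a.q R) ⊓ P) T
  have hdim2 := Submodule.finrank_mono hPT
  -- the matrix of an element
  let Θ : ↥T →ₗ[L] (J → J → L) :=
    { toFun := fun t l k => a.q (t.1 l) (φ k)
      map_add' := fun s t => by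
        funext l k
        show a.q ((s.1 + t.1) l) (φ k) = _
        rw [Pi.add_apply, map_add]
        rfl
      map_smul' := fun c t => by
        funext l k
        show a.q ((c • t.1) l) (φ k) = _
        rw [Pi.smul_apply, map_smul]
        rfl }
  have hker : (LinearMap.ker Θ).map T.subtype ≤ (Esh a c0 c1 (pp a.q R) ⊓ P) ⊓ T := by
    rintro _ ⟨t, ht, rfl⟩
    refine ⟨⟨E_le_Esh _ (mem_E.mpr fun l => ⟨(mem_perp.mp t.2.2).1 l, ?_⟩), t.2.2⟩, t.2⟩
    rw [hmem]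
    exact fun k => congrFun (congrFun ht l) k
  have h4 := LinearMap.finrank_range_add_finrank_ker Θ
  have h4' := Submodule.finrank_mono hker
  rw [Submodule.finrank_map_subtype_eq] at h4'
  have h5 : 2 ≤ finrank L (LinearMap.range Θ) := by omega
  -- two independent elements
  obtain ⟨u, hu0⟩ : ∃ u : ↥(LinearMap.range Θ), u ≠ 0 := by
    have : Nontrivial ↥(LinearMap.range Θ) := Module.nontrivial_of_finrank_pos (R := L) (by omega)
    exact exists_ne 0
  obtain ⟨v, hv⟩ := exists_linearIndependent_pair_of_one_lt_finrank (R := L)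
    (M := ↥(LinearMap.range Θ)) (by omega) hu0
  rw [LinearIndependent.pair_iff] at hv
  -- lifts
  have hlift : ∀ u : ↥(LinearMap.range Θ), ∃ b : Fin 3 → End L V, a.Eps R b ∧
      ∀ l k, a.q (b (a.arm l) (φ l)) (φ k) = u.1 l k := by
    rintro ⟨_, ⟨t, rfl⟩⟩
    obtain ⟨b, hb, hbt⟩ := t.2.1
    refine ⟨b, hb, fun l j => ?_⟩
    show _ = a.q (t.1 l) (φ j)
    rw [hbt]
  obtain ⟨b0, hb0, hb0'⟩ := hlift u
  obtain ⟨b1, hb1, hb1'⟩ := hlift v
  refine ⟨![b0, b1], fun i => ?_, fun α β hαβ => hv α β ?_⟩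
  · fin_cases i
    · exact hb0
    · exact hb1
  · apply Subtype.ext
    funext l k
    have h6 := hαβ l k
    simp only [Matrix.cons_val_zero, Matrix.cons_val_one] at h6
    rw [hb0', hb1'] at h6
    exact h6

end two

end Vale.Agent.P182.H258
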