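import Vale.Agent.P182.H258.SProd5
import Vale.Agent.P182.H258.SHyp
import Vale.Agent.P182.H258.Prod6

/-!
# T-SPIN, the producer: the last field of (H), base change, the theorem
-/

namespace Vale.Agent.P182.H258

open Module Matrix TensorProduct Vale.Agent.P182.H533 Vale.Agent.P182.B1 Vale.Agent.P182.H62
open Vale.Agent.P182.H96 (ofCfg toCfg pp pp_eq om Rd)
open Vale.Agent.P182.H338 (SpinC1 SVersal uz thetaS UStrictS IHSs STRS)
open Vale.Agent.P182.H588.SP (DatS KS Ks_ofCfg svers_ofCfg spc_ofCfg n1s_ofCfg Esh_bc)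
open Vale.Agent.P182.H388.S (thS kapS)

universe u w

section K

variable {L : Type u} {V : Type u} {J : Type w} [Field L] [AddCommGroup V] [Module L V]
  [Fintype J] [FiniteDimensional L V] {𝒟 : Cfg L V J} {c0 c1 : J}

theorem thetaS_sq (g : 𝒟.Good) {S : Submodule L V} (hS : 𝒟.Iso S)
    (T : Submodule L (SQ 𝒟.q S)) :
    thetaS 𝒟 c0 c1 (SQpre S T) = thetaS 𝒟 c0 c1 S + thetaS (sq 𝒟 g S) c0 c1 T := by
  rw [thetaS, thetaS, thetaS, theta_sq g hS, th_aux hS, th_aux hS, finrank_SQpre S hS, sq_C,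
    sq_C]
  push_cast
  ring

theorem thetaS_bcC (L' : Type u) [Field L'] [Algebra L L'] (S : Submodule L V) :
    thetaS (bcC 𝒟 L') c0 c1 (S.baseChange L') = thetaS 𝒟 c0 c1 S :=
  H338.SamePos.thetaS samePos_bc rfl rfl

theorem thetaS_sq_bc (g : 𝒟.Good)
    {R : Submodule L V} (hR : 𝒟.Iso R) (L' : Type u) [Field L'] [Algebra L L']
    (T : Submodule L' (SQ (bcC 𝒟 L').q (R.baseChange L'))) :
    thetaS (bcC 𝒟 L') c0 c1 (SQpre (R.baseChange L') T) = thetaS 𝒟 c0 c1 R +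
      thetaS (sq (bcC 𝒟 L') (good_bcC g) (R.baseChange L')) c0 c1 T := by
  rw [← thetaS_bcC L' R]
  exact thetaS_sq (good_bcC g) (iso_bcC hR) T

theorem thS_ofCfg (g : 𝒟.Good) (S : Submodule L V) :
    thS (ofCfg 𝒟) c0 c1 S = thetaS 𝒟 c0 c1 S := by
  rw [thS, thetaS, H96.θ_ofCfg g]
  rfl

theorem finrank_Ks_le_neg [CharZero L] (g : 𝒟.Good) (hs : SpinC1 𝒟 c0 c1)
    (hU : UStrictS 𝒟 c0 c1) {R : Submodule L V} (hR : 𝒟.Iso R) (hR0 : R ≠ ⊥)
    (h : STRS (sq 𝒟 g R) (good_sq g hR) c0 c1) :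
    (finrank L (H338.Ks (sq 𝒟 g R) c0 c1) : ℤ) ≤ - thetaS 𝒟 c0 c1 R := by
  obtain ⟨L', i1, i2, S, hS, hK⟩ :=
    H338.T1uS_of_STRS (good_sq g hR) (H338.spin_sq g hR hs.toSpinC) h
  obtain ⟨i⟩ := exists_cIsoBC (L' := L') g R
  have hR' : (bcC 𝒟 L').Iso (R.baseChange L') := iso_bcC hR
  have hT := (H716.cIso_iso i).mpr hS
  have e1 := H338.thetaS_ciso i c0 c1 S
  have e2 := thetaS_sq_bc (c0 := c0) (c1 := c1) g hR L' (S.map i.e.toLinearMap)
  have h0 : SQpre (R.baseChange L') (S.map i.e.toLinearMap) ≠ ⊥ := by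
    intro h0
    have h1 : R.baseChange L' ≤ ⊥ := h0 ▸ le_SQpre _ hR' _
    have h2 := finrank_bc (L' := L') R
    rw [le_bot_iff.mp h1, finrank_bot] at h2
    exact hR0 (Submodule.finrank_eq_zero.mp h2.symm)
  have e3 := hU L' _ (iso_SQpre (good_bcC g) hR' hT) h0
  rw [e2, e1] at e3
  linarith

/-- elements of the special kernel in `S^⊥` give elements of the special kernel of the
subquotient -/
theorem mem_Ks_sq [DecidableEq J] (g : 𝒟.Good) {S : Submodule L V} (hS : 𝒟.Iso S) {y : J → V}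
    (hy : y ∈ H338.Ks 𝒟 c0 c1) (hyp : ∀ l, y l ∈ perp 𝒟.q S) :
    (fun l => SQmk S ⟨y l, hyp l⟩) ∈ H338.Ks (sq 𝒟 g S) c0 c1 := by
  rw [H338.mem_Ks] at hy ⊢
  refine ⟨mem_K_sq g hS hy.1 hyp, ?_⟩
  have h3 : ∑ l, uz (sq 𝒟 g S) c0 c1 l • SQmk S ⟨y l, hyp l⟩ =
      SQmk S (∑ l, uz 𝒟 c0 c1 l • (⟨y l, hyp l⟩ : ↥(perp 𝒟.q S))) := by
    rw [map_sum]
    refine Finset.sum_congr rfl fun l _ => ?_
    rw [map_smul]
    rfl
  rw [h3, SQmk_eq_zero, Submodule.coe_sum]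
  have h4 : ∑ l, ((uz 𝒟 c0 c1 l • (⟨y l, hyp l⟩ : ↥(perp 𝒟.q S)) : ↥(perp 𝒟.q S)) : V) =
      ∑ l, uz 𝒟 c0 c1 l • y l := rfl
  rw [h4, hy.2]
  exact zero_mem _

end K

section main

variable {J : Type w} [Fintype J]
  {L : Type u} [Field L] [CharZero L] {V : Type u} [AddCommGroup V] [Module L V]
  [FiniteDimensional L V] {𝒟 : Cfg L V J} {c0 c1 : J}

/-- the hypotheses are stable under base change -/
theorem HypS.bc (h : HypS.{u, w} 𝒟 c0 c1) (L' : Type u) [Field L'] [Algebra L L'] [CharZero L'] :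
    HypS.{u, w} (bcC 𝒟 L') c0 c1 where
  good := good_bcC h.good
  spin := H338.spin1_bcC h.spin
  versal := H338.sversal_bcC h.good h.spin h.versal
  strict := H338.uStrictS_bc h.strict L'
  ih := by
    rw [Module.finrank_baseChange]
    exact h.ih
  dim := by
    rw [H338.finrank_Ks_bcC]
    exact h.dim

theorem B2S.le {g : 𝒟.Good} {x y : J → V} {S : Submodule L V} (b : B2S 𝒟 g c0 c1 x y S) :
    Submodule.span L (Set.range x) ≤ S := b.dat.le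

theorem B2S.iso {g : 𝒟.Good} {x y : J → V} {S : Submodule L V} (b : B2S 𝒟 g c0 c1 x y S) :
    𝒟.Iso S := by
  have := b.dat.iso
  rw [Cfg.Iso, ← pp_eq g.form]
  exact this

variable [DecidableEq J]

/-- **the last field of (H)** -/
theorem HypS.halt (h : HypS.{u, w} 𝒟 c0 c1) {x y : J → V} {S₀ : Submodule L V}
    (b : B2S 𝒟 h.good c0 c1 x y S₀) {S : Submodule L V} (hS : S ≤ S₀)
    (hy : ∀ l, y l ∈ perp 𝒟.q S) :
    HAltS 𝒟 h.good S fun l => SQmk S ⟨y l, hy l⟩ := by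
  by_cases hyy : ∀ l k, 𝒟.q (y l) (y k) = 0
  swap
  · left
    push Not at hyy
    obtain ⟨l, k, hlk⟩ := hyy
    exact ⟨l, k, hlk⟩
  right
  have gE : (sq 𝒟 h.good S₀).Good := good_sq h.good b.iso
  have hsE : SpinC1 (sq 𝒟 h.good S₀) c0 c1 := H338.spin1_sq h.good b.iso h.spin
  let φ₀ : J → SQ 𝒟.q S₀ := fun l => SQmk S₀ ⟨y l, b.yS l⟩
  have hφK : φ₀ ∈ H338.Ks (sq 𝒟 h.good S₀) c0 c1 := mem_Ks_sq h.good b.iso b.yK b.yS
  have hφφ : ∀ l k, (sq 𝒟 h.good S₀).q (φ₀ l) (φ₀ k) = 0 := hyy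
  have hφ0 : φ₀ ≠ 0 := fun h0 => b.yn fun l => (SQmk_eq_zero S₀).mp (congrFun h0 l)
  have hR : (sq 𝒟 h.good S₀).Iso (Submodule.span L (Set.range φ₀)) := span_iso gE hφφ
  have hR0 : Submodule.span L (Set.range φ₀) ≠ ⊥ := span_ne hφ0
  have hRpp : Submodule.span L (Set.range φ₀) ≤
      pp (sq 𝒟 h.good S₀).q (Submodule.span L (Set.range φ₀)) := by
    rw [pp_eq gE.form]
    exact hR
  have hφR : ∀ l, φ₀ l ∈ Submodule.span L (Set.range φ₀) := fun l =>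
    Submodule.subset_span ⟨l, rfl⟩
  have hφK' : φ₀ ∈ H588.SP.Ks (ofCfg (sq 𝒟 h.good S₀)) c0 c1 := by rw [Ks_ofCfg gE]; exact hφK
  have hK1 : finrank L (H588.SP.Ks (ofCfg (sq 𝒟 h.good S₀)) c0 c1) = 1 := by
    rw [Ks_ofCfg gE]; exact b.dimK
  have hsm : ∀ t ∈ H588.SP.Ks (ofCfg (sq 𝒟 h.good S₀)) c0 c1, ∃ c : L, t = c • φ₀ :=
    fun t ht => exists_smul_of_one hK1 hφK' hφ0 ht
  have hn := n1s_ofCfg hsE gE b.versal (H338.uSemiS_of_uStrictS b.strict)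
  have hspc := spc_ofCfg gE hsE
  have hsv := svers_ofCfg b.versal
  -- the reduction is versal
  have hver : SVersal (sq (sq 𝒟 h.good S₀) gE (Submodule.span L (Set.range φ₀))) c0 c1 := by
    obtain ⟨D⟩ := H96.exists_rd gE.form hRpp
    have h1 := H588.SP.versal_red_s hspc (H96.good_ofCfg gE) two_ne hsv hn hφK'
      rfl hRpp D (fun t ht e _ _ => ⟨H96.zeroConn _, H96.Cf.isD0_zero, fun l => by
        have e1 : (H96.zeroConn (ofCfg (sq 𝒟 h.good S₀)).q).δ (φ₀ l) = 0 := rfl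
        obtain ⟨c, rfl⟩ := hsm t ht
        rw [e1, zero_sub, Submodule.neg_mem_iff]
        exact Submodule.smul_mem _ c (hφR l)⟩)
    have h2 := H588.SP.sversal_toCfg h1
    have hs1 : SpinC1 (toCfg ((ofCfg (sq 𝒟 h.good S₀)).red D)) c0 c1 :=
      H338.spin1_ciso (cIsoSymm (rdIso gE D)) (H338.spin1_sq gE hR hsE)
    exact H338.sversal_ciso (rdIso gE D) (good_sq gE hR) two_ne hs1 h2
  have hlt : finrank L (SQ (sq 𝒟 h.good S₀).q (Submodule.span L (Set.range φ₀))) <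
      finrank L V := by
    refine (finrank_SQ_lt _ gE.form hR hR0).trans (finrank_SQ_lt S₀ h.good.form b.iso ?_)
    rintro rfl
    apply b.x0
    funext l
    exact (Submodule.mem_bot L).mp (b.le (Submodule.subset_span ⟨l, rfl⟩))
  have hstr := h.ih L _ (sq (sq 𝒟 h.good S₀) gE _) (good_sq gE hR) hlt
    (H338.spin1_sq gE hR hsE) hver
  have hm := finrank_Ks_le_neg gE hsE b.strict hR hR0 hstr
  have hrad := H588.SP.rad_le_s (𝒟 := sq 𝒟 h.good S₀) gE two_ne hsE hR le_rfl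
  rw [← thS_ofCfg gE] at hm
  have hKR : H588.SP.Ks (ofCfg (sq 𝒟 h.good S₀)) c0 c1 ≤ (ofCfg (sq 𝒟 h.good S₀)).E
      (pp (ofCfg (sq 𝒟 h.good S₀)).q (Submodule.span L (Set.range φ₀))) := by
    intro t ht
    obtain ⟨c, rfl⟩ := hsm t ht
    exact H96.Cf.mem_E.mpr fun l => ⟨(H96.Cf.mem_K'.mp ht.1).1 l,
      Submodule.smul_mem _ c (hRpp (hφR l))⟩
  obtain ⟨e, he, hind⟩ := exists_two_s hspc (H96.good_ofCfg gE) two_ne hsv hn
    hφK' hK1 hRpp hKR hm hrad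
  -- the map to `R₀`
  obtain ⟨π, hπ⟩ := exists_map_fam (L := L) (fun l => SQmk S ⟨y l, hy l⟩)
    (fun l => (⟨φ₀ l, hφR l⟩ : ↥(Submodule.span L (Set.range φ₀)))) (by
      intro a ha
      apply Subtype.ext
      have h1 : SQmk S (∑ l, a l • (⟨y l, hy l⟩ : ↥(perp 𝒟.q S))) = 0 := by
        rw [map_sum, ← ha]
        exact Finset.sum_congr rfl fun l _ => map_smul _ _ _
      rw [SQmk_eq_zero, Submodule.coe_sum] at h1
      have h2 : SQmk S₀ (∑ l, a l • (⟨y l, b.yS l⟩ : ↥(perp 𝒟.q S₀))) = 0 := by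
        rw [SQmk_eq_zero, Submodule.coe_sum]
        exact hS h1
      rw [Submodule.coe_sum, Submodule.coe_zero, ← h2, map_sum]
      exact Finset.sum_congr rfl fun l _ => (map_smul _ _ _).symm)
  have hgE := H96.good_ofCfg gE
  let c : Fin 2 → (↥(Submodule.span L (Set.range φ₀)) →ₗ[L]
      Dual L ↥(Submodule.span L (Set.range φ₀))) := fun i =>
    epsC (ofCfg (sq 𝒟 h.good S₀)) _ (e i 0)
  have hcsk : ∀ i u v, c i u v = - c i v u := fun i u v => epsC_skew hgE (he i) 0 u v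
  have hcfl : ∀ i s n (u v : ↥(Submodule.span L (Set.range φ₀))),
      (u : SQ 𝒟.q S₀) ∈ (sq 𝒟 h.good S₀).F s n →
      (v : SQ 𝒟.q S₀) ∈ pp (sq 𝒟 h.good S₀).q ((sq 𝒟 h.good S₀).F s n) → c i u v = 0 :=
    fun i s n u v hu hv => epsC_flag hgE hRpp (he i) 0 s n hu hv
  let γ : Fin 2 → (SQ 𝒟.q S →ₗ[L] Dual L (SQ 𝒟.q S)) := fun i =>
    LinearMap.mk₂ L (fun u v => c i (π u) (π v))
      (fun u u' v => by rw [map_add, map_add, LinearMap.add_apply])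
      (fun r u v => by rw [map_smul, map_smul, LinearMap.smul_apply, smul_eq_mul])
      (fun u v v' => by rw [map_add, map_add])
      (fun r u v => by rw [map_smul, map_smul, smul_eq_mul])
  have hγ : ∀ i l k, γ i (SQmk S ⟨y l, hy l⟩) (SQmk S ⟨y k, hy k⟩) =
      c i ⟨φ₀ l, hφR l⟩ ⟨φ₀ k, hφR k⟩ := by
    intro i l k
    show c i (π _) (π _) = _
    rw [hπ, hπ]
  -- compatibility with the flags
  have hlift : ∀ (W : Submodule L V) (u : SQ 𝒟.q S),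
      u ∈ Submodule.span L (Set.range fun l => SQmk S ⟨y l, hy l⟩) → u ∈ SQim S W →
      ((π u : ↥(Submodule.span L (Set.range φ₀))) : SQ 𝒟.q S₀) ∈ SQim S₀ W := by
    intro W u hu huW
    obtain ⟨a, rfl⟩ := (Submodule.mem_span_range_iff_exists_fun L).mp hu
    obtain ⟨w, hwW, hw⟩ := (mem_SQim S).mp huW
    have h1 : SQmk S w = SQmk S (∑ l, a l • (⟨y l, hy l⟩ : ↥(perp 𝒟.q S))) := by
      rw [hw, map_sum]
      exact Finset.sum_congr rfl fun l _ => (map_smul _ _ _).symm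
    rw [← sub_eq_zero, ← map_sub, SQmk_eq_zero] at h1
    have h2 : (w : V) - ∑ l, a l • y l ∈ S := by
      rw [Submodule.coe_sub, Submodule.coe_sum] at h1
      exact h1
    have h3 : ∑ l, a l • y l ∈ perp 𝒟.q S₀ :=
      Submodule.sum_mem _ fun l _ => Submodule.smul_mem _ _ (b.yS l)
    have h4 : (w : V) ∈ perp 𝒟.q S₀ := by
      have := (perp 𝒟.q S₀).add_mem (b.iso (hS h2)) h3
      rwa [sub_add_cancel] at this
    have h5 : ((π (∑ l, a l • SQmk S ⟨y l, hy l⟩) : ↥(Submodule.span L (Set.range φ₀))) :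
        SQ 𝒟.q S₀) = SQmk S₀ ⟨w, h4⟩ := by
      have e1 : (π (∑ l, a l • SQmk S ⟨y l, hy l⟩) : ↥(Submodule.span L (Set.range φ₀))) =
          ∑ l, a l • ⟨φ₀ l, hφR l⟩ := by
        rw [map_sum]
        exact Finset.sum_congr rfl fun l _ => by rw [map_smul, hπ]
      have e2 : SQmk S₀ ⟨w, h4⟩ = SQmk S₀ (∑ l, a l • (⟨y l, b.yS l⟩ : ↥(perp 𝒟.q S₀))) := by
        rw [← sub_eq_zero, ← map_sub, SQmk_eq_zero, Submodule.coe_sub, Submodule.coe_sum]
        exact hS h2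
      rw [e1, e2, Submodule.coe_sum, map_sum]
      exact Finset.sum_congr rfl fun l _ => (map_smul _ _ _).symm
    rw [h5]
    exact SQmk_mem_SQim S₀ hwW
  refine ⟨γ, fun i u v => hcsk i _ _, fun α β hαβ => ?_, fun i s n u hu v hv huF hvF => ?_⟩
  · refine hind α β fun l k => ?_
    have h1 := hαβ l k
    rw [hγ, hγ] at h1
    have h2 : ∀ i, c i ⟨φ₀ l, hφR l⟩ ⟨φ₀ k, hφR k⟩ =
        (ofCfg (sq 𝒟 h.good S₀)).q (e i ((ofCfg (sq 𝒟 h.good S₀)).arm l) (φ₀ l)) (φ₀ k) :=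
      fun i => epsC_indep hRpp (he i) hgE 0 _ ⟨φ₀ l, hφR l⟩ ⟨φ₀ k, hφR k⟩
    rw [h2, h2] at h1
    exact h1
  · have hSi : 𝒟.Iso S := fun u hu => perp_anti hS (b.iso (hS hu))
    have hvF' : v ∈ SQim S (perp 𝒟.q (𝒟.F s n)) := by
      rw [← perp_sq_F h.good hSi]
      exact hvF
    refine hcfl i s n _ _ (hlift _ u hu huF) ?_
    rw [pp_eq gE.form, perp_sq_F h.good b.iso]
    exact hlift _ v hv hvF'

theorem fam_mem_Ks (g : 𝒟.Good) {L' : Type u} [Field L'] [Algebra L L'] {t : J → V}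
    (ht : t ∈ H338.Ks 𝒟 c0 c1) : fam L' t ∈ H338.Ks (bcC 𝒟 L') c0 c1 := by
  rw [← Ks_ofCfg (good_bcC g), H588.SP.Ks_bc g, mem_famS]
  intro f
  rw [← Ks_ofCfg g] at ht
  have h1 : evf f (fam (L := L) L' t) = f 1 • t := by
    funext l
    show ev f ((1 : L') ⊗ₜ[L] t l) = _
    rw [ev_tmul]
    rfl
  rw [h1]
  exact Submodule.smul_mem _ _ ht

/-- the situation is stable under base change -/
theorem B2S.bc {g : 𝒟.Good} {x y : J → V} {S : Submodule L V} (b : B2S 𝒟 g c0 c1 x y S)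
    (hs : SpinC1 𝒟 c0 c1) (L' : Type u)
    [Field L'] [Algebra L L'] : B2S (bcC 𝒟 L') (good_bcC g) c0 c1 (fam L' x) (fam L' y)
      (S.baseChange L') := by
  obtain ⟨i⟩ := exists_cIsoBC (L' := L') g S
  have hc' : CharZero L' := charZero_ext (L := L) L'
  refine ⟨fam_mem_Ks g b.xK, fam_ne_zero b.x0, fun l k => ?_, ?_, ?_, ?_, ?_, fam_mem_Ks g b.yK,
    fun l => ?_, fun hall => b.yn fun l => ?_⟩
  · show qbc L' 𝒟.q ((1 : L') ⊗ₜ[L] x l) ((1 : L') ⊗ₜ[L] x k) = 0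
    rw [qbc_one, b.xx, map_zero]
  · rw [span_fam]
    exact H588.SP.datS_bc g b.dat
  · exact H338.sversal_ciso i (good_sq (good_bcC g) (iso_bcC b.iso)) two_ne
      (H338.spin1_bcC (H338.spin1_sq g b.iso hs))
      (H338.sversal_bcC (good_sq g b.iso) (H338.spin1_sq g b.iso hs) b.versal)
  · exact H338.cIso_uStrictS i (H338.uStrictS_bc b.strict L')
  · rw [H338.ciso_finrank_Ks i, H338.finrank_Ks_bcC]
    exact b.dimK
  · show fam L' y l ∈ perp (qbc L' 𝒟.q) (S.baseChange L')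
    rw [perp_bc]
    exact Submodule.tmul_mem_baseChange_of_mem 1 (b.yS l)
  · have h1 : ∀ f : L' →ₗ[L] L, ev f ((1 : L') ⊗ₜ[L] y l) ∈ S := mem_bc_iff.mp (hall l)
    obtain ⟨f, hf⟩ : ∃ f : L' →ₗ[L] L, f 1 ≠ 0 := by
      by_contra hcon
      push Not at hcon
      exact one_ne_zero (fun_sep (L := L) (L' := L') hcon)
    have h2 := h1 f
    rw [ev_tmul] at h2
    exact (S.smul_mem_iff hf).mp h2

end main

end Vale.Agent.P182.H258
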